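import Vale.Agent.P305S.Sample
import Vale.Agent.P305F.SamFam

/-!
# Static tree sampler, part 16: the interface of the flow algorithm
-/

namespace Vale.Agent.P305S

open Vale.Agent.P305E

theorem poly_le {b a k : ℕ} (c : ℕ) (hc : c ≤ 2 ^ (16 - k)) (hk : k ≤ 16)
    (h : a ≤ c * (b + 2) ^ k) : a ≤ (b + 2) ^ 16 := by
  refine h.trans ?_
  calc c * (b + 2) ^ k ≤ (b + 2) ^ (16 - k) * (b + 2) ^ k :=
        Nat.mul_le_mul_right _ (hc.trans (Nat.pow_le_pow_left (by omega) _))
    _ = _ := by rw [← pow_add]; congr 1; omega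

theorem Tp_le (b : ℕ) : Tp b ≤ 40 * (b + 2) ^ 3 := by
  unfold Tp
  calc 4 * b ^ 2 * (6 * b + 20) ≤ 4 * (b + 2) ^ 2 * (10 * (b + 2)) := by gcongr <;> omega
    _ = _ := by ring

theorem Sz_le (b : ℕ) : Sz b ≤ (b + 2) ^ 16 := by
  refine poly_le (k := 5) 480 (by norm_num) (by norm_num) ?_
  unfold Sz Dp
  calc 2 * (b * (Tp b * (3 * b + 10 + 1)))
      ≤ 2 * ((b + 2) * (40 * (b + 2) ^ 3 * (6 * (b + 2)))) := by
        gcongr
        · omega
        · exact Tp_le b
        · omega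
    _ = _ := by ring

theorem Qs_le (b : ℕ) : Qs b ≤ (b + 2) ^ 16 := by
  refine poly_le (k := 3) 7710 (by norm_num) (by norm_num) ?_
  unfold Qs Ap Dp
  nlinarith [Nat.zero_le (b * b * b), Nat.zero_le (b * b)]

theorem Cs_le (b : ℕ) : Cs b ≤ (b + 2) ^ 16 := by
  refine poly_le (k := 4) 650 (by norm_num) (by norm_num) ?_
  have h := Nat.mul_le_mul_left (13 * (b + 2)) (Tp_le b)
  have h2 : b + 2 ≤ (b + 2) ^ 4 := Nat.le_self_pow (by omega) _
  unfold Cs Cl Dp
  nlinarith [Nat.zero_le (Tp b)]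

/-- The sampler has the properties that the flow algorithm needs. -/
theorem samFam_sample : P305F.SamFam sample 16 := by
  have ok : ∀ {B b tau L E}, P305F.SamPre 16 B b tau L E → EOK b B E := by
    intro B b tau L E h
    have : 2 ^ b ≤ B := le_trans (Nat.pow_le_pow_right (by omega) (by omega)) h.word
    exact ⟨h.len, fun e he => by have := h.edge e he; omega⟩
  refine ⟨by fun_prop, fun B b tau L E h => ?_, fun B b tau L E h ψ Osc hψ hO => ?_⟩
  · refine (sample_tri (ok h) h.word h.tau_le L).mono fun cs t ⟨h1, h2, h3, h4⟩ =>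
      ⟨h1, h2, h3, h4.trans ?_⟩
    gcongr
    exact Cs_le b
  · refine (sample_wp (ok h) h.word h.tau_le (lt_of_le_of_lt ?_ h.sz) hψ
      (le_trans (le_of_eq ?_) hO) 0).trans ?_
    · gcongr
      exact Sz_le b
    · unfold Dp; push_cast; ring
    · have : ((Qs b ^ L : ℕ) : ℝ) ≤ (((b + 2) ^ 16) ^ L : ℕ) := by
        exact_mod_cast Nat.pow_le_pow_left (Qs_le b) L
      rw [Nat.cast_pow] at this
      linarith [mul_le_mul_of_nonneg_right this (nrm_nonneg E ψ)]

end Vale.Agent.P305S
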