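import Mathlib.Tactic
import Mathlib.Analysis.SpecialFunctions.Exp

/-!
# Static tree sampler, part 0: edge lists, cuts, contraction and the norm of a hierarchy

A hierarchy is a list of relabelling maps `c₁, c₂, …`; the tree has the nodes (level, label), the
parent of `(i, a)` is `(i + 1, c_{i+1} a)`, and labels are vertices.
-/

namespace Vale.Agent.P305S

/-- An edge: two ends and a capacity. -/
abbrev Edge : Type := ℕ × ℕ × ℕ

/-- `∑ u_e h(x_e, y_e)`. -/
noncomputable def wsum (E : List Edge) (h : ℕ → ℕ → ℝ) : ℝ :=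
  (E.map fun e => (e.2.2 : ℝ) * h e.1 e.2.1).sum

open Classical in
/-- The indicator that `S` separates `x` and `y`. -/
noncomputable def sep (S : ℕ → Prop) (x y : ℕ) : ℝ := if S x ↔ S y then 0 else 1

/-- The capacity of a cut. -/
noncomputable def cut (E : List Edge) (S : ℕ → Prop) : ℝ := wsum E (sep S)

/-- The total capacity. -/
noncomputable def tot (E : List Edge) : ℝ := wsum E fun _ _ => 1

/-- `∑ u_e |ψ x - ψ y|`. -/
noncomputable def nrm (E : List Edge) (ψ : ℕ → ℝ) : ℝ := wsum E fun x y => |ψ x - ψ y|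

/-- Relabel the ends of all edges. -/
def contract (c : ℕ → ℕ) (E : List Edge) : List Edge := E.map fun e => (c e.1, c e.2.1, e.2.2)

/-- Relabel by all maps of a hierarchy. -/
def contractAll : List (ℕ → ℕ) → List Edge → List Edge
  | [], E => E
  | c :: cs, E => contractAll cs (contract c E)

/-- The label of a vertex at the top of a hierarchy. -/
def labAll : List (ℕ → ℕ) → ℕ → ℕ
  | [], v => v
  | c :: cs, v => labAll cs (c v)

/-- `∑_a h(a) cut({a})`. -/
noncomputable def lev (E : List Edge) (h : ℕ → ℝ) : ℝ :=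
  wsum E fun x y => if x = y then 0 else h x + h y

/-- The norm of `ψ` on the forest of a hierarchy, with the induced cut capacities. -/
noncomputable def FN (ψ : ℕ → ℝ) : List (ℕ → ℕ) → List Edge → ℝ
  | [], _ => 0
  | c :: cs, E => lev E (fun a => |ψ a - ψ (c a)|) + FN ψ cs (contract c E)

/-- The norm on the tree: the top labels hang under one root, each at distance `≤ Osc`. -/
noncomputable def TN (Osc : ℝ) (ψ : ℕ → ℝ) (cs : List (ℕ → ℕ)) (E : List Edge) : ℝ :=
  FN ψ cs E + lev (contractAll cs E) fun _ => Osc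

/-- Every cut of `E₀` is at most `lam` times the cut of `E`. -/
def Dom (lam : ℝ) (E₀ E : List Edge) : Prop := ∀ S, cut E₀ S ≤ lam * cut E S

/-! ### Sums -/

@[simp] theorem wsum_nil (h : ℕ → ℕ → ℝ) : wsum [] h = 0 := rfl

@[simp] theorem wsum_cons (e : Edge) (E : List Edge) (h : ℕ → ℕ → ℝ) :
    wsum (e :: E) h = (e.2.2 : ℝ) * h e.1 e.2.1 + wsum E h := by
  simp [wsum]

@[simp] theorem wsum_append (E E' : List Edge) (h : ℕ → ℕ → ℝ) :
    wsum (E ++ E') h = wsum E h + wsum E' h := by
  simp [wsum]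

theorem wsum_perm {E E' : List Edge} (hp : E.Perm E') (h : ℕ → ℕ → ℝ) :
    wsum E h = wsum E' h := (hp.map _).sum_eq

theorem wsum_le {E : List Edge} {h h' : ℕ → ℕ → ℝ} (hh : ∀ e ∈ E, h e.1 e.2.1 ≤ h' e.1 e.2.1) :
    wsum E h ≤ wsum E h' := by
  induction E with
  | nil => simp
  | cons e E ih =>
    simp only [wsum_cons]
    have h1 := hh e (by simp)
    have h2 := ih fun e he => hh e (by simp [he])
    have h3 : (0 : ℝ) ≤ (e.2.2 : ℝ) := Nat.cast_nonneg _
    nlinarith

theorem wsum_congr {E : List Edge} {h h' : ℕ → ℕ → ℝ} (hh : ∀ e ∈ E, h e.1 e.2.1 = h' e.1 e.2.1) :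
    wsum E h = wsum E h' :=
  le_antisymm (wsum_le fun e he => (hh e he).le) (wsum_le fun e he => (hh e he).ge)

theorem wsum_add (E : List Edge) (h h' : ℕ → ℕ → ℝ) :
    wsum E (fun x y => h x y + h' x y) = wsum E h + wsum E h' := by
  induction E with
  | nil => simp
  | cons e E ih => simp only [wsum_cons, ih]; ring

theorem wsum_mul (E : List Edge) (a : ℝ) (h : ℕ → ℕ → ℝ) :
    wsum E (fun x y => a * h x y) = a * wsum E h := by
  induction E with
  | nil => simp
  | cons e E ih => simp only [wsum_cons, ih]; ring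

@[simp] theorem wsum_zero (E : List Edge) : wsum E (fun _ _ => 0) = 0 := by
  induction E with
  | nil => simp
  | cons e E ih => simp [ih]

theorem wsum_nonneg {E : List Edge} {h : ℕ → ℕ → ℝ} (hh : ∀ e ∈ E, 0 ≤ h e.1 e.2.1) :
    0 ≤ wsum E h := by
  have := wsum_le (E := E) (h := fun _ _ => 0) (h' := h) hh
  simpa using this

theorem wsum_finset_sum {ι : Type*} (E : List Edge) (s : Finset ι) (h : ι → ℕ → ℕ → ℝ) :
    wsum E (fun x y => ∑ i ∈ s, h i x y) = ∑ i ∈ s, wsum E (h i) := by
  induction E with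
  | nil => simp
  | cons e E ih => simp only [wsum_cons, ih, Finset.mul_sum, Finset.sum_add_distrib]

theorem wsum_contract (c : ℕ → ℕ) (E : List Edge) (h : ℕ → ℕ → ℝ) :
    wsum (contract c E) h = wsum E fun x y => h (c x) (c y) := by
  simp [wsum, contract, List.map_map, Function.comp_def]

theorem wsum_filter_le {E : List Edge} (p : Edge → Bool) {h : ℕ → ℕ → ℝ}
    (hh : ∀ e ∈ E, 0 ≤ h e.1 e.2.1) : wsum (E.filter p) h ≤ wsum E h := by
  induction E with
  | nil => simp
  | cons e E ih =>
    have h1 := hh e (by simp)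
    have h2 := ih fun e he => hh e (by simp [he])
    have h3 : (0 : ℝ) ≤ (e.2.2 : ℝ) * h e.1 e.2.1 := mul_nonneg (Nat.cast_nonneg _) h1
    by_cases hp : p e = true
    · simp only [List.filter_cons, hp, if_true, wsum_cons]; linarith
    · simp only [List.filter_cons, hp, wsum_cons]; simp; linarith

theorem wsum_filter_eq {E : List Edge} (p : Edge → Bool) {h : ℕ → ℕ → ℝ}
    (hh : ∀ e ∈ E, p e = false → h e.1 e.2.1 = 0) : wsum (E.filter p) h = wsum E h := by
  induction E with
  | nil => simp
  | cons e E ih =>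
    have h2 := ih fun e he => hh e (by simp [he])
    by_cases hp : p e = true
    · simp only [List.filter_cons, hp, if_true, wsum_cons, h2]
    · have h1 := hh e (by simp) (by simpa using hp)
      simp only [List.filter_cons, hp, wsum_cons, h1]; simp [h2]

theorem contractAll_eq (cs : List (ℕ → ℕ)) (E : List Edge) :
    contractAll cs E = contract (labAll cs) E := by
  induction cs generalizing E with
  | nil => simp [contractAll, contract, labAll]
  | cons c cs ih => simp [contractAll, ih, contract, labAll, List.map_map, Function.comp_def]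

theorem labAll_append (cs cs' : List (ℕ → ℕ)) (v : ℕ) :
    labAll (cs ++ cs') v = labAll cs' (labAll cs v) := by
  induction cs generalizing v with
  | nil => rfl
  | cons c cs ih => simp [labAll, ih]

theorem contractAll_append (cs cs' : List (ℕ → ℕ)) (E : List Edge) :
    contractAll (cs ++ cs') E = contractAll cs' (contractAll cs E) := by
  induction cs generalizing E with
  | nil => rfl
  | cons c cs ih => simp [contractAll, ih]

theorem sep_nonneg (S : ℕ → Prop) (x y : ℕ) : 0 ≤ sep S x y := by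
  unfold sep; split_ifs <;> norm_num

theorem sep_le_one (S : ℕ → Prop) (x y : ℕ) : sep S x y ≤ 1 := by
  unfold sep; split_ifs <;> norm_num

@[simp] theorem sep_self (S : ℕ → Prop) (x : ℕ) : sep S x x = 0 := by simp [sep]

theorem cut_nonneg (E : List Edge) (S : ℕ → Prop) : 0 ≤ cut E S :=
  wsum_nonneg fun _ _ => sep_nonneg _ _ _

theorem tot_nonneg (E : List Edge) : 0 ≤ tot E := wsum_nonneg fun _ _ => zero_le_one

theorem nrm_nonneg (E : List Edge) (ψ : ℕ → ℝ) : 0 ≤ nrm E ψ :=
  wsum_nonneg fun _ _ => abs_nonneg _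

theorem cut_contract (c : ℕ → ℕ) (E : List Edge) (S : ℕ → Prop) :
    cut (contract c E) S = cut E fun v => S (c v) := by
  simp only [cut, wsum_contract]
  rfl

theorem tot_contract (c : ℕ → ℕ) (E : List Edge) : tot (contract c E) = tot E := by
  simp only [tot, wsum_contract]

theorem tot_contractAll (cs : List (ℕ → ℕ)) (E : List Edge) : tot (contractAll cs E) = tot E := by
  rw [contractAll_eq, tot_contract]

theorem lev_nonneg (E : List Edge) {h : ℕ → ℝ} (hh : ∀ a, 0 ≤ h a) : 0 ≤ lev E h :=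
  wsum_nonneg fun e _ => by
    have := hh e.1
    have := hh e.2.1
    show 0 ≤ (if e.1 = e.2.1 then (0 : ℝ) else h e.1 + h e.2.1)
    split_ifs <;> linarith

theorem lev_le_tot (E : List Edge) {h : ℕ → ℝ} {a : ℝ} (ha : 0 ≤ a) (hh : ∀ v, h v ≤ a) :
    lev E h ≤ 2 * a * tot E := by
  rw [tot, ← wsum_mul]
  refine wsum_le fun e _ => ?_
  have := hh e.1
  have := hh e.2.1
  show (if e.1 = e.2.1 then (0 : ℝ) else h e.1 + h e.2.1) ≤ 2 * a * 1
  split_ifs <;> linarith

/-- `lev` as a sum of cuts of single vertices. -/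
theorem lev_eq_sum (E : List Edge) (h : ℕ → ℝ) (s : Finset ℕ)
    (hs : ∀ e ∈ E, e.1 ∈ s ∧ e.2.1 ∈ s) :
    lev E h = ∑ a ∈ s, h a * cut E fun v => v = a := by
  simp only [cut, ← wsum_mul, ← wsum_finset_sum, lev]
  refine wsum_congr fun e he => ?_
  obtain ⟨h1, h2⟩ := hs e he
  by_cases hxy : e.1 = e.2.1
  · simp [hxy]
  · simp only [hxy, if_false]
    have : ∀ a ∈ s, h a * sep (fun v => v = a) e.1 e.2.1
        = (if e.1 = a then h a else 0) + (if e.2.1 = a then h a else 0) := by
      intro a _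
      unfold sep
      by_cases k1 : e.1 = a <;> by_cases k2 : e.2.1 = a
      · exact absurd (k1.trans k2.symm) hxy
      · simp [k1, k2]
      · simp [k1, k2]
      · simp [k1, k2]
    rw [Finset.sum_congr rfl this, Finset.sum_add_distrib]
    simp [h1, h2]

/-- The ends of the edges. -/
def ends (E : List Edge) : Finset ℕ := (E.map fun e => e.1).toFinset ∪ (E.map fun e => e.2.1).toFinset

theorem mem_ends {E : List Edge} {e : Edge} (he : e ∈ E) : e.1 ∈ ends E ∧ e.2.1 ∈ ends E := by
  simp only [ends, Finset.mem_union, List.mem_toFinset, List.mem_map]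
  exact ⟨Or.inl ⟨e, he, rfl⟩, Or.inr ⟨e, he, rfl⟩⟩

theorem card_ends_le (E : List Edge) : (ends E).card ≤ 2 * E.length := by
  refine (Finset.card_union_le _ _).trans ?_
  have h1 := List.toFinset_card_le (E.map fun e => e.1)
  have h2 := List.toFinset_card_le (E.map fun e => e.2.1)
  simp only [List.length_map] at h1 h2
  omega

theorem Dom.lev {lam : ℝ} {E₀ E : List Edge} (hd : Dom lam E₀ E) {h : ℕ → ℝ} (hh : ∀ a, 0 ≤ h a) :
    lev E₀ h ≤ lam * lev E h := by
  rw [lev_eq_sum E₀ h (ends E₀ ∪ ends E) (fun e he => by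
      have := mem_ends he; simp [this.1, this.2]),
    lev_eq_sum E h (ends E₀ ∪ ends E) (fun e he => by
      have := mem_ends he; simp [this.1, this.2]), Finset.mul_sum]
  refine Finset.sum_le_sum fun a _ => ?_
  have := hd fun v => v = a
  have h2 := hh a
  nlinarith

theorem Dom.contract {lam : ℝ} {E₀ E : List Edge} (hd : Dom lam E₀ E) (c : ℕ → ℕ) :
    Dom lam (contract c E₀) (contract c E) := fun S => by
  rw [cut_contract, cut_contract]; exact hd _

theorem Dom.contractAll {lam : ℝ} {E₀ E : List Edge} (hd : Dom lam E₀ E) (cs : List (ℕ → ℕ)) :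
    Dom lam (contractAll cs E₀) (contractAll cs E) := by
  rw [contractAll_eq, contractAll_eq]; exact hd.contract _

theorem Dom.trans {l₁ l₂ : ℝ} {E₀ E₁ E₂ : List Edge} (h₁ : Dom l₁ E₀ E₁) (h₂ : Dom l₂ E₁ E₂)
    (hl : 0 ≤ l₁) : Dom (l₁ * l₂) E₀ E₂ := fun S => by
  have := mul_le_mul_of_nonneg_left (h₂ S) hl
  have := h₁ S
  nlinarith

theorem Dom.refl (E : List Edge) : Dom 1 E E := fun S => by simp

theorem Dom.fn {lam : ℝ} {E₀ E : List Edge} (hd : Dom lam E₀ E) (ψ : ℕ → ℝ) (cs : List (ℕ → ℕ)) :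
    FN ψ cs E₀ ≤ lam * FN ψ cs E := by
  induction cs generalizing E₀ E with
  | nil => simp [FN]
  | cons c cs ih =>
    simp only [FN]
    have h1 := hd.lev (h := fun a => |ψ a - ψ (c a)|) fun _ => abs_nonneg _
    have h2 := ih (hd.contract c)
    linarith

theorem FN_nonneg (ψ : ℕ → ℝ) (cs : List (ℕ → ℕ)) (E : List Edge) : 0 ≤ FN ψ cs E := by
  induction cs generalizing E with
  | nil => simp [FN]
  | cons c cs ih =>
    simp only [FN]
    have := lev_nonneg E (h := fun a => |ψ a - ψ (c a)|) fun _ => abs_nonneg _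
    have := ih (contract c E)
    linarith

theorem FN_append (ψ : ℕ → ℝ) (cs cs' : List (ℕ → ℕ)) (E : List Edge) :
    FN ψ (cs ++ cs') E = FN ψ cs E + FN ψ cs' (contractAll cs E) := by
  induction cs generalizing E with
  | nil => simp [FN, contractAll]
  | cons c cs ih => simp only [List.cons_append, FN, contractAll, ih]; ring

theorem TN_append (Osc : ℝ) (ψ : ℕ → ℝ) (cs cs' : List (ℕ → ℕ)) (E : List Edge) :
    TN Osc ψ (cs ++ cs') E = FN ψ cs E + TN Osc ψ cs' (contractAll cs E) := by
  simp only [TN, FN_append, contractAll_append]; ring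

theorem FN_le {Osc : ℝ} {ψ : ℕ → ℝ} (hψ : ∀ a b, |ψ a - ψ b| ≤ Osc) (cs : List (ℕ → ℕ))
    (E : List Edge) : FN ψ cs E ≤ cs.length * (2 * Osc * tot E) := by
  have h0 : 0 ≤ Osc := (abs_nonneg _).trans (hψ 0 0)
  induction cs generalizing E with
  | nil => simp [FN]
  | cons c cs ih =>
    simp only [FN, List.length_cons]
    have h1 := lev_le_tot E (h := fun a => |ψ a - ψ (c a)|) h0 fun v => hψ _ _
    have h2 := ih (contract c E)
    rw [tot_contract] at h2
    push_cast
    linarith

/-- The worst-case bound for the norm of a tree. -/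
theorem TN_le {Osc : ℝ} {ψ : ℕ → ℝ} (hψ : ∀ a b, |ψ a - ψ b| ≤ Osc) (cs : List (ℕ → ℕ))
    (E : List Edge) : TN Osc ψ cs E ≤ (cs.length + 1) * (2 * Osc * tot E) := by
  have h0 : 0 ≤ Osc := (abs_nonneg _).trans (hψ 0 0)
  have h1 := FN_le hψ cs E
  have h2 := lev_le_tot (contractAll cs E) (h := fun _ => Osc) h0 fun _ => le_rfl
  rw [tot_contractAll] at h2
  unfold TN
  linarith

theorem TN_nonneg {Osc : ℝ} (h0 : 0 ≤ Osc) (ψ : ℕ → ℝ) (cs : List (ℕ → ℕ)) (E : List Edge) :
    0 ≤ TN Osc ψ cs E :=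
  add_nonneg (FN_nonneg _ _ _) (lev_nonneg _ fun _ => h0)

/-- The norm on the core is at most the norm on the graph plus the norm on the forest. -/
theorem nrm_contractAll_le (ψ : ℕ → ℝ) (cs : List (ℕ → ℕ)) (E : List Edge) :
    nrm (contractAll cs E) ψ ≤ nrm E ψ + FN ψ cs E := by
  induction cs generalizing E with
  | nil => simp [FN, contractAll]
  | cons c cs ih =>
    simp only [FN, contractAll]
    have h1 := ih (contract c E)
    have h2 : nrm (contract c E) ψ ≤ nrm E ψ + lev E fun a => |ψ a - ψ (c a)| := by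
      simp only [nrm, lev, wsum_contract, ← wsum_add]
      refine wsum_le fun e _ => ?_
      by_cases hxy : e.1 = e.2.1
      · simp [hxy]
      · simp only [hxy, if_false]
        have a1 := abs_sub_le (ψ (c e.1)) (ψ e.1) (ψ (c e.2.1))
        have a2 := abs_sub_le (ψ e.1) (ψ e.2.1) (ψ (c e.2.1))
        have a3 := abs_sub_comm (ψ (c e.1)) (ψ e.1)
        linarith
    linarith

end Vale.Agent.P305S
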