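import Vale.Agent.P305S.GrowBall

/-!
# Static tree sampler, part 5: the program for region growing
-/

namespace Vale.Agent.P305S

open Function (update)
open Vale.Agent.P305E

/-- Clusters and tree edges. -/
abbrev GS : Type := Arr ℕ × List TEdge
/-- Queue, cut and volume. -/
abbrev QS : Type := MinArr × ℕ × ℕ
/-- The state of one ball. -/
abbrev BS : Type := Arr ℕ × List TEdge × QS

/-- Put an edge into the queue. -/
def scanStep (A : Arr ℕ) (k : ℕ) (s : QS) (r : LEdge) : M QS :=
  if A.get (ex r) = 0 ∨ A.get (ey r) = 0 then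
    num (k + el r) >>= fun k' => num (s.2.1 + eu r) >>= fun cu =>
      num (s.2.2 + eu r * el r) >>= fun vo => pure (s.1.set (ei r) (some (k', ei r)), cu, vo)
  else pure s

/-- Scan the edges of a vertex. -/
def scan (adj : Arr (List LEdge)) (A : Arr ℕ) (v k : ℕ) (s : QS) : M QS :=
  foldM (scanStep A k) s (adj.get v)

/-- Add the vertex `v` with predecessor `w`. -/
def addV (adj : Arr (List LEdge)) (s : BS) (v w : ℕ) (r : LEdge) (p : Key) : M (BS ⊕ GS) :=
  scan adj (s.1.set v (s.1.get w)) v p.1 (s.2.2.1.set p.2 none, s.2.2.2.1 - eu r, s.2.2.2.2)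
    >>= fun q => pure (.inl (s.1.set v (s.1.get w), (v, w, r) :: s.2.1, q))

/-- One round of a ball. -/
noncomputable def ballStep (adj : Arr (List LEdge)) (tab : Arr LEdge) (P : GP) (s : BS) :
    M (BS ⊕ GS) :=
  if P.M * s.2.2.2.1 * P.R ≤ P.g * (P.V + P.M * s.2.2.2.2) then pure (.inr (s.1, s.2.1)) else
  s.2.2.1.min.elim (pure (.inr (s.1, s.2.1))) fun p =>
    if s.1.get (ex (tab.get p.2)) = 0 then
      addV adj s (ex (tab.get p.2)) (ey (tab.get p.2)) (tab.get p.2) p
    else if s.1.get (ey (tab.get p.2)) = 0 then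
      addV adj s (ey (tab.get p.2)) (ex (tab.get p.2)) (tab.get p.2) p
    else pure (.inl (s.1, s.2.1, s.2.2.1.set p.2 none, s.2.2.2.1 - eu (tab.get p.2), s.2.2.2.2))

/-- Grow a ball around `c`, if `c` is still free. -/
noncomputable def ball (adj : Arr (List LEdge)) (tab : Arr LEdge) (P : GP) (g : GS) (c : ℕ) :
    M GS :=
  if g.1.get c = 0 then
    num (c + 1) >>= fun a => scan adj (g.1.set c a) c 0 (MinArr.empty, 0, 0) >>= fun q =>
      loopM (ballStep adj tab P) (5 * P.M + 1) (g.1.set c a, g.2, q)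
  else pure g

/-- One more edge in the adjacency lists. -/
def adjStep (a : Arr (List LEdge)) (r : LEdge) : Arr (List LEdge) :=
  if ex r = ey r then a.set (ex r) (r :: a.get (ex r))
  else (a.set (ex r) (r :: a.get (ex r))).set (ey r) (r :: a.get (ey r))

/-- Region growing inside the clusters `U`. -/
noncomputable def grow (P : GP) (U : Arr ℕ) (EL : List LEdge) : M GS :=
  foldP adjStep (Arr.const []) EL >>= fun adj =>
  foldP (fun a r => a.set (ei r) r) (Arr.const ((0, 0, 0), 0, 0)) EL >>= fun tab =>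
  foldM (fun g r => ball adj tab P g (relab U (ex r)) >>= fun g₁ =>
    ball adj tab P g₁ (ex r) >>= fun g₂ => ball adj tab P g₂ (ey r)) (Arr.const 0, []) EL

/-! ### Code -/

instance : Rep GP := Rep.comap fun P => (P.R, P.M, P.g, P.V)

section impl
variable {α : Type} [Rep α]

@[fun_prop] theorem GP.pure_R : Pure GP.R :=
  Pure.of_comap (fun P : GP => (P.R, P.M, P.g, P.V)) (h := fun p => p.1) (by fun_prop)
@[fun_prop] theorem GP.pure_M : Pure GP.M :=
  Pure.of_comap (fun P : GP => (P.R, P.M, P.g, P.V)) (h := fun p => p.2.1) (by fun_prop)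
@[fun_prop] theorem GP.pure_g : Pure GP.g :=
  Pure.of_comap (fun P : GP => (P.R, P.M, P.g, P.V)) (h := fun p => p.2.2.1) (by fun_prop)
@[fun_prop] theorem GP.pure_V : Pure GP.V :=
  Pure.of_comap (fun P : GP => (P.R, P.M, P.g, P.V)) (h := fun p => p.2.2.2) (by fun_prop)
@[fun_prop] theorem GP.grow_R : Grow GP.R := GP.pure_R.grow
@[fun_prop] theorem GP.grow_M : Grow GP.M := GP.pure_M.grow
@[fun_prop] theorem GP.grow_g : Grow GP.g := GP.pure_g.grow
@[fun_prop] theorem GP.grow_V : Grow GP.V := GP.pure_V.grow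
@[fun_prop] theorem GP.pure_mk {a b c d : α → ℕ} (ha : Pure a) (hb : Pure b) (hc : Pure c)
    (hd : Pure d) : Pure fun x => GP.mk (a x) (b x) (c x) (d x) :=
  Pure.to_comap _ (by fun_prop)

@[fun_prop] theorem pure_relab {A : α → Arr ℕ} {a : α → ℕ} (hA : Pure A) (ha : Pure a) :
    Pure fun x => relab (A x) (a x) := by
  unfold relab
  fun_prop

@[fun_prop] theorem grow_relab {A : α → Arr ℕ} {a : α → ℕ} (hA : Pure A) (ha : Pure a) :
    Grow fun x => relab (A x) (a x) := (pure_relab hA ha).grow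

@[fun_prop] theorem impl_scan {adj : α → Arr (List LEdge)} {A : α → Arr ℕ} {v k : α → ℕ}
    {s : α → QS} (h1 : Pure adj) (h2 : Pure A) (h3 : Pure v) (h4 : Pure k) (h5 : Pure s) :
    Impl fun x => scan (adj x) (A x) (v x) (k x) (s x) := by
  unfold scan scanStep
  fun_prop

@[fun_prop] theorem impl_addV {adj : α → Arr (List LEdge)} {s : α → BS} {v w : α → ℕ}
    {r : α → LEdge} {p : α → Key} (h1 : Pure adj) (h2 : Pure s) (h3 : Pure v) (h4 : Pure w)
    (h5 : Pure r) (h6 : Pure p) : Impl fun x => addV (adj x) (s x) (v x) (w x) (r x) (p x) := by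
  unfold addV
  fun_prop

@[fun_prop] theorem impl_ballStep {adj : α → Arr (List LEdge)} {tab : α → Arr LEdge} {P : α → GP}
    {s : α → BS} (h1 : Pure adj) (h2 : Pure tab) (h3 : Pure P) (h4 : Pure s) :
    Impl fun x => ballStep (adj x) (tab x) (P x) (s x) := by
  unfold ballStep
  fun_prop

@[fun_prop] theorem impl_ball {adj : α → Arr (List LEdge)} {tab : α → Arr LEdge} {P : α → GP}
    {g : α → GS} {c : α → ℕ} (h1 : Pure adj) (h2 : Pure tab) (h3 : Pure P) (h4 : Pure g)
    (h5 : Pure c) : Impl fun x => ball (adj x) (tab x) (P x) (g x) (c x) := by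
  unfold ball
  fun_prop

@[fun_prop] theorem impl_grow {P : α → GP} {U : α → Arr ℕ} {EL : α → List LEdge} (h1 : Pure P)
    (h2 : Pure U) (h3 : Pure EL) : Impl fun x => grow (P x) (U x) (EL x) := by
  unfold grow adjStep
  fun_prop

end impl

end Vale.Agent.P305S
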