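import Vale.Agent.P305S.GrowInv

/-!
# Static tree sampler, part 4: the invariant of one ball of region growing
-/

namespace Vale.Agent.P305S

open Function (update)
open Vale.Agent.P305E

/-- The numbers that control region growing. -/
structure GP where
  R : ℕ
  M : ℕ
  g : ℕ
  V : ℕ

/-- The edge `r` leaves the current ball `a` and has key `k`. -/
def EntOK (A d : ℕ → ℕ) (a : ℕ) (r : LEdge) (k : ℕ) : Prop :=
  (A (ex r) = a ∧ (A (ey r) = 0 ∨ A (ey r) = a) ∧ el r + d (ex r) ≤ k) ∨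
  (A (ey r) = a ∧ (A (ex r) = 0 ∨ A (ex r) = a) ∧ el r + d (ey r) ≤ k)

/-- All entries of the queue are edges that leave the ball, with keys at least `dc`. -/
def QOK (EL : List LEdge) (A d : ℕ → ℕ) (a dc : ℕ) (Q : ℕ → Option Key) : Prop :=
  ∀ i p, Q i = some p → p.2 = i ∧ dc ≤ p.1 ∧ ∃ r ∈ EL, ei r = i ∧ EntOK A d a r p.1

/-- The growth of the volume. -/
def PotOK (EL : List LEdge) (P : GP) (Q : ℕ → Option Key) (cu vo dc : ℕ) : Prop :=
  (P.V : ℝ) * Real.exp (P.g * dc / P.R) + P.M * keyS EL Q ≤ P.V + P.M * vo + P.M * dc * cu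

/-- The invariant of one ball. -/
structure BInv (EL : List LEdge) (up : ℕ → ℕ) (P : GP) (ca va a : ℕ) (A : ℕ → ℕ)
    (ord : List TEdge) (Q : ℕ → Option Key) (cu vo : ℕ) (d : ℕ → ℕ) (dc : ℕ) : Prop where
  s : SInv EL up P.R A ord d
  ent : QOK EL A d a dc Q
  cut : cu = cutS EL Q
  out : outS EL A Q ≤ ca
  vol : va + vo + untS EL A ≤ P.V
  pot : PotOK EL P Q cu vo dc

/-- The queue after a scan. -/
def ScanRel (EL : List LEdge) (A : ℕ → ℕ) (v k : ℕ) (Q Q' : ℕ → Option Key) : Prop :=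
  (∀ r ∈ EL, Q' (ei r) = if isNew A v r then some (k + el r, ei r) else Q (ei r)) ∧
  ∀ i, (∀ r ∈ EL, ei r ≠ i) → Q' i = Q i

/-- Capacity of the new entries. -/
def newU (EL : List LEdge) (A : ℕ → ℕ) (v : ℕ) : ℕ := sm EL fun r => if isNew A v r then eu r else 0
/-- Volume of the new entries. -/
def newV (EL : List LEdge) (A : ℕ → ℕ) (v : ℕ) : ℕ :=
  sm EL fun r => if isNew A v r then eu r * el r else 0
/-- The degree. -/
def degS (EL : List LEdge) (v : ℕ) : ℕ := sm EL fun r => if ex r = v ∨ ey r = v then 1 else 0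

variable {EL : List LEdge} {up : ℕ → ℕ} {P : GP} {ca va a : ℕ} {A : ℕ → ℕ} {ord : List TEdge}
  {Q : ℕ → Option Key} {cu vo : ℕ} {d : ℕ → ℕ} {dc : ℕ}

theorem QOK.touch (hn : (EL.map ei).Nodup) (h : QOK EL A d a dc Q) (ha : a ≠ 0) :
    ∀ r ∈ EL, Q (ei r) ≠ none → A (ex r) ≠ 0 ∨ A (ey r) ≠ 0 := by
  intro r hr hq
  obtain ⟨p, hp⟩ := Option.ne_none_iff_exists'.1 hq
  obtain ⟨_, _, r', hr', e, hE⟩ := h _ p hp
  obtain rfl := ei_inj hn hr' hr e
  rcases hE with ⟨h1, _⟩ | ⟨h1, _⟩
  · left; rwa [h1]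
  · right; rwa [h1]

theorem BInv.scan (hn : (EL.map ei).Nodup) {Q' : ℕ → Option Key} {ord' : List TEdge} {v k : ℕ}
    (ha : a ≠ 0) (hv : A v = 0) (hs : SInv EL up P.R (update A v a) ord' (update d v k))
    (hq : QOK EL A d a k Q)
    (ho : sm EL (fun r => if A (ex r) ≠ A (ey r) ∧ update A v a (ex r) ≠ update A v a (ey r) ∧
      Q (ei r) = none then eu r else 0) ≤ ca)
    (hvol : va + vo + untS EL A ≤ P.V) (hp : PotOK EL P Q (cutS EL Q) vo k)
    (hr : ScanRel EL (update A v a) v k Q Q') :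
    BInv EL up P ca va a (update A v a) ord' Q' (cutS EL Q + newU EL (update A v a) v)
      (vo + newV EL (update A v a) v) (update d v k) k ∧
    potS EL (update A v a) Q' + degS EL v ≤ potS EL A Q := by
  obtain ⟨k1, k2, k3, k4, k5⟩ := scan_sums hv ha (hq.touch hn ha) hr.1
  refine ⟨⟨hs, fun i p hp => ?_, k1.symm, le_trans (sm_le fun r hr => ?_) ho, ?_, ?_⟩, k4⟩
  · have old : Q i = some p → p.2 = i ∧ k ≤ p.1 ∧
        ∃ r ∈ EL, ei r = i ∧ EntOK (update A v a) (update d v k) a r p.1 := fun h => by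
      obtain ⟨h1, h2, r, h3, h4, h5⟩ := hq i p h
      refine ⟨h1, h2, r, h3, h4, ?_⟩
      have ne : ∀ z, A z = a → z ≠ v := fun z hz e => ha (by rw [← hz, e, hv])
      have alt : ∀ z, (A z = 0 ∨ A z = a) → (update A v a z = 0 ∨ update A v a z = a) :=
        fun z hz => by
          by_cases e : z = v
          · subst e; simp
          · rwa [Function.update_of_ne e]
      rcases h5 with ⟨b1, b2, b3⟩ | ⟨b1, b2, b3⟩
      · left
        rw [Function.update_of_ne (ne _ b1), Function.update_of_ne (ne _ b1)]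
        exact ⟨b1, alt _ b2, b3⟩
      · right
        rw [Function.update_of_ne (ne _ b1), Function.update_of_ne (ne _ b1)]
        exact ⟨b1, alt _ b2, b3⟩
    by_cases hi : ∃ r ∈ EL, ei r = i
    · obtain ⟨r, h1, rfl⟩ := hi
      rw [hr.1 r h1] at hp
      by_cases hN : isNew (update A v a) v r
      · rw [if_pos hN] at hp
        obtain rfl := Option.some.inj hp
        refine ⟨rfl, Nat.le_add_right _ _, r, h1, rfl, ?_⟩
        obtain ⟨b1, b2⟩ := hN
        rcases b1 with b1 | b1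
        · left
          rw [b1] at b2 ⊢
          simp only [Function.update_self] at b2 ⊢
          exact ⟨trivial, Or.inl (b2.resolve_left ha), by omega⟩
        · right
          rw [b1] at b2 ⊢
          simp only [Function.update_self] at b2 ⊢
          exact ⟨trivial, Or.inl (b2.resolve_right ha), by omega⟩
      · rw [if_neg hN] at hp
        exact old hp
    · rw [hr.2 i fun r h1 e => hi ⟨r, h1, e⟩] at hp
      exact old hp
  · by_cases h : update A v a (ex r) ≠ update A v a (ey r) ∧ Q' (ei r) = none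
    · have := k5 r hr h.1 h.2
      rw [if_pos h, if_pos ⟨this.1, h.1, this.2⟩]
    · rw [if_neg h]; exact Nat.zero_le _
  · unfold newV; omega
  · unfold PotOK newU newV at *
    rw [k2]
    push_cast
    nlinarith

/-- The facts after the least entry has been removed from the queue. -/
theorem BInv.pop (hn : (EL.map ei).Nodup) (hR : 0 < P.R) (hV : 0 < P.V)
    (hg : (1 + P.M : ℝ) ≤ Real.exp P.g) (hM : 0 < P.M)
    (h : BInv EL up P ca va a A ord Q cu vo d dc)
    (hgo : ¬ P.M * cu * P.R ≤ P.g * (P.V + P.M * vo)) {p : Key} (hp : IsMinOf Q (some p)) :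
    ∃ r ∈ EL, ei r = p.2 ∧ EntOK A d a r p.1 ∧ p.1 ≤ P.R ∧
      QOK EL A d a p.1 (update Q p.2 none) ∧ cu - eu r = cutS EL (update Q p.2 none) ∧
      PotOK EL P (update Q p.2 none) (cu - eu r) vo p.1 ∧
      potS EL A (update Q p.2 none) + 1 ≤ potS EL A Q ∧
      ∀ A' : ℕ → ℕ, A' (ex r) = A' (ey r) → sm EL (fun r => if A (ex r) ≠ A (ey r) ∧
        A' (ex r) ≠ A' (ey r) ∧ update Q p.2 none (ei r) = none then eu r else 0) ≤ ca := by
  obtain ⟨⟨i, hi⟩, hmin⟩ := hp
  obtain ⟨e1, e2, r, hr, e3, e4⟩ := h.ent i p hi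
  subst e1
  have c1 : cutS EL (update Q p.2 none) + eu r = cu := by
    rw [h.cut, cutS, cutS, ← sm_single hn hr eu, ← sm_add]
    refine sm_congr fun r' _ => ?_
    by_cases e : ei r' = ei r
    · simp [e, e3, hi]
    · rw [Function.update_of_ne (by rwa [← e3])]; simp [e]
  have c2 : keyS EL (update Q p.2 none) + p.1 * eu r = keyS EL Q := by
    rw [keyS, keyS, ← sm_single hn hr fun r => p.1 * eu r, ← sm_add]
    refine sm_congr fun r' _ => ?_
    by_cases e : ei r' = ei r
    · simp [e, e3, hi, mul_comm]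
    · rw [Function.update_of_ne (by rwa [← e3])]; simp [e]
  have c3 : p.1 * cu ≤ keyS EL Q := by
    rw [h.cut, keyS, cutS, ← sm_mul]
    refine sm_le fun r' _ => ?_
    rcases hq : Q (ei r') with _ | q
    · simp
    · have := Key.fst_le (hmin _ q hq)
      simp only [reduceCtorEq, if_false, Option.elim]
      rw [mul_comm]
      exact Nat.mul_le_mul_left _ this
  have hR' : (0 : ℝ) < P.R := by exact_mod_cast hR
  have hV' : (0 : ℝ) < P.V := by exact_mod_cast hV
  have hM' : (0 : ℝ) < P.M := by exact_mod_cast hM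
  have pot := h.pot
  unfold PotOK at pot
  have c3' : (p.1 : ℝ) * cu ≤ keyS EL Q := by exact_mod_cast c3
  have e2' : (dc : ℝ) ≤ p.1 := by exact_mod_cast e2
  have go' : (P.g : ℝ) * (P.V + P.M * vo) < P.M * cu * P.R := by exact_mod_cast not_le.1 hgo
  set V := (P.V : ℝ) * Real.exp (P.g * dc / P.R) with hVdef
  set V' := V + P.M * cu * (p.1 - dc) with hV'def
  have v1 : V' ≤ P.V + P.M * vo := by nlinarith
  have g0 : (0 : ℝ) ≤ P.g := Nat.cast_nonneg _
  have vpos : 0 < V := by positivity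
  have v'pos : 0 < V' := by
    have : (0 : ℝ) ≤ P.M * cu * (p.1 - dc) := mul_nonneg (by positivity) (by linarith)
    linarith
  have v2 : (P.V : ℝ) * Real.exp (P.g * p.1 / P.R) ≤ V' := by
    set x : ℝ := P.g * (p.1 - dc) / P.R with hx
    have a1 : x * V' ≤ P.M * cu * (p.1 - dc) := by
      rw [hx, div_mul_eq_mul_div, div_le_iff₀ hR']
      have : P.g * V' ≤ P.M * cu * P.R := by nlinarith
      nlinarith
    have a2 : V ≤ V' * Real.exp (-x) := by
      have := Real.add_one_le_exp (-x)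
      nlinarith
    have a3 : (P.V : ℝ) * Real.exp (P.g * p.1 / P.R) = V * Real.exp x := by
      rw [hVdef, mul_assoc, ← Real.exp_add]
      congr 2
      rw [hx]; ring
    rw [a3]
    calc V * Real.exp x ≤ V' * Real.exp (-x) * Real.exp x :=
          mul_le_mul_of_nonneg_right a2 (Real.exp_pos x).le
      _ = V' := by rw [mul_assoc, ← Real.exp_add]; simp
  have vo' : (vo : ℝ) ≤ P.V := by
    have := h.vol
    exact_mod_cast (by omega : vo ≤ P.V)
  have kR : p.1 ≤ P.R := by
    have a1 : Real.exp (P.g * p.1 / P.R) ≤ Real.exp P.g := by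
      have : (P.V : ℝ) * Real.exp (P.g * p.1 / P.R) ≤ P.V * Real.exp P.g := by nlinarith
      exact le_of_mul_le_mul_left this hV'
    have a2 := Real.exp_le_exp.1 a1
    rw [div_le_iff₀ hR'] at a2
    have gpos : (0 : ℝ) < P.g := by
      rcases g0.lt_or_eq with h | h
      · exact h
      · rw [← h] at hg; simp at hg; linarith
    exact_mod_cast le_of_mul_le_mul_left a2 gpos
  refine ⟨r, hr, e3, e4, kR, fun j q hq => ?_, by omega, ?_, ?_, fun A' hA' => ?_⟩
  · have ne : j ≠ p.2 := fun e => by simp [e] at hq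
    rw [Function.update_of_ne ne] at hq
    obtain ⟨b1, _, b3⟩ := h.ent j q hq
    exact ⟨b1, Key.fst_le (hmin j q hq), b3⟩
  · unfold PotOK
    have b1 : ((cu - eu r : ℕ) : ℝ) = cu - eu r := by
      rw [Nat.cast_sub (by omega)]
    have b2 : (keyS EL (update Q p.2 none) : ℝ) + p.1 * eu r = keyS EL Q := by exact_mod_cast c2
    rw [b1]
    nlinarith
  · have one := sm_single hn hr fun _ => 1
    refine le_trans (Nat.add_le_add_left one.ge _) ?_
    rw [potS, potS, ← sm_add]
    refine sm_le fun r' _ => ?_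
    by_cases e : ei r' = ei r
    · rw [if_pos e, e, e3, Function.update_self, hi]
      simp only [if_true, reduceCtorEq, if_false]
      omega
    · rw [Function.update_of_ne (by rwa [← e3])]; simp [e]
  · refine le_trans (sm_le fun r' hr' => ?_) h.out
    by_cases e : ei r' = ei r
    · obtain rfl := ei_inj hn hr' hr e
      simp [hA']
    · rw [Function.update_of_ne (by rwa [← e3])]
      split_ifs with b1 b2
      · exact le_rfl
      · exact absurd ⟨b1.1, b1.2.2⟩ b2
      all_goals exact Nat.zero_le _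

/-- The invariant between two balls. -/
def GInv (EL : List LEdge) (up : ℕ → ℕ) (P : GP) (k : ℕ) (A : ℕ → ℕ) (ord : List TEdge) : Prop :=
  ∃ d ca va, SInv EL up P.R A ord d ∧ outS EL A (fun _ => none) ≤ ca ∧ va + untS EL A ≤ P.V ∧
    P.M * ca * P.R ≤ P.g * (k * P.V + P.M * va)

theorem GInv.mono {k k' : ℕ} (h : GInv EL up P k A ord) (hk : k ≤ k') : GInv EL up P k' A ord := by
  obtain ⟨d, ca, va, h1, h2, h3, h4⟩ := h
  exact ⟨d, ca, va, h1, h2, h3, h4.trans (by gcongr)⟩

theorem GInv.init (h : sm EL (fun r => eu r * el r) ≤ P.V) : GInv EL up P 0 (fun _ => 0) [] :=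
  ⟨_, 0, 0, SInv.init _ _ _, by simp [outS, sm_const], by simpa [untS] using h, by simp⟩

theorem BInv.stop {k : ℕ} (h : BInv EL up P ca va a A ord Q cu vo d dc)
    (hk : P.M * ca * P.R ≤ P.g * (k * P.V + P.M * va))
    (hs : P.M * cu * P.R ≤ P.g * (P.V + P.M * vo)) :
    GInv EL up P (k + 1) A ord ∧ potS EL A (fun _ => none) ≤ potS EL A Q := by
  refine ⟨⟨d, ca + cu, va + vo, h.s, ?_, h.vol, by nlinarith⟩, sm_le fun r _ => by simp⟩
  refine le_trans ?_ (Nat.add_le_add_right h.out cu)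
  rw [h.cut, outS, outS, cutS, ← sm_add]
  refine sm_le fun r _ => ?_
  by_cases e : Q (ei r) = none <;> simp [e]
  split_ifs <;> simp

theorem BInv.empty (h : BInv EL up P ca va a A ord Q cu vo d dc) (he : ∀ i, Q i = none) :
    P.M * cu * P.R ≤ P.g * (P.V + P.M * vo) := by
  have : cu = 0 := by rw [h.cut, cutS]; simp [he, sm_const]
  simp [this]

theorem GInv.final {k : ℕ} (h : GInv EL up P k A ord) (hk : k ≤ P.M) (hM : 0 < P.M)
    (ha : ∀ r ∈ EL, A (ex r) ≠ 0 ∧ A (ey r) ≠ 0) :
    (P.R : ℝ) * cutTot (rl A) (edges EL) ≤ 2 * P.g * P.V := by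
  obtain ⟨d, ca, va, _, h2, h3, h4⟩ := h
  have a1 : P.M * (ca * P.R) ≤ P.M * (2 * P.g * P.V) := by
    have b1 : k * P.V ≤ P.M * P.V := Nat.mul_le_mul_right _ hk
    have b2 : P.M * va ≤ P.M * P.V := Nat.mul_le_mul_left _ (by omega)
    have b3 : P.g * (k * P.V + P.M * va) ≤ P.g * (P.M * P.V + P.M * P.V) := by gcongr
    nlinarith
  have a2 := Nat.le_of_mul_le_mul_left a1 hM
  have a3 : (sm EL fun r => if rl A (ex r) = rl A (ey r) then 0 else eu r) ≤ ca := by
    refine le_trans (sm_le fun r hr => ?_) h2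
    by_cases e : A (ex r) = A (ey r)
    · simp [rl, e, (ha r hr).2]
    · simp only [ne_eq, e, not_false_eq_true, and_self, if_true]
      split_ifs <;> simp
  rw [cutTot, wsum_edges EL fun x y => rl A x = rl A y]
  have : P.R * (sm EL fun r => if rl A (ex r) = rl A (ey r) then 0 else eu r) ≤ 2 * P.g * P.V := by
    nlinarith
  exact_mod_cast this

end Vale.Agent.P305S
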