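import Vale.Agent.P305S.Round
import Vale.Agent.P305E.MinArr

/-!
# Static tree sampler, part 3: invariants of region growing
-/

namespace Vale.Agent.P305S

open Function (update)
open Vale.Agent.P305E

/-- A sum over a list of edges. -/
def sm (EL : List LEdge) (f : LEdge → ℕ) : ℕ := (EL.map f).sum

@[simp] theorem sm_nil (f : LEdge → ℕ) : sm [] f = 0 := rfl
@[simp] theorem sm_cons (r : LEdge) (EL : List LEdge) (f : LEdge → ℕ) :
    sm (r :: EL) f = f r + sm EL f := by simp [sm]
@[simp] theorem sm_append (EL EL' : List LEdge) (f : LEdge → ℕ) :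
    sm (EL ++ EL') f = sm EL f + sm EL' f := by simp [sm]

theorem sm_le {EL : List LEdge} {f g : LEdge → ℕ} (h : ∀ r ∈ EL, f r ≤ g r) :
    sm EL f ≤ sm EL g := List.sum_le_sum h

theorem sm_congr {EL : List LEdge} {f g : LEdge → ℕ} (h : ∀ r ∈ EL, f r = g r) :
    sm EL f = sm EL g := le_antisymm (sm_le fun r hr => (h r hr).le) (sm_le fun r hr => (h r hr).ge)

theorem sm_add (EL : List LEdge) (f g : LEdge → ℕ) :
    sm EL (fun r => f r + g r) = sm EL f + sm EL g := by
  induction EL with
  | nil => simp
  | cons r EL ih => simp only [sm_cons, ih]; ring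

theorem sm_mul (EL : List LEdge) (a : ℕ) (f : LEdge → ℕ) :
    sm EL (fun r => a * f r) = a * sm EL f := by
  induction EL with
  | nil => simp
  | cons r EL ih => simp only [sm_cons, ih]; ring

theorem sm_const (EL : List LEdge) (a : ℕ) : sm EL (fun _ => a) = a * EL.length := by
  induction EL with
  | nil => simp
  | cons r EL ih => simp only [sm_cons, ih, List.length_cons]; ring

theorem sm_filter (EL : List LEdge) (p : LEdge → Bool) (f : LEdge → ℕ) :
    sm (EL.filter p) f = sm EL fun r => if p r then f r else 0 := by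
  induction EL with
  | nil => simp
  | cons r EL ih => by_cases h : p r = true <;> simp [h, ih]

theorem sm_reverse (EL : List LEdge) (f : LEdge → ℕ) : sm EL.reverse f = sm EL f := by
  simp [sm, List.sum_reverse]

theorem ei_inj {EL : List LEdge} (hn : (EL.map ei).Nodup) {r r' : LEdge} (hr : r ∈ EL)
    (hr' : r' ∈ EL) (h : ei r = ei r') : r = r' := List.inj_on_of_nodup_map hn hr hr' h

theorem sm_single {EL : List LEdge} (hn : (EL.map ei).Nodup) {r₀ : LEdge} (hr : r₀ ∈ EL)
    (f : LEdge → ℕ) : sm EL (fun r => if ei r = ei r₀ then f r else 0) = f r₀ := by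
  induction EL with
  | nil => simp at hr
  | cons r EL ih =>
    have hn' := hn
    simp only [List.map_cons, List.nodup_cons] at hn'
    rw [sm_cons]
    rcases List.mem_cons.1 hr with rfl | hr'
    · have : sm EL (fun r => if ei r = ei r₀ then f r else 0) = sm EL fun _ => 0 :=
        sm_congr fun r hr => if_neg fun h => hn'.1 (List.mem_map.2 ⟨r, hr, h⟩)
      rw [this, sm_const]
      simp
    · rw [if_neg fun h => hn'.1 (List.mem_map.2 ⟨r₀, hr', h.symm⟩), ih hn'.2 hr']
      simp

theorem wsum_edges (EL : List LEdge) (p : ℕ → ℕ → Prop) [∀ x y, Decidable (p x y)] :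
    wsum (edges EL) (fun x y => if p x y then 0 else 1)
      = (sm EL fun r => if p (ex r) (ey r) then 0 else eu r : ℕ) := by
  induction EL with
  | nil => simp
  | cons r EL ih =>
    simp only [edges_cons, wsum_cons, ih, sm_cons]
    push_cast
    split_ifs <;> simp

/-- The centre (or the new label) stored in a table; `0` stands for no entry. -/
def rl (A : ℕ → ℕ) (a : ℕ) : ℕ := if A a = 0 then a else A a - 1

/-- The relabelling map of an array. -/
def relab (A : Arr ℕ) (a : ℕ) : ℕ := if A.get a = 0 then a else A.get a - 1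

theorem relab_eq (A : Arr ℕ) : relab A = rl A.get := rfl

/-- Capacity of the queue. -/
def cutS (EL : List LEdge) (Q : ℕ → Option Key) : ℕ :=
  sm EL fun r => if Q (ei r) = none then 0 else eu r
/-- Capacities times keys. -/
def keyS (EL : List LEdge) (Q : ℕ → Option Key) : ℕ :=
  sm EL fun r => (Q (ei r)).elim 0 fun p => eu r * p.1
/-- Volume of the untouched edges. -/
def untS (EL : List LEdge) (A : ℕ → ℕ) : ℕ :=
  sm EL fun r => if A (ex r) = 0 ∧ A (ey r) = 0 then eu r * el r else 0
/-- Capacity of the cut edges that are not in the queue. -/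
def outS (EL : List LEdge) (A : ℕ → ℕ) (Q : ℕ → Option Key) : ℕ :=
  sm EL fun r => if A (ex r) ≠ A (ey r) ∧ Q (ei r) = none then eu r else 0
/-- The potential for the time. -/
def potS (EL : List LEdge) (A : ℕ → ℕ) (Q : ℕ → Option Key) : ℕ :=
  sm EL fun r => (if Q (ei r) = none then 0 else 1) + (if A (ex r) = 0 then 2 else 0)
    + (if A (ey r) = 0 then 2 else 0)

/-- The structure of the clusters found so far. -/
structure SInv (EL : List LEdge) (up : ℕ → ℕ) (R : ℕ) (A : ℕ → ℕ) (ord : List TEdge)
    (d : ℕ → ℕ) : Prop where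
  ok : OrdOK EL (rl A) ord
  asg : ∀ t ∈ ord, A t.1 ≠ 0 ∧ A t.2.1 ≠ 0
  out : ∀ w, w ∉ verts ord → A w = 0 ∨ A w = w + 1
  cen : ∀ w ∈ verts ord, A w ≠ w + 1
  idem : ∀ w, A w ≠ 0 → A (A w - 1) = A w
  her : ∀ w, A w ≠ 0 → A (up w) = up w + 1
  rad : ∀ t ∈ ord, el t.2.2 + d t.2.1 ≤ d t.1
  radR : ∀ v, d v ≤ R

theorem OrdOK.congr {EL : List LEdge} {ctr ctr' : ℕ → ℕ} : ∀ {l : List TEdge}, OrdOK EL ctr l →
    (∀ t ∈ l, ctr' t.1 = ctr t.1 ∧ ctr' t.2.1 = ctr t.2.1) → OrdOK EL ctr' l
  | [], _, _ => trivial
  | t :: l, ⟨h1, h2, h3, h4, h5, h6, h7, h8⟩, h => by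
    have := h t (by simp)
    exact ⟨h1, h2, h3, h4, h5, by rw [this.1, this.2, h6], by rw [this.2]; exact h7,
      h8.congr fun s hs => h s (by simp [hs])⟩

variable {EL : List LEdge} {up : ℕ → ℕ} {R : ℕ} {A : ℕ → ℕ} {ord : List TEdge} {d : ℕ → ℕ}

theorem SInv.init (EL : List LEdge) (up : ℕ → ℕ) (R : ℕ) :
    SInv EL up R (fun _ => 0) [] fun _ => 0 :=
  ⟨trivial, by simp, by simp, by simp, by simp, by simp, by simp, by simp⟩

theorem SInv.keep (h : SInv EL up R A ord d) {v : ℕ} (hv : A v = 0) (a : ℕ) :
    OrdOK EL (rl (update A v a)) ord ∧ ∀ t ∈ ord, t.1 ≠ v ∧ t.2.1 ≠ v := by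
  have k : ∀ t ∈ ord, t.1 ≠ v ∧ t.2.1 ≠ v := fun t ht =>
    ⟨fun e => (h.asg t ht).1 (e ▸ hv), fun e => (h.asg t ht).2 (e ▸ hv)⟩
  refine ⟨h.ok.congr fun t ht => ?_, k⟩
  simp only [rl, Function.update_of_ne (k t ht).1, Function.update_of_ne (k t ht).2, and_self]

/-- A new centre. -/
theorem SInv.start (h : SInv EL up R A ord d) (hid : ∀ w, up (up w) = up w) {s : ℕ} (hs : A s = 0)
    (hu : up s = s ∨ A (up s) ≠ 0) : SInv EL up R (update A s (s + 1)) ord (update d s 0) := by
  obtain ⟨k1, k2⟩ := h.keep hs (s + 1)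
  have ne : ∀ w, A w ≠ 0 → w ≠ s := fun w hw e => hw (e ▸ hs)
  refine ⟨k1, fun t ht => ?_, fun w hw => ?_, fun w hw => ?_, fun w hw => ?_, fun w hw => ?_,
    fun t ht => ?_, fun v => ?_⟩
  · rw [Function.update_of_ne (k2 t ht).1, Function.update_of_ne (k2 t ht).2]
    exact h.asg t ht
  · by_cases e : w = s
    · subst e; simp
    · rw [Function.update_of_ne e]; exact h.out w hw
  · obtain ⟨t, ht, rfl⟩ := List.mem_map.1 hw
    rw [Function.update_of_ne (k2 t ht).1]
    exact h.cen _ hw
  · by_cases e : w = s
    · subst e; simp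
    · rw [Function.update_of_ne e] at hw ⊢
      have := h.idem w hw
      rw [Function.update_of_ne (ne _ (by rw [this]; exact hw)), this]
  · by_cases e : w = s
    · subst e
      rcases hu with hu | hu
      · rw [hu]; simp
      · have := h.her _ hu
        rw [hid] at this
        rw [Function.update_of_ne (ne _ hu), this]
    · rw [Function.update_of_ne e] at hw
      have := h.her w hw
      rw [Function.update_of_ne (ne _ (by rw [this]; simp)), this]
  · rw [Function.update_of_ne (k2 t ht).1, Function.update_of_ne (k2 t ht).2]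
    exact h.rad t ht
  · by_cases e : v = s
    · subst e; simp
    · rw [Function.update_of_ne e]; exact h.radR v

/-- A new vertex of a cluster. -/
theorem SInv.add (h : SInv EL up R A ord d) (hup : ∀ r ∈ EL, up (ex r) = up (ey r)) {v w k : ℕ}
    {r : LEdge} (hv : A v = 0) (hw : A w ≠ 0) (hr : r ∈ EL)
    (he : (ex r = v ∧ ey r = w) ∨ (ex r = w ∧ ey r = v)) (hd : el r + d w ≤ k) (hk : k ≤ R) :
    SInv EL up R (update A v (A w)) ((v, w, r) :: ord) (update d v k) := by
  obtain ⟨k1, k2⟩ := h.keep hv (A w)
  have ne : ∀ w, A w ≠ 0 → w ≠ v := fun w hw e => hw (e ▸ hv)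
  have hvn : v ∉ verts ord := fun hm => by
    obtain ⟨t, ht, e⟩ := List.mem_map.1 hm
    exact (k2 t ht).1 e
  have hwv := ne w hw
  refine ⟨⟨hvn, fun t ht => (k2 t ht).2, hwv, hr, he, ?_, ?_, k1⟩, fun t ht => ?_, fun z hz => ?_,
    fun z hz => ?_, fun z hz => ?_, fun z hz => ?_, fun t ht => ?_, fun z => ?_⟩
  · simp [rl, Function.update_of_ne hwv, hw]
  · by_cases hm : w ∈ verts ord
    · exact Or.inl hm
    · right
      have := (h.out w hm).resolve_left hw
      simp [rl, Function.update_of_ne hwv, this]
  · rcases List.mem_cons.1 ht with rfl | ht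
    · simp [Function.update_of_ne hwv, hw]
    · rw [Function.update_of_ne (k2 t ht).1, Function.update_of_ne (k2 t ht).2]
      exact h.asg t ht
  · simp only [verts_cons, List.mem_cons, not_or] at hz
    rw [Function.update_of_ne hz.1]
    exact h.out z hz.2
  · rcases List.mem_cons.1 hz with rfl | hz
    · simp only [Function.update_self]
      intro e
      have := h.idem w hw
      rw [e, Nat.add_sub_cancel, hv] at this
      omega
    · rw [Function.update_of_ne fun e : z = v => hvn (e ▸ hz)]
      exact h.cen z hz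
  · have key : ∀ z, A z ≠ 0 → update A v (A w) (A z - 1) = A z := fun z hz => by
      have := h.idem z hz
      rw [Function.update_of_ne (ne _ (by rw [this]; exact hz)), this]
    by_cases e : z = v
    · subst e
      simp only [Function.update_self]
      exact key w hw
    · rw [Function.update_of_ne e] at hz ⊢
      exact key z hz
  · have key : ∀ z, A z ≠ 0 → update A v (A w) (up z) = up z + 1 := fun z hz => by
      have := h.her z hz
      rw [Function.update_of_ne (ne _ (by rw [this]; simp)), this]
    by_cases e : z = v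
    · subst e
      have : up z = up w := by
        have := hup r hr
        rcases he with ⟨a, b⟩ | ⟨a, b⟩
        · rwa [a, b] at this
        · rw [a, b] at this; exact this.symm
      rw [this]
      exact key w hw
    · rw [Function.update_of_ne e] at hz
      exact key z hz
  · rcases List.mem_cons.1 ht with rfl | ht
    · simpa [Function.update_of_ne hwv] using hd
    · rw [Function.update_of_ne (k2 t ht).1, Function.update_of_ne (k2 t ht).2]
      exact h.rad t ht
  · by_cases e : z = v
    · subst e; simpa using hk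
    · rw [Function.update_of_ne e]; exact h.radR z

theorem SInv.scale (h : SInv EL up R A ord d) : ScaleOK EL (rl A) ord ∧
    (∀ w ∈ verts ord, rl A w ≠ w) ∧ Rad ord R ∧ (∀ w, rl A (rl A w) = rl A w) ∧
    ((∀ w, up (up w) = up w) → ∀ w, rl A (up w) = up w) := by
  refine ⟨⟨h.ok, fun w hw => ?_⟩, fun w hw => ?_, ⟨d, h.rad, h.radR⟩, fun w => ?_,
    fun hid w => ?_⟩
  · rcases h.out w hw with e | e <;> simp [rl, e]
  · obtain ⟨t, ht, rfl⟩ := List.mem_map.1 hw
    have a := (h.asg t ht).1
    have b := h.cen _ hw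
    simp only [rl, a, if_false]
    omega
  · by_cases e : A w = 0
    · simp [rl, e]
    · have := h.idem w e
      simp [rl, e, this]
  · by_cases e : A (up w) = 0
    · simp [rl, e]
    · have := h.her _ e
      rw [hid] at this
      simp [rl, this]

/-- The edge `r` enters the queue when `v` is added. -/
def isNew (A : ℕ → ℕ) (v : ℕ) (r : LEdge) : Prop :=
  (ex r = v ∨ ey r = v) ∧ (A (ex r) = 0 ∨ A (ey r) = 0)

instance (A : ℕ → ℕ) (v : ℕ) (r : LEdge) : Decidable (isNew A v r) := by
  unfold isNew; infer_instance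

/-- The sums after a vertex has been added and its edges have been scanned. -/
theorem scan_sums {Q Q' : ℕ → Option Key} {v a k : ℕ} (hv : A v = 0) (ha : a ≠ 0)
    (ht : ∀ r ∈ EL, Q (ei r) ≠ none → A (ex r) ≠ 0 ∨ A (ey r) ≠ 0)
    (hQ : ∀ r ∈ EL, Q' (ei r) = if isNew (update A v a) v r then some (k + el r, ei r)
      else Q (ei r)) :
    cutS EL Q' = cutS EL Q + sm EL (fun r => if isNew (update A v a) v r then eu r else 0) ∧
    keyS EL Q' = keyS EL Q + k * sm EL (fun r => if isNew (update A v a) v r then eu r else 0)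
      + sm EL (fun r => if isNew (update A v a) v r then eu r * el r else 0) ∧
    untS EL (update A v a) + sm EL (fun r => if isNew (update A v a) v r then eu r * el r else 0)
      ≤ untS EL A ∧
    potS EL (update A v a) Q' + sm EL (fun r => if ex r = v ∨ ey r = v then 1 else 0)
      ≤ potS EL A Q ∧
    ∀ r ∈ EL, update A v a (ex r) ≠ update A v a (ey r) → Q' (ei r) = none →
      A (ex r) ≠ A (ey r) ∧ Q (ei r) = none := by
  have unt : ∀ r, isNew (update A v a) v r → A (ex r) = 0 ∧ A (ey r) = 0 := by
    rintro r ⟨h1, h2⟩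
    simp only [Function.update_apply] at h2
    rcases h1 with h1 | h1 <;> rcases h2 with h2 | h2 <;> split_ifs at h2 <;> simp_all
  have emp : ∀ r ∈ EL, isNew (update A v a) v r → Q (ei r) = none := fun r hr hn => by
    by_contra hc
    have := unt r hn
    rcases ht r hr hc with h | h <;> simp_all
  refine ⟨?_, ?_, ?_, ?_, fun r hr h1 h2 => ?_⟩
  · rw [cutS, cutS, ← sm_add]
    refine sm_congr fun r hr => ?_
    rw [hQ r hr]
    by_cases hn : isNew (update A v a) v r
    · simp [hn, emp r hr hn]
    · simp [hn]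
  · rw [keyS, keyS, ← sm_mul, ← sm_add, ← sm_add]
    refine sm_congr fun r hr => ?_
    rw [hQ r hr]
    by_cases hn : isNew (update A v a) v r
    · simp only [hn, if_true, emp r hr hn, Option.elim]; ring
    · simp [hn]
  · rw [untS, untS, ← sm_add]
    refine sm_le fun r hr => ?_
    by_cases hn : isNew (update A v a) v r
    · have h1 := unt r hn
      have h2 : ¬ (update A v a (ex r) = 0 ∧ update A v a (ey r) = 0) := by
        rcases hn.1 with e | e <;> simp [e, ha]
      simp [hn, h1, h2]
    · simp only [hn, if_false, add_zero]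
      by_cases h2 : update A v a (ex r) = 0 ∧ update A v a (ey r) = 0
      · have : A (ex r) = 0 ∧ A (ey r) = 0 := by
          simp only [Function.update_apply] at h2
          obtain ⟨h3, h4⟩ := h2
          split_ifs at h3 h4 <;> simp_all
        simp [h2, this]
      · simp [h2]
  · rw [potS, potS, ← sm_add]
    refine sm_le fun r hr => ?_
    rw [hQ r hr]
    simp only [Function.update_apply]
    by_cases e1 : ex r = v <;> by_cases e2 : ey r = v
    · simp only [e1, hv, ha, if_true, if_false, true_or]; split_ifs <;> omega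
    · simp only [e1, e2, hv, ha, if_true, if_false, true_or]; split_ifs <;> omega
    · simp only [e1, e2, hv, ha, if_true, if_false, or_true]; split_ifs <;> omega
    · have : ¬ isNew (update A v a) v r := fun hn => by rcases hn.1 with e | e <;> contradiction
      simp [e1, e2, this]
  · rw [hQ r hr] at h2
    by_cases hn : isNew (update A v a) v r
    · simp [hn] at h2
    · rw [if_neg hn] at h2
      refine ⟨fun e => hn ?_, h2⟩
      unfold isNew
      simp only [Function.update_apply] at h1 ⊢
      by_cases e1 : ex r = v <;> by_cases e2 : ey r = v <;> simp_all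

end Vale.Agent.P305S
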