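import Vale.Agent.P305S.Grow

/-!
# Static tree sampler, part 6: correctness and time of region growing
-/

namespace Vale.Agent.P305S

open Function (update)
open Vale.Agent.P305E

variable {c : Cx} {EL : List LEdge} {up : ℕ → ℕ} {P : GP} {adj : Arr (List LEdge)}
  {tab : Arr LEdge}

/-- The adjacency lists. -/
def AdjOK (EL : List LEdge) (adj : Arr (List LEdge)) : Prop :=
  ∀ v, adj.get v = (EL.filter fun r => decide (ex r = v ∨ ey r = v)).reverse

theorem adj_fold (EL : List LEdge) (a : Arr (List LEdge)) (v : ℕ) :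
    (EL.foldl adjStep a).get v
      = (EL.filter fun r => decide (ex r = v ∨ ey r = v)).reverse ++ a.get v := by
  induction EL generalizing a with
  | nil => simp
  | cons r EL ih =>
    rw [List.foldl_cons, ih, List.filter_cons]
    unfold adjStep
    by_cases e1 : ex r = v <;> by_cases e2 : ey r = v
    · simp [e1, e2]
    · simp [e1, e2, Ne.symm e2]
    · simp [e1, e2]
    · have e3 : v ≠ ex r := Ne.symm e1
      have e4 : v ≠ ey r := Ne.symm e2
      split_ifs with h1 h2 <;> simp_all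

theorem tab_fold (hn : (EL.map ei).Nodup) (a : Arr LEdge) :
    ∀ r ∈ EL, (EL.foldl (fun a r => a.set (ei r) r) a).get (ei r) = r := by
  have key : ∀ (l : List LEdge) (a : Arr LEdge) (i : ℕ), (∀ r ∈ l, ei r ≠ i) →
      (l.foldl (fun a r => a.set (ei r) r) a).get i = a.get i := by
    intro l
    induction l with
    | nil => simp
    | cons r l ih =>
      intro a i h
      rw [List.foldl_cons, ih _ _ fun r' hr' => h r' (by simp [hr']),
        Arr.get_set_ne _ (Ne.symm (h r (by simp)))]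
  induction EL generalizing a with
  | nil => simp
  | cons r EL ih =>
    simp only [List.map_cons, List.nodup_cons] at hn
    intro r' hr'
    rw [List.foldl_cons]
    rcases List.mem_cons.1 hr' with rfl | hr'
    · rw [key _ _ _ fun r hr e => hn.1 (List.mem_map.2 ⟨r, hr, e⟩), Arr.get_set_self]
    · exact ih hn.2 _ r' hr'

theorem scan_tri (hn : (EL.map ei).Nodup) (ha : AdjOK EL adj) {A : Arr ℕ} {v k : ℕ} {s : QS}
    (hk : ∀ r ∈ EL, k + el r ≤ c.B) (hu : s.2.1 + newU EL A.get v ≤ c.B)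
    (hv : s.2.2 + newV EL A.get v ≤ c.B) :
    Tri c (scan adj A v k s) fun s' t => ScanRel EL A.get v k s.1.get s'.1.get ∧
      s'.2.1 = s.2.1 + newU EL A.get v ∧ s'.2.2 = s.2.2 + newV EL A.get v ∧ t = degS EL v := by
  have mem : ∀ r, r ∈ adj.get v ↔ r ∈ EL ∧ (ex r = v ∨ ey r = v) := fun r => by
    rw [ha v]; simp
  have sum : ∀ f : LEdge → ℕ,
      sm (adj.get v) (fun r => if A.get (ex r) = 0 ∨ A.get (ey r) = 0 then f r else 0)
        = sm EL fun r => if isNew A.get v r then f r else 0 := fun f => by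
    rw [ha v, sm_reverse, sm_filter]
    refine sm_congr fun r _ => ?_
    unfold isNew
    by_cases h1 : ex r = v ∨ ey r = v <;> simp [h1]
  refine (Tri.foldM (fun pre s' t =>
    (∀ r ∈ pre, (A.get (ex r) = 0 ∨ A.get (ey r) = 0) →
      s'.1.get (ei r) = some (k + el r, ei r)) ∧
    (∀ i, (∀ r ∈ pre, (A.get (ex r) = 0 ∨ A.get (ey r) = 0) → ei r ≠ i) →
      s'.1.get i = s.1.get i) ∧
    s'.2.1 = s.2.1 + sm pre (fun r => if A.get (ex r) = 0 ∨ A.get (ey r) = 0 then eu r else 0) ∧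
    s'.2.2 = s.2.2 + sm pre (fun r => if A.get (ex r) = 0 ∨ A.get (ey r) = 0 then eu r * el r
      else 0) ∧ t = pre.length) (by simp) ?_).mono ?_
  · rintro pre r rest s' _ e ⟨h1, h2, h3, h4, rfl⟩
    have hr := (mem r).1 (by simp [e])
    have s1 := sum eu
    have s2 := sum fun r => eu r * el r
    rw [e] at s1 s2
    simp only [sm_append, sm_cons] at s1 s2
    unfold newU at hu
    unfold newV at hv
    unfold scanStep
    simp only [Tri_ite, Tri_bind, Tri_num, Tri_pure, sm_append, sm_cons, sm_nil,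
      List.length_append, List.length_singleton]
    refine ⟨fun hc => ?_, fun hc => ?_⟩
    · rw [if_pos hc] at s1 s2
      refine ⟨hk r hr.1, by omega, by omega, fun r' hr' hc' => ?_, fun i hi => ?_,
        by simp only [hc, if_true]; omega, by simp only [hc, if_true]; omega, trivial⟩
      · by_cases e' : ei r' = ei r
        · have : r' ∈ adj.get v := by
            rw [e]
            simp only [List.mem_append, List.mem_cons] at hr' ⊢
            tauto
          obtain rfl := ei_inj hn ((mem r').1 this).1 hr.1 e'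
          simp
        · rw [MinArr.get_set_ne _ e']
          rcases List.mem_append.1 hr' with h | h
          · exact h1 r' h hc'
          · exact absurd (by rw [List.mem_singleton.1 h]) e'
      · rw [MinArr.get_set_ne _ (Ne.symm (hi r (by simp) hc))]
        exact h2 i fun r' hr' => hi r' (by simp [hr'])
    · refine ⟨fun r' hr' hc' => ?_, fun i hi => h2 i fun r' hr' => hi r' (by simp [hr']),
        by simp only [hc, if_false]; omega, by simp only [hc, if_false]; omega, trivial⟩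
      rcases List.mem_append.1 hr' with h | h
      · exact h1 r' h hc'
      · exact absurd (by rwa [List.mem_singleton.1 h] at hc') hc
  · rintro s' _ ⟨h1, h2, h3, h4, rfl⟩
    refine ⟨⟨fun r hr => ?_, fun i hi => h2 i fun r hr _ => hi r ((mem r).1 hr).1⟩,
      by rw [h3, sum, newU], by rw [h4, sum, newV], ?_⟩
    · by_cases hN : isNew A.get v r
      · rw [if_pos hN]
        exact h1 r ((mem r).2 ⟨hr, hN.1⟩) hN.2
      · rw [if_neg hN]
        refine h2 _ fun r' hr' hc e => hN ?_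
        obtain rfl := ei_inj hn ((mem r').1 hr').1 hr e
        exact ⟨((mem r').1 hr').2, hc⟩
    · have := sm_const (adj.get v) 1
      rw [one_mul] at this
      rw [← this, ha v, sm_reverse, sm_filter, degS]
      exact sm_congr fun r _ => by simp

/-- The assumptions of region growing. -/
structure GOK (B : ℕ) (EL : List LEdge) (up : ℕ → ℕ) (P : GP) : Prop where
  nd : (EL.map ei).Nodup
  idem : ∀ w, up (up w) = up w
  const : ∀ r ∈ EL, up (ex r) = up (ey r)
  hR : 0 < P.R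
  hV : 0 < P.V
  hM : 0 < P.M
  hg : (1 + P.M : ℝ) ≤ Real.exp P.g
  len : 3 * EL.length ≤ P.M
  vol : sm EL (fun r => eu r * el r) ≤ P.V
  cap : sm EL eu ≤ P.V
  bV : 2 * P.V ≤ B
  bl : ∀ r ∈ EL, P.R + el r ≤ B
  bx : ∀ r ∈ EL, ex r < B ∧ ey r < B ∧ up (ex r) < B

theorem newU_le (EL : List LEdge) (A : ℕ → ℕ) (v : ℕ) : newU EL A v ≤ sm EL eu :=
  sm_le fun r _ => by split_ifs <;> simp
theorem newV_le (EL : List LEdge) (A : ℕ → ℕ) (v : ℕ) :
    newV EL A v ≤ sm EL fun r => eu r * el r := sm_le fun r _ => by split_ifs <;> simp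
theorem cutS_le (EL : List LEdge) (Q : ℕ → Option Key) : cutS EL Q ≤ sm EL eu :=
  sm_le fun r _ => by split_ifs <;> simp
theorem potS_le (EL : List LEdge) (A : ℕ → ℕ) (Q : ℕ → Option Key) :
    potS EL A Q ≤ 5 * EL.length := by
  rw [← sm_const]
  exact sm_le fun r _ => by split_ifs <;> simp

theorem ballStep_tri (h : GOK c.B EL up P) (ha : AdjOK EL adj)
    (ht : ∀ r ∈ EL, tab.get (ei r) = r) {k ca va a : ℕ} (ha0 : a ≠ 0)
    (hk : P.M * ca * P.R ≤ P.g * (k * P.V + P.M * va)) {s : BS} {d : ℕ → ℕ} {dc : ℕ}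
    (hs : BInv EL up P ca va a s.1.get s.2.1 s.2.2.1.get s.2.2.2.1 s.2.2.2.2 d dc) :
    Tri c (ballStep adj tab P s) fun r t => Sum.elim
      (fun s' : BS => (∃ d dc, BInv EL up P ca va a s'.1.get s'.2.1 s'.2.2.1.get s'.2.2.2.1
          s'.2.2.2.2 d dc) ∧ (∀ w, s.1.get w ≠ 0 → s'.1.get w ≠ 0) ∧
        t + 1 + potS EL s'.1.get s'.2.2.1.get ≤ potS EL s.1.get s.2.2.1.get)
      (fun g : GS => GInv EL up P (k + 1) g.1.get g.2 ∧ g.1 = s.1 ∧
        t + potS EL g.1.get (fun _ => none) ≤ potS EL s.1.get s.2.2.1.get) r := by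
  obtain ⟨A, ord, Q, cu, vo⟩ := s
  simp only at hs
  unfold ballStep
  simp only [Tri_ite, Tri_pure, Sum.elim_inr, zero_add]
  refine ⟨fun hst => ?_, fun hgo => ?_⟩
  · obtain ⟨h1, h2⟩ := hs.stop hk hst
    exact ⟨h1, trivial, h2⟩
  rcases hm : Q.min with _ | p
  · exact absurd (hs.empty (MinArr.min_eq_none hm)) hgo
  have hmin : IsMinOf Q.get (some p) := hm ▸ Q.isMinOf
  obtain ⟨r, hr, e, hE, kR, q1, q2, q3, q4, q5⟩ := hs.pop h.nd h.hR h.hV h.hg h.hM hgo hmin
  have tb : tab.get p.2 = r := by rw [← e]; exact ht r hr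
  have hvol := hs.vol
  have add : ∀ v w, A.get v = 0 → A.get w = a → el r + d w ≤ p.1 →
      ((ex r = v ∧ ey r = w) ∨ (ex r = w ∧ ey r = v)) →
      Tri c (addV adj (A, ord, Q, cu, vo) v w r p) fun r t => Sum.elim
      (fun s' : BS => (∃ d dc, BInv EL up P ca va a s'.1.get s'.2.1 s'.2.2.1.get s'.2.2.2.1
          s'.2.2.2.2 d dc) ∧ (∀ w, A.get w ≠ 0 → s'.1.get w ≠ 0) ∧
        t + 1 + potS EL s'.1.get s'.2.2.1.get ≤ potS EL A.get Q.get)
      (fun g : GS => GInv EL up P (k + 1) g.1.get g.2 ∧ g.1 = A ∧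
        t + potS EL g.1.get (fun _ => none) ≤ potS EL A.get Q.get) r := by
    intro v w hv hw hd he
    unfold addV
    simp only [hw]
    have b1 := newU_le EL (A.set v a).get v
    have b2 := newV_le EL (A.set v a).get v
    have b3 := cutS_le EL (update Q.get p.2 none)
    have b4 := h.vol
    have b5 := h.cap
    have b6 := h.bV
    refine (scan_tri h.nd ha (fun r' hr' => by have := h.bl r' hr'; omega)
      (by simp only; omega) (by simp only; omega)).bind ?_
    rintro ⟨Q', cu', vo'⟩ _ ⟨s1, s2, s3, rfl⟩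
    simp only at s1 s2 s3
    have sv := hs.s.add h.const hv (by rw [hw]; exact ha0) hr he hd kR
    rw [hw] at sv
    have hA' : update A.get v a (ex r) = update A.get v a (ey r) := by
      have : w ≠ v := fun e => ha0 (by rw [← hw, e, hv])
      rcases he with ⟨b1, b2⟩ | ⟨b1, b2⟩ <;> simp [b1, b2, Function.update_of_ne this, hw]
    obtain ⟨r1, r2⟩ := BInv.scan h.nd ha0 hv sv q1 (q5 _ hA') hvol (q2 ▸ q3) s1
    simp only [Tri_pure, Sum.elim_inl, Arr.set_get_fun]
    refine ⟨⟨_, _, by rw [s2, s3, q2]; exact r1⟩, fun z hz => ?_, by omega⟩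
    rw [Function.update_of_ne fun e : z = v => hz (e ▸ hv)]
    exact hz
  simp only [Option.elim, tb, Tri_ite, Tri_pure, Sum.elim_inl]
  refine ⟨fun hx => ?_, fun hx => ⟨fun hy => ?_, fun hy => ?_⟩⟩
  · rcases hE with ⟨b1, _⟩ | ⟨b1, _, b3⟩
    · exact absurd (b1.symm.trans hx) ha0
    · exact add _ _ hx b1 b3 (Or.inl ⟨rfl, rfl⟩)
  · rcases hE with ⟨b1, _, b3⟩ | ⟨b1, _⟩
    · exact add _ _ hy b1 b3 (Or.inr ⟨rfl, rfl⟩)
    · exact absurd (b1.symm.trans hy) ha0
  · have hA : A.get (ex r) = A.get (ey r) := by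
      rcases hE with ⟨b1, b2, _⟩ | ⟨b1, b2, _⟩
      · rw [b1, b2.resolve_left hy]
      · rw [b1, b2.resolve_left hx]
    refine ⟨⟨d, p.1, hs.s, q1, q2, le_trans (sm_le fun r _ => ?_) (q5 _ hA), hvol, q3⟩,
      fun _ h => h, by have : (Q.set p.2 none).get = update Q.get p.2 none := rfl; rw [this]; omega⟩
    have : (Q.set p.2 none).get = update Q.get p.2 none := rfl
    rw [this]
    simp only [← and_assoc, and_self, le_refl]

theorem ball_tri (h : GOK c.B EL up P) (ha : AdjOK EL adj) (ht : ∀ r ∈ EL, tab.get (ei r) = r)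
    {k : ℕ} {g : GS} (hg : GInv EL up P k g.1.get g.2) {s : ℕ} (hs : s < c.B)
    (hu : up s = s ∨ g.1.get (up s) ≠ 0) :
    Tri c (ball adj tab P g s) fun g' t => GInv EL up P (k + 1) g'.1.get g'.2 ∧ g'.1.get s ≠ 0 ∧
      (∀ w, g.1.get w ≠ 0 → g'.1.get w ≠ 0) ∧
      t + potS EL g'.1.get (fun _ => none) ≤ potS EL g.1.get fun _ => none := by
  obtain ⟨A, ord⟩ := g
  unfold ball
  simp only [Tri_ite, Tri_bind, Tri_num, Tri_pure] at hg hu ⊢
  refine ⟨fun h0 => ⟨hs, ?_⟩, fun h0 => ⟨hg.mono (by omega), h0, fun _ h => h, by simp⟩⟩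
  obtain ⟨d, ca, va, g1, g2, g3, g4⟩ := hg
  have b1 := newU_le EL (A.set s (s + 1)).get s
  have b2 := newV_le EL (A.set s (s + 1)).get s
  have b4 := h.vol
  have b5 := h.cap
  have b6 := h.bV
  refine (scan_tri h.nd ha (fun r' hr' => by have := h.bl r' hr'; omega)
    (by simp only; omega) (by simp only; omega)).mono ?_
  rintro ⟨Q', cu', vo'⟩ _ ⟨s1, s2, s3, rfl⟩
  simp only at s1 s2 s3
  have z : cutS EL (fun _ => none) = 0 := by simp [cutS, sm_const]
  obtain ⟨r1, r2⟩ := BInv.scan (P := P) (ca := ca) (va := va) (vo := 0) (Q := fun _ => none) h.nd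
    (Nat.succ_ne_zero s) h0 (g1.start h.idem h0 hu) (fun _ _ h => by simp at h)
    (le_trans (sm_le fun r _ => by
      by_cases e : A.get (ex r) = A.get (ey r) <;> simp [e]
      split_ifs <;> simp) g2) (by omega) (by simp [PotOK, keyS, sm_const]) s1
  rw [z] at r1
  refine (Tri.loopM (Q := fun g' t => GInv EL up P (k + 1) g'.1.get g'.2 ∧
      (∀ w, (A.set s (s + 1)).get w ≠ 0 → g'.1.get w ≠ 0) ∧
      t + potS EL g'.1.get (fun _ => none) ≤ potS EL (A.set s (s + 1)).get Q'.get)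
    (fun s' t => (∃ d dc, BInv EL up P ca va (s + 1) s'.1.get s'.2.1 s'.2.2.1.get s'.2.2.2.1
      s'.2.2.2.2 d dc) ∧ (∀ w, (A.set s (s + 1)).get w ≠ 0 → s'.1.get w ≠ 0) ∧
      t + potS EL s'.1.get s'.2.2.1.get ≤ potS EL (A.set s (s + 1)).get Q'.get)
    (fun s' => potS EL s'.1.get s'.2.2.1.get) ?_ ⟨⟨_, _, by rw [s2, s3]; exact r1⟩,
      fun _ h => h, by simp⟩ ?_).mono ?_
  · rintro s' t ⟨⟨d', dc, i1⟩, i2, i3⟩
    refine (ballStep_tri h ha ht (Nat.succ_ne_zero s) g4 i1).mono ?_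
    rintro (s'' | g') t' hr
    · obtain ⟨j1, j2, j3⟩ := hr
      exact ⟨⟨j1, fun w hw => j2 w (i2 w hw), by omega⟩, by omega⟩
    · obtain ⟨j1, j2, j3⟩ := hr
      exact ⟨j1, by rw [j2]; exact i2, by omega⟩
  · have := potS_le EL (A.set s (s + 1)).get Q'.get
    have := h.len
    simp only
    omega
  · rintro g' t ⟨j1, j2, j3⟩
    refine ⟨j1, j2 s (by simp), fun w hw => j2 w ?_, ?_⟩
    · rw [Arr.get_set_ne _ fun e : w = s => hw (e ▸ h0)]
      exact hw
    · rw [Arr.set_get_fun] at j3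
      simp only [Nat.succ_eq_add_one] at r2
      omega

/-- The result of region growing. -/
structure GRes (EL : List LEdge) (up : ℕ → ℕ) (P : GP) (g : GS) : Prop where
  ok : ScaleOK EL (relab g.1) g.2
  cen : ∀ w ∈ verts g.2, relab g.1 w ≠ w
  rad : Rad g.2 P.R
  idem : ∀ w, relab g.1 (relab g.1 w) = relab g.1 w
  her : ∀ w, relab g.1 (up w) = up w
  cut : (P.R : ℝ) * cutTot (relab g.1) (edges EL) ≤ 2 * P.g * P.V

theorem grow_tri {U : Arr ℕ} (h : GOK c.B EL (relab U) P) :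
    Tri c (grow P U EL) fun g t => GRes EL (relab U) P g ∧ t ≤ 8 * EL.length := by
  unfold grow
  simp only [Tri_bind, Tri_foldP]
  have ha : AdjOK EL (EL.foldl adjStep (Arr.const [])) := fun v => by simp [adj_fold]
  have ht := tab_fold h.nd (Arr.const ((0, 0, 0), 0, 0))
  generalize EL.foldl adjStep (Arr.const []) = adj at ha
  generalize EL.foldl (fun a r => a.set (ei r) r) (Arr.const ((0, 0, 0), 0, 0)) = tab at ht
  refine (Tri.foldM (fun pre (g : GS) t => GInv EL (relab U) P (3 * pre.length) g.1.get g.2 ∧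
    (∀ r ∈ pre, g.1.get (ex r) ≠ 0 ∧ g.1.get (ey r) ≠ 0) ∧
    t + potS EL g.1.get (fun _ => none) ≤ pre.length + 5 * EL.length) ⟨GInv.init h.vol, by simp,
      by simpa using potS_le EL _ _⟩ ?_).mono ?_
  · rintro pre r rest g t e ⟨i1, i2, i3⟩
    have hr : r ∈ EL := by simp [e]
    obtain ⟨x1, x2, x3⟩ := h.bx r hr
    refine (ball_tri h ha ht i1 x3 (Or.inl (h.idem _))).bind ?_
    rintro g₁ t₁ ⟨a1, a2, a3, a4⟩
    refine (ball_tri h ha ht a1 x1 (Or.inr a2)).bind ?_
    rintro g₂ t₂ ⟨b1, b2, b3, b4⟩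
    refine (ball_tri h ha ht b1 x2 (Or.inr (by rw [← h.const r hr]; exact b3 _ a2))).mono ?_
    rintro g₃ t₃ ⟨c1, c2, c3, c4⟩
    simp only [List.length_append, List.length_singleton]
    refine ⟨c1, fun r' hr' => ?_, by omega⟩
    rcases List.mem_append.1 hr' with k | k
    · exact ⟨c3 _ (b3 _ (a3 _ (i2 r' k).1)), c3 _ (b3 _ (a3 _ (i2 r' k).2))⟩
    · rw [List.mem_singleton.1 k]
      exact ⟨c3 _ b2, c2⟩
  · rintro g t ⟨i1, i2, i3⟩
    have f := i1.final h.len h.hM i2
    obtain ⟨d, ca, va, s, _⟩ := i1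
    obtain ⟨k1, k2, k3, k4, k5⟩ := s.scale
    exact ⟨⟨k1, k2, k3, k4, k5 h.idem, f⟩, by omega⟩

end Vale.Agent.P305S
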