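import Vale.Agent.P305S.Round

/-!
# Static tree sampler, part 7: hereditary hierarchies
-/

namespace Vale.Agent.P305S

/-- The labels of level `j` are fixed by the first `j` maps. -/
def Her (cs : List (ℕ → ℕ)) : Prop :=
  ∀ j v, ∀ c ∈ cs.take j, c (labAll (cs.take j) v) = labAll (cs.take j) v

/-- All maps move vertices only into the set `Z`. -/
def Into (Z : ℕ → Prop) (cs : List (ℕ → ℕ)) : Prop := ∀ c ∈ cs, ∀ v, c v = v ∨ Z (c v)

theorem Her.nil : Her [] := by simp [Her]

theorem Her.top {cs : List (ℕ → ℕ)} (h : Her cs) (v : ℕ) :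
    ∀ c ∈ cs, c (labAll cs v) = labAll cs v := by
  simpa using h cs.length v

theorem Into.lab {Z : ℕ → Prop} : ∀ {cs : List (ℕ → ℕ)}, Into Z cs → ∀ v,
    labAll cs v = v ∨ Z (labAll cs v)
  | [], _, _ => Or.inl rfl
  | c :: cs, h, v => by
    have ih := Into.lab (cs := cs) (fun c' hc' => h c' (by simp [hc'])) (c v)
    simp only [labAll]
    rcases ih with e | e
    · rw [e]; exact h c (by simp) v
    · exact Or.inr e

theorem Into.mono {Z Z' : ℕ → Prop} {cs : List (ℕ → ℕ)} (h : Into Z cs) (hZ : ∀ a, Z a → Z' a) :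
    Into Z' cs := fun c hc v => (h c hc v).imp id (hZ _)

theorem Into.append {Z : ℕ → Prop} {cs cs' : List (ℕ → ℕ)} (h : Into Z cs) (h' : Into Z cs') :
    Into Z (cs ++ cs') := fun c hc => (List.mem_append.1 hc).elim (h c) (h' c)

theorem Her.append {cs cs' : List (ℕ → ℕ)} (h : Her cs) (h' : Her cs')
    (hi : Into (fun z => ∃ v, z = labAll cs v) cs') : Her (cs ++ cs') := by
  intro j v c hc
  rw [List.take_append] at hc ⊢
  rw [labAll_append]
  by_cases hj : j ≤ cs.length
  · have : j - cs.length = 0 := by omega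
    simp only [this, List.take_zero, List.append_nil, labAll] at hc ⊢
    exact h j v c hc
  · rw [List.take_of_length_le (l := cs) (by omega)] at hc ⊢
    rcases List.mem_append.1 hc with hc | hc
    · have hi' : Into (fun z => ∃ v, z = labAll cs v) (cs'.take (j - cs.length)) :=
        fun c hc => hi c (List.mem_of_mem_take hc)
      rcases hi'.lab (labAll cs v) with e | ⟨w, e⟩
      · rw [e]; exact h.top v c hc
      · rw [e]; exact h.top w c hc
    · exact h' _ _ c hc

/-- The centres of a scale are centres of the finer scale. -/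
def HChain : (ℕ → ℕ) → List Scale → Prop
  | _, [] => True
  | prev, S :: Ss => (∀ w, prev (S.ctr w) = S.ctr w) ∧ (∀ w ∈ verts S.ord, S.ctr w ≠ w) ∧
      HChain S.ctr Ss

theorem her_aux {EL : List LEdge} {K : ℝ} (bad : LEdge → Bool) :
    ∀ (Ss : List Scale) (prev : ℕ → ℕ) (cs : List (ℕ → ℕ)), Chain EL K prev Ss → HChain prev Ss →
      Her cs → (∀ c ∈ cs, ∀ z, (prev z = z ∨ BadEnd EL bad z) → c z = z) →
      Her (cs ++ hierOf EL bad prev Ss)
  | [], _, _, _, _, h, _ => by simpa [hierOf] using h
  | S :: Ss, prev, cs, ⟨h1, _, _, h4⟩, ⟨k1, k2, k3⟩, h, hf => by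
    have fix : ∀ z, (S.ctr z = z ∨ BadEnd EL bad z) → relOf EL bad prev S.ord z = z := by
      intro z hz
      unfold relOf
      split_ifs with hb
      · rfl
      · rcases hz with hz | hz
        · exact port_out bad _ z fun hm => k2 z hm hz
        · exact absurd (hz.brk rfl) hb
    have alt : ∀ a, relOf EL bad prev S.ord a = a ∨
        S.ctr (relOf EL bad prev S.ord a) = relOf EL bad prev S.ord a ∨
        BadEnd EL bad (relOf EL bad prev S.ord a) := by
      intro a
      unfold relOf
      split_ifs with hb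
      · exact Or.inl rfl
      · obtain ⟨p1, p2⟩ := h1.port bad a
        exact Or.inr (p2.imp (fun e => p1.trans e.symm) id)
    have hf' : ∀ c ∈ cs ++ [relOf EL bad prev S.ord], ∀ z,
        (S.ctr z = z ∨ BadEnd EL bad z) → c z = z := by
      intro c hc z hz
      rcases List.mem_append.1 hc with hc | hc
      · refine hf c hc z (hz.imp (fun e => ?_) id)
        rw [← e, k1]
      · rw [List.mem_singleton.1 hc]; exact fix z hz
    have := her_aux bad Ss S.ctr (cs ++ [relOf EL bad prev S.ord]) h4 k3 ?_ hf'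
    · simpa [hierOf] using this
    · intro j v c hc
      by_cases hj : j ≤ cs.length
      · rw [List.take_append_of_le_length hj] at hc ⊢
        exact h j v c hc
      · rw [List.take_of_length_le (by simp; omega)] at hc ⊢
        rw [labAll_append]
        simp only [labAll]
        rcases alt (labAll cs v) with e | e
        · rw [e]
          rcases List.mem_append.1 hc with hc | hc
          · exact h.top v c hc
          · rw [List.mem_singleton.1 hc]; exact e
        · exact hf' c hc _ e

theorem her_hierOf {EL : List LEdge} {K : ℝ} (bad : LEdge → Bool) {Ss : List Scale}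
    (hc : Chain EL K id Ss) (hh : HChain id Ss) : Her (hierOf EL bad id Ss) := by
  simpa using her_aux bad Ss id [] hc hh Her.nil (by simp)

theorem port_into {EL : List LEdge} {ctr : ℕ → ℕ} {ord : List TEdge} (h : ScaleOK EL ctr ord)
    (bad : LEdge → Bool) {Z : ℕ → Prop} (hZ : ∀ r ∈ EL, Z (ex r) ∧ Z (ey r)) (a : ℕ) :
    port bad ord a = a ∨ Z (port bad ord a) := by
  by_cases hm : a ∈ verts ord
  · right
    rcases (h.port bad a).2 with p | ⟨r, hr, _, p | p⟩
    · rw [p, h.const (χ := Z) (fun r hr => propext ⟨fun _ => (hZ r hr).2, fun _ => (hZ r hr).1⟩)]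
      obtain ⟨t, ht, rfl⟩ := List.mem_map.1 hm
      obtain ⟨e1, ⟨e2, _⟩ | ⟨_, e2⟩, _⟩ := h.ok.edge t ht
      · rw [← e2]; exact (hZ _ e1).1
      · rw [← e2]; exact (hZ _ e1).2
    · rw [← p]; exact (hZ r hr).1
    · rw [← p]; exact (hZ r hr).2
  · exact Or.inl (port_out bad _ a hm)

theorem into_hierOf {EL : List LEdge} {K : ℝ} (bad : LEdge → Bool) {Z : ℕ → Prop}
    (hZ : ∀ r ∈ EL, Z (ex r) ∧ Z (ey r)) : ∀ (Ss : List Scale) (prev : ℕ → ℕ),
      Chain EL K prev Ss → Into Z (hierOf EL bad prev Ss)
  | [], _, _ => by simp [hierOf, Into]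
  | S :: Ss, prev, ⟨h1, _, _, h4⟩ => by
    intro c hc a
    rcases List.mem_cons.1 hc with rfl | hc
    · unfold relOf
      split_ifs
      · exact Or.inl rfl
      · exact port_into h1 bad hZ a
    · exact into_hierOf bad hZ Ss S.ctr h4 c hc a

end Vale.Agent.P305S
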