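import Vale.Agent.P305S.Loads

/-!
# Static tree sampler, part 10: multiplicative weights
-/

namespace Vale.Agent.P305S

open Vale.Agent.P305E

/-- An edge with its index, its weight and the remainder of its counter. -/
abbrev ME : Type := Edge × ℕ × ℕ × ℕ

/-- The edge with its length. -/
def toL (X V : ℕ) (m : ME) : LEdge := (m.1, min V (X * m.2.2.1 / m.1.2.2 + 1), m.2.1)

/-- The update of the weight. -/
def updW (V ρ : ℕ) (ld : Arr ℕ) (m : ME) : ME :=
  if ρ * m.1.2.2 ≤ ld.get m.2.1 then m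
  else if ρ ≤ m.2.2.2 + ld.get m.2.1 / m.1.2.2 + 1 then
    (m.1, m.2.1, min V (2 * m.2.2.1), min ρ (m.2.2.2 + ld.get m.2.1 / m.1.2.2 + 1 - ρ))
  else (m.1, m.2.1, m.2.2.1, min ρ (m.2.2.2 + ld.get m.2.1 / m.1.2.2 + 1))

/-- One round of the multiplicative weights method. -/
noncomputable def mwuStep (X D ρ : ℕ) (P : GP) (s : List ME × List (List (Arr ℕ))) :
    M (List ME × List (List (Arr ℕ))) :=
  mapP (toL X P.V) s.1 >>= fun EL => roundM D ρ P EL >>= fun q =>
    mapP (updW P.V ρ q.2) s.1 >>= fun st => pure (st, q.1 :: s.2)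

/-- `n` forests. -/
noncomputable def mwuM (X D ρ n : ℕ) (P : GP) (E : List Edge) : M (List (List (Arr ℕ))) :=
  zipIdxP E >>= fun z => mapP (fun p => ((p.1, p.2, 1, 0) : ME)) z >>= fun st =>
    iterM (fun s _ => mwuStep X D ρ P s) (st, []) n >>= fun s => pure s.2

@[fun_prop] theorem impl_mwuM {α : Type} [Rep α] {X D ρ n : α → ℕ} {P : α → GP}
    {E : α → List Edge} (h1 : Pure X) (h2 : Pure D) (h3 : Pure ρ) (h4 : Pure n) (h5 : Pure P)
    (h6 : Pure E) : Impl fun x => mwuM (X x) (D x) (ρ x) (n x) (P x) (E x) := by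
  unfold mwuM mwuStep toL updW
  fun_prop

/-- The potential of one edge. -/
def fpot (ρ : ℕ) (m : ME) : ℕ := m.2.2.1 * (ρ + m.2.2.2)
/-- The counter of one edge. -/
def cnt (ρ : ℕ) (m : ME) : ℕ := Nat.log 2 m.2.2.1 * ρ + m.2.2.2

/-- The conditions on one edge. -/
structure MOK (X V ρ : ℕ) (m : ME) : Prop where
  u1 : 1 ≤ m.1.2.2
  uX : m.1.2.2 ≤ X
  w1 : 1 ≤ m.2.2.1
  wV : 2 * X * m.2.2.1 ≤ V
  rem : m.2.2.2 < ρ

variable {X V ρ : ℕ} {m : ME}

theorem MOK.len (h : MOK X V ρ m) : X * m.2.2.1 ≤ m.1.2.2 * el (toL X V m) ∧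
    m.1.2.2 * el (toL X V m) ≤ 2 * X * m.2.2.1 ∧ el (toL X V m) ≤ V := by
  obtain ⟨⟨x, y, u⟩, i, w, r⟩ := m
  obtain ⟨h1, h2, h3, h4, _⟩ := h
  simp only [toL, el] at *
  have a1 := Nat.div_add_mod (X * w) u
  have a2 := Nat.mod_lt (X * w) (show u > 0 by omega)
  have a3 : X ≤ X * w := Nat.le_mul_of_pos_right _ h3
  refine ⟨?_, ?_, min_le_left _ _⟩
  · rcases min_choice V (X * w / u + 1) with e | e <;> rw [e] <;> nlinarith
  · have : u * min V (X * w / u + 1) ≤ u * (X * w / u + 1) :=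
      Nat.mul_le_mul_left _ (min_le_right _ _)
    rw [mul_add, mul_one] at this
    rw [mul_assoc]
    omega

theorem updW_fst (V ρ : ℕ) (ld : Arr ℕ) (m : ME) :
    (updW V ρ ld m).1 = m.1 ∧ (updW V ρ ld m).2.1 = m.2.1 := by
  unfold updW
  split_ifs <;> simp

theorem MOK.upd (h : MOK X V ρ m) (ld : Arr ℕ) :
    1 ≤ (updW V ρ ld m).2.2.1 ∧ (updW V ρ ld m).2.2.2 < ρ ∧
    X * fpot ρ (updW V ρ ld m)
      ≤ X * fpot ρ m + 2 * (ld.get m.2.1 * el (toL X V m) + X * m.2.2.1) ∧
    (if badF ρ ld (toL X V m) then 0 else ld.get m.2.1) + m.1.2.2 * cnt ρ m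
      ≤ m.1.2.2 * cnt ρ (updW V ρ ld m) ∧
    (if badF ρ ld (toL X V m) then 1 else 0) * (ρ * X) ≤ ld.get m.2.1 * el (toL X V m) := by
  obtain ⟨l1, -, -⟩ := h.len
  have hb : badF ρ ld (toL X V m) = decide (ρ * m.1.2.2 ≤ ld.get m.2.1) := rfl
  rw [hb]
  generalize el (toL X V m) = l at l1
  obtain ⟨⟨x, y, u⟩, i, w, r⟩ := m
  obtain ⟨h1, h2, h3, h4, h5⟩ := h
  simp only [updW, fpot, cnt, decide_eq_true_eq] at *
  generalize ld.get i = a
  have a1 := Nat.div_add_mod a u
  have a2 := Nat.mod_lt a (show u > 0 by omega)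
  have a3 : X ≤ X * w := Nat.le_mul_of_pos_right _ h3
  have a4 : X * w * (a / u) ≤ a * l := by
    calc X * w * (a / u) ≤ u * l * (a / u) := Nat.mul_le_mul_right _ l1
      _ = u * (a / u) * l := by ring
      _ ≤ a * l := Nat.mul_le_mul_right _ (by omega)
  by_cases hbad : ρ * u ≤ a
  · simp only [hbad, if_true]
    refine ⟨h3, h5, by omega, by omega, ?_⟩
    calc 1 * (ρ * X) ≤ ρ * (u * l) := by rw [one_mul]; exact Nat.mul_le_mul_left _ (by omega)
      _ = ρ * u * l := by ring
      _ ≤ a * l := Nat.mul_le_mul_right _ hbad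
  · have a5 : a / u < ρ := by
      rw [Nat.div_lt_iff_lt_mul (by omega)]
      omega
    simp only [hbad, if_false]
    generalize a / u = q at *
    split_ifs with ho
    · have e1 : min V (2 * w) = 2 * w := min_eq_right (by nlinarith)
      have e2 : min ρ (r + q + 1 - ρ) = r + q + 1 - ρ := min_eq_right (by omega)
      have e3 : Nat.log 2 (2 * w) = Nat.log 2 w + 1 := by
        rw [mul_comm]; exact Nat.log_mul_base (by omega) (by omega)
      simp only [e1, e2, e3]
      obtain ⟨s, hs⟩ : ∃ s, r + q + 1 = ρ + s := ⟨r + q + 1 - ρ, by omega⟩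
      have e4 : r + q + 1 - ρ = s := by omega
      rw [e4]
      refine ⟨by omega, by omega, ?_, ?_, by simp⟩
      · have b1 : X * (2 * w * (ρ + s)) = 2 * (X * w * r) + 2 * (X * w * q) + 2 * (X * w) := by
          rw [← hs]; ring
        have b2 : X * w * r ≤ X * w * ρ := Nat.mul_le_mul_left _ h5.le
        nlinarith
      · have b1 : u * ((Nat.log 2 w + 1) * ρ + s) = u * (Nat.log 2 w * ρ + r) + u * q + u := by
          have : (Nat.log 2 w + 1) * ρ + s = Nat.log 2 w * ρ + r + q + 1 := by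
            rw [add_mul]; omega
          rw [this]; ring
        omega
    · have e2 : min ρ (r + q + 1) = r + q + 1 := min_eq_right (by omega)
      simp only [e2]
      refine ⟨h3, by omega, by nlinarith, by nlinarith, by simp⟩

/-- `∑ c_e u_e |ψ x - ψ y|`. -/
noncomputable def cSum (ρ : ℕ) (st : List ME) (ψ : ℕ → ℝ) : ℝ :=
  (st.map fun m => ((m.1.2.2 * cnt ρ m : ℕ) : ℝ) * |ψ m.1.1 - ψ m.1.2.1|).sum

theorem lsum_cast (EL : List LEdge) (ld : ℕ → ℕ) :
    lsum EL ld (fun r => el r) = (sm EL fun r => ld (ei r) * el r : ℕ) := by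
  simp [lsum, sm, Function.comp_def]

/-- One step of the potentials. -/
theorem mwu_step {st : List ME} {N a : ℕ} (hX : 0 < X) (h : ∀ m ∈ st, MOK X V ρ m)
    (hW : (st.map fun m => m.2.2.1).sum ≤ 2 * N) (hV : V = 4 * X * N) (ld : Arr ℕ)
    (hl : lsum (st.map (toL X V)) ld.get (fun r => el r) ≤ a * V) :
    ((st.map (updW V ρ ld)).map (fpot ρ)).sum ≤ (st.map (fpot ρ)).sum + (8 * a + 4) * N ∧
    (∀ ψ, lsum (st.map (toL X V)) ld.get (gd (badF ρ ld) ψ) + cSum ρ st ψ
      ≤ cSum ρ (st.map (updW V ρ ld)) ψ) ∧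
    ((st.map (toL X V)).filter (badF ρ ld)).length * ρ ≤ 4 * a * N := by
  rw [lsum_cast] at hl
  have hl' : (st.map fun m => ld.get m.2.1 * el (toL X V m)).sum ≤ a * V := by
    have : (sm (st.map (toL X V)) fun r => ld.get (ei r) * el r) ≤ a * V := by exact_mod_cast hl
    simpa [sm, Function.comp_def, toL] using this
  refine ⟨?_, fun ψ => ?_, ?_⟩
  · refine Nat.le_of_mul_le_mul_left ?_ hX
    have := List.sum_le_sum (l := st) fun m hm => ((h m hm).upd ld).2.2.1
    simp only [List.sum_map_add, List.sum_map_mul_left] at this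
    rw [List.map_map]
    have e : (st.map (fpot ρ ∘ updW V ρ ld)) = st.map fun m => fpot ρ (updW V ρ ld m) := rfl
    rw [e]
    have := Nat.mul_le_mul_left X hW
    subst hV
    nlinarith
  · simp only [lsum, cSum, List.map_map, ← List.sum_map_add]
    refine List.sum_le_sum fun m hm => ?_
    have k := ((h m hm).upd ld).2.2.2.1
    simp only [Function.comp_def, (updW_fst V ρ ld m).1]
    have k' : ((if badF ρ ld (toL X V m) then 0 else ld.get m.2.1 : ℕ) : ℝ)
        + (m.1.2.2 * cnt ρ m : ℕ) ≤ (m.1.2.2 * cnt ρ (updW V ρ ld m) : ℕ) := by exact_mod_cast k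
    have ab := abs_nonneg (ψ m.1.1 - ψ m.1.2.1)
    have e : (ld.get (ei (toL X V m)) : ℝ) * gd (badF ρ ld) ψ (toL X V m)
        = ((if badF ρ ld (toL X V m) then 0 else ld.get m.2.1 : ℕ) : ℝ)
          * |ψ m.1.1 - ψ m.1.2.1| := by
      unfold gd
      split_ifs <;> simp [toL]
    rw [e]
    nlinarith
  · refine Nat.le_of_mul_le_mul_left ?_ hX
    have := List.sum_le_sum (l := st) fun m hm => ((h m hm).upd ld).2.2.2.2
    simp only [List.sum_map_mul_right] at this
    have e : ((st.map (toL X V)).filter (badF ρ ld)).length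
        = (st.map fun m => if badF ρ ld (toL X V m) then 1 else 0).sum := by
      have := sm_const ((st.map (toL X V)).filter (badF ρ ld)) 1
      rw [one_mul, sm_filter] at this
      rw [← this]
      simp [sm, Function.comp_def]
    rw [e]
    subst hV
    nlinarith

/-- What is known about each forest. -/
structure FRes (E : List Edge) (D n N : ℕ) (cs : List (Arr ℕ)) : Prop where
  len : cs.length = D
  core : ∃ T : Finset ℕ, T.card * n ≤ (D + 1) * N ∧
    ∀ e ∈ contractAll (hier cs) E, e.1 ≠ e.2.1 → e.1 ∈ T ∧ e.2.1 ∈ T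
  her : Her (hier cs)
  into : Into (fun z => z ∈ ends E) (hier cs)

/-- The assumptions of the multiplicative weights method. -/
structure WOK (B : ℕ) (E : List Edge) (X D ρ n N k : ℕ) (P : GP) : Prop where
  len : E.length ≤ N
  cap : ∀ e ∈ E, 1 ≤ e.2.2 ∧ e.2.2 ≤ X
  bx : ∀ e ∈ E, e.1 < B ∧ e.2.1 < B
  hX : 0 < X
  hN : 0 < N
  hn : 0 < n
  hk : 2 * N < 2 ^ k
  hρ : ρ = (8 * (D * (16 * P.g)) + 4) * n
  hV : P.V = 4 * X * N
  hR : P.R = 2 ^ D
  hM : 0 < P.M
  hg : (1 + P.M : ℝ) ≤ Real.exp P.g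
  lenM : 3 * E.length ≤ P.M
  top : 4 * P.g * P.V < 2 ^ D
  bV : 2 * P.V ≤ B
  bl : P.R + P.V ≤ B
  bld : D * (2 * E.length * (2 * P.V)) ≤ B

theorem mwuM_tri {c : Cx} {E : List Edge} {D n N k : ℕ} {P : GP} (h : WOK c.B E X D ρ n N k P) :
    Tri c (mwuM X D ρ n P E) fun css t => css.length = n ∧ (∀ cs ∈ css, FRes E D n N cs) ∧
      (∀ ψ, (css.map fun cs => FN ψ (hier cs) E).sum ≤ (k * ρ : ℕ) * nrm E ψ) ∧
      t ≤ n * (D * (19 * E.length + 4) + 2 * E.length + 1) + 2 * E.length := by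
  have hρ0 : 0 < ρ := by rw [h.hρ]; exact Nat.mul_pos (by omega) h.hn
  have hE : E.length ≤ c.B := by
    have := h.len; have := h.bV; have := h.hV; have := h.hX; nlinarith
  have weights : ∀ (st : List ME) (j : ℕ), j ≤ n →
      (st.map (fpot ρ)).sum ≤ N * ρ + j * ((8 * (D * (16 * P.g)) + 4) * N) →
      (st.map fun m => m.2.2.1).sum ≤ 2 * N := by
    intro st j hj hs
    refine Nat.le_of_mul_le_mul_left ?_ hρ0
    have a1 : ρ * (st.map fun m => m.2.2.1).sum ≤ (st.map (fpot ρ)).sum := by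
      rw [← List.sum_map_mul_left]
      exact List.sum_le_sum fun m _ => by unfold fpot; nlinarith
    have a2 : j * ((8 * (D * (16 * P.g)) + 4) * N) ≤ n * ((8 * (D * (16 * P.g)) + 4) * N) :=
      Nat.mul_le_mul_right _ hj
    have a3 : n * ((8 * (D * (16 * P.g)) + 4) * N) = N * ρ := by rw [h.hρ]; ring
    nlinarith
  unfold mwuM
  simp only [Tri_bind, Tri_zipIdxP, Tri_mapP, Tri_pure, List.length_zipIdx]
  refine ⟨hE, (Tri.iterM (fun j (s : List ME × List (List (Arr ℕ))) t =>
    (s.1.map fun m => (m.1, m.2.1)) = E.zipIdx ∧ (∀ m ∈ s.1, 1 ≤ m.2.2.1 ∧ m.2.2.2 < ρ) ∧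
    (s.1.map (fpot ρ)).sum ≤ N * ρ + j * ((8 * (D * (16 * P.g)) + 4) * N) ∧
    s.2.length = j ∧ (∀ cs ∈ s.2, FRes E D n N cs) ∧
    (∀ ψ, (s.2.map fun cs => FN ψ (hier cs) E).sum ≤ cSum ρ s.1 ψ) ∧
    t ≤ j * (D * (19 * E.length + 4) + 2 * E.length + 1)) ?_ ?_).mono ?_⟩
  · refine ⟨by simp [Function.comp_def], ?_, ?_, rfl, by simp, fun ψ => ?_, by simp⟩
    · simp only [List.mem_map]
      rintro _ ⟨m, _, rfl⟩
      exact ⟨le_rfl, hρ0⟩
    · simp only [List.map_map, Function.comp_def, fpot, one_mul, add_zero, List.map_const',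
        List.sum_replicate, List.length_zipIdx, smul_eq_mul, zero_mul]
      exact Nat.mul_le_mul_right _ h.len
    · simp [cSum, cnt, Function.comp_def]
  · rintro j ⟨st, css⟩ t hj ⟨i1, i2, i3, i4, i5, i6, i7⟩
    simp only at i1 i2 i3 i4 i5 i6
    have hW := weights st j hj.le i3
    have e1 : st.map (fun m => m.1) = E := by
      simpa [Function.comp_def] using congrArg (List.map Prod.fst) i1
    have e2 : (st.map fun m => m.2.1).Nodup := by
      have := congrArg (List.map Prod.snd) i1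
      simp only [List.map_map, Function.comp_def, List.zipIdx_map_snd] at this
      rw [this]
      exact List.nodup_range'
    have hl : st.length = E.length := by rw [← e1, List.length_map]
    have mem : ∀ m ∈ st, m.1 ∈ E := fun m hm => e1 ▸ List.mem_map.2 ⟨m, hm, rfl⟩
    have ok : ∀ m ∈ st, MOK X P.V ρ m := fun m hm => by
      have := List.single_le_sum (l := st.map fun m => m.2.2.1) (fun _ _ => Nat.zero_le _) _
        (List.mem_map.2 ⟨m, hm, rfl⟩)
      refine ⟨(h.cap _ (mem m hm)).1, (h.cap _ (mem m hm)).2, (i2 m hm).1, ?_, (i2 m hm).2⟩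
      rw [h.hV]
      nlinarith
    have ed : edges (st.map (toL X P.V)) = E := by
      rw [← e1]; simp [edges, toL, Function.comp_def]
    have hk : ROK c.B (st.map (toL X P.V)) D P := by
      refine ⟨by simpa [toL, Function.comp_def] using e2, h.hR,
        by rw [h.hV]; have := h.hX; have := h.hN; positivity, h.hM, h.hg,
        by simpa [hl] using h.lenM, ?_, ?_, ?_, h.top, h.bV, ?_, ?_, by simpa [hl] using h.bld⟩
      · have := List.sum_le_sum (l := st) fun m hm => (ok m hm).len.2.1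
        rw [List.sum_map_mul_left] at this
        simp only [sm, List.map_map, Function.comp_def]
        refine le_trans this ?_
        rw [h.hV]
        nlinarith
      · have := List.sum_le_card_nsmul (st.map fun m => m.1.2.2) X (by
          simp only [List.mem_map]
          rintro _ ⟨m, hm, rfl⟩
          exact (ok m hm).uX)
        simp only [sm, List.map_map, Function.comp_def]
        refine le_trans this ?_
        have := h.len
        rw [h.hV, List.length_map, hl, smul_eq_mul]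
        nlinarith
      · simp only [List.mem_map]
        rintro _ ⟨m, hm, rfl⟩
        exact (ok m hm).u1
      · simp only [List.mem_map]
        rintro _ ⟨m, hm, rfl⟩
        have := (ok m hm).len.2.2
        have := h.bl
        omega
      · simp only [List.mem_map]
        rintro _ ⟨m, hm, rfl⟩
        exact h.bx _ (mem m hm)
    unfold mwuStep
    simp only [Tri_bind, Tri_mapP, Tri_pure]
    refine (roundM_tri ρ hk).mono ?_
    rintro ⟨cs, ld⟩ t' ⟨r, ht'⟩
    obtain ⟨s1, s2, s3⟩ := mwu_step (a := D * (16 * P.g)) h.hX ok hW h.hV ld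
      (r.ldl.trans (le_of_eq (by push_cast; ring)))
    refine ⟨?_, ?_, by simp only; nlinarith, by simp [i4], ?_, fun ψ => ?_, ?_⟩
    · rw [← i1, List.map_map]
      exact List.map_congr_left fun m _ => by simp [updW_fst]
    · simp only [List.mem_map]
      rintro _ ⟨m, hm, rfl⟩
      exact ⟨((ok m hm).upd ld).1, ((ok m hm).upd ld).2.1⟩
    · intro cs' hcs
      rcases List.mem_cons.1 hcs with rfl | hcs
      · obtain ⟨T, t1, t2⟩ := r.core
        refine ⟨r.len, ⟨T, ?_, ed ▸ t2⟩, r.her, ed ▸ r.into⟩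
        simp only at t1
        generalize ((st.map (toL X P.V)).filter (badF ρ ld)).length = nb at t1 s3
        have a1 : 2 * nb * n ≤ N := by
          refine Nat.le_of_mul_le_mul_left ?_ (show 0 < 4 * (D * (16 * P.g)) + 2 by omega)
          rw [h.hρ] at s3
          nlinarith
        calc T.card * n ≤ (D + 1) * (2 * nb) * n := Nat.mul_le_mul_right _ t1
          _ = (D + 1) * (2 * nb * n) := by ring
          _ ≤ (D + 1) * N := Nat.mul_le_mul_left _ a1
      · exact i5 cs' hcs
    · have := r.fn ψ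
      rw [ed] at this
      have := i6 ψ
      have := s2 ψ
      simp only [List.map_cons, List.sum_cons]
      linarith
    · simp only [List.length_map, hl] at ht' ⊢
      nlinarith
  · rintro ⟨st, css⟩ t ⟨i1, i2, i3, i4, i5, i6, i7⟩
    refine ⟨i4, i5, fun ψ => (i6 ψ).trans ?_, by omega⟩
    have hW := weights st n le_rfl i3
    have e1 : st.map (fun m => m.1) = E := by
      simpa [Function.comp_def] using congrArg (List.map Prod.fst) i1
    rw [← e1, nrm, wsum, List.map_map, ← List.sum_map_mul_left, cSum]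
    refine List.sum_le_sum fun m hm => ?_
    have a1 := List.single_le_sum (l := st.map fun m => m.2.2.1) (fun _ _ => Nat.zero_le _) _
      (List.mem_map.2 ⟨m, hm, rfl⟩)
    have a2 : Nat.log 2 m.2.2.1 < k :=
      Nat.log_lt_of_lt_pow (by have := (i2 m hm).1; omega) (by have := h.hk; omega)
    have a3 : cnt ρ m ≤ k * ρ := by
      have := (i2 m hm).2
      unfold cnt
      nlinarith
    have a4 : ((m.1.2.2 * cnt ρ m : ℕ) : ℝ) ≤ (k * ρ : ℕ) * m.1.2.2 := by
      rw [mul_comm]
      exact_mod_cast Nat.mul_le_mul_right _ a3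
    simp only [Function.comp_def]
    rw [← mul_assoc]
    exact mul_le_mul_of_nonneg_right a4 (abs_nonneg _)

end Vale.Agent.P305S
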