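import Vale.Agent.P305S.SparseMain
import Vale.Agent.P305S.Mwu
import Vale.Agent.P305E.Rand

/-!
# Static tree sampler, part 14: one level (a random forest and the sparsified core)
-/

namespace Vale.Agent.P305S

open Vale.Agent.P305E

/-- The graph on the top labels, without loops. -/
def coreM (cs : List (Arr ℕ)) (E : List Edge) : M (List Edge) :=
  foldM (fun E' C => mapP (fun e : Edge => ((relab C e.1, relab C e.2.1, e.2.2) : Edge)) E') E cs
    >>= fun E' => filterP (fun e => decide (e.1 ≠ e.2.1)) E'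

/-- One level. -/
noncomputable def level (b tau X D R Mm g n ρ tp : ℕ) (s : List Edge × List (Arr ℕ)) :
    M (List Edge × List (Arr ℕ)) :=
  lenP s.1 >>= fun N => num (4 * X * (N + 1)) >>= fun V =>
  mwuM X D ρ n ⟨R, Mm, g, V⟩ s.1 >>= fun css => ofListP [] css >>= fun A => rbits tau >>= fun j =>
  coreM (A.get j) s.1 >>= fun E' => sparsify b tp ⟨R, Mm, g, V⟩ E' >>= fun H =>
  foldP (fun acc C => C :: acc) s.2 (A.get j) >>= fun acc => pure (H, acc)

@[fun_prop] theorem impl_level {α : Type} [Rep α] {b tau X D R Mm g n ρ tp : α → ℕ}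
    {s : α → List Edge × List (Arr ℕ)} (h1 : Pure b) (h2 : Pure tau) (h3 : Pure X) (h4 : Pure D)
    (h5 : Pure R) (h6 : Pure Mm) (h7 : Pure g) (h8 : Pure n) (h9 : Pure ρ) (h10 : Pure tp)
    (h11 : Pure s) : Impl fun x =>
      level (b x) (tau x) (X x) (D x) (R x) (Mm x) (g x) (n x) (ρ x) (tp x) (s x) := by
  unfold level coreM
  fun_prop

/-- The number of scales. -/
def Dp (b : ℕ) : ℕ := 3 * b + 10
/-- The factor of the threshold for bad edges. -/
def Ap (b : ℕ) : ℕ := 8 * (Dp b * (16 * (b + 3))) + 4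
/-- The factor for the size of the core. -/
def Sz (b : ℕ) : ℕ := 2 * (b * (Tp b * (Dp b + 1)))
/-- The factor for the time of one level. -/
def Cl (b : ℕ) : ℕ := 21 * Dp b + b * (13 * Tp b + 4) + 12

/-- One level with the standard numbers. -/
noncomputable def lvl (b tau : ℕ) : List Edge × List (Arr ℕ) → M (List Edge × List (Arr ℕ)) :=
  level b tau (2 ^ b) (Dp b) (2 ^ Dp b) (4 * 2 ^ b) (b + 3) (2 ^ tau) (Ap b * 2 ^ tau) (Tp b)

/-- The conditions on the input of the sampler. -/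
structure EOK (b B : ℕ) (E : List Edge) : Prop where
  len : E.length ≤ 2 ^ b
  each : ∀ e ∈ E, 1 ≤ e.2.2 ∧ e.2.2 < 2 ^ b ∧ e.1 < B ∧ e.2.1 < B

theorem coreM_tri {c : Cx} (cs : List (Arr ℕ)) (E : List Edge) :
    Tri c (coreM cs E) fun E' t => E' = (contractAll (hier cs) E).filter
      (fun e => decide (e.1 ≠ e.2.1)) ∧ t = cs.length * (E.length + 1) + E.length := by
  have len : ∀ (cs : List (ℕ → ℕ)), (contractAll cs E).length = E.length := fun cs => by
    simp [contractAll_eq, contract]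
  unfold coreM
  refine (Tri.foldM (fun pre E' t => E' = contractAll (hier pre) E ∧
    t = pre.length * (E.length + 1)) ⟨rfl, by simp⟩ ?_).bind ?_
  · rintro pre C rest _ _ - ⟨rfl, rfl⟩
    simp only [Tri_mapP, len, hier, List.map_append, contractAll_append, List.length_append,
      List.length_singleton]
    exact ⟨rfl, by ring⟩
  · rintro _ _ ⟨rfl, rfl⟩
    simp [len]

theorem big_le {b B : ℕ} (hB : 2 ^ (6 * b + 20) ≤ B) {a : ℕ} (c k : ℕ) (hc : c ≤ 2 ^ 20)
    (hk : k ≤ 6) (h : a ≤ c * (2 ^ b) ^ k) : a ≤ B := by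
  refine h.trans (le_trans ?_ hB)
  calc c * (2 ^ b) ^ k ≤ 2 ^ 20 * (2 ^ b) ^ 6 :=
        Nat.mul_le_mul hc (Nat.pow_le_pow_right (by positivity) hk)
    _ = _ := by ring

theorem numbers {b B N : ℕ} (hB : 2 ^ (6 * b + 20) ≤ B) (hN : N ≤ 2 ^ b) :
    4 * (b + 3) * (4 * 2 ^ b * (N + 1)) < 2 ^ Dp b ∧ 2 * (4 * 2 ^ b * (N + 1)) ≤ B ∧
    2 ^ Dp b + 4 * 2 ^ b * (N + 1) ≤ B ∧ Dp b * (2 * N * (2 * (4 * 2 ^ b * (N + 1)))) ≤ B ∧
    2 * (N + 1) < 2 ^ (b + 3) ∧ (1 + (4 * 2 ^ b : ℕ) : ℝ) ≤ Real.exp (b + 3 : ℕ) := by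
  have b1 : b < 2 ^ b := Nat.lt_two_pow_self
  have e : 2 ^ Dp b = 1024 * (2 ^ b) ^ 3 := by unfold Dp; ring
  have e2 : 2 ^ (b + 3) = 8 * 2 ^ b := by ring
  have k := @big_le b B hB
  have ex := two_pow_le_exp (b + 3)
  have e3 : (2 : ℝ) ^ (b + 3) = 8 * 2 ^ b := by ring
  have e4 : (1 : ℝ) ≤ 2 ^ b := one_le_pow₀ (by norm_num)
  rw [e, e2]
  unfold Dp
  clear hB e e2
  refine ⟨?_, ?_, ?_, ?_, by omega, by push_cast at ex ⊢; linarith⟩
  all_goals generalize 2 ^ b = x at *
  · calc 4 * (b + 3) * (4 * x * (N + 1)) ≤ 4 * (3 * x) * (4 * x * (2 * x)) := by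
          gcongr <;> omega
      _ = 96 * x ^ 3 := by ring
      _ < _ := by have : 0 < x ^ 3 := pow_pos (by omega) _
                  omega
  · refine k 16 2 (by norm_num) (by norm_num) ?_
    calc 2 * (4 * x * (N + 1)) ≤ 2 * (4 * x * (2 * x)) := by gcongr; omega
      _ = _ := by ring
  · refine k 1032 3 (by norm_num) (by norm_num) ?_
    calc 1024 * x ^ 3 + 4 * x * (N + 1) ≤ 1024 * x ^ 3 + 4 * x * (2 * (x * x)) := by
          gcongr; nlinarith
      _ = _ := by ring
  · refine k 320 4 (by norm_num) (by norm_num) ?_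
    calc (3 * b + 10) * (2 * N * (2 * (4 * x * (N + 1))))
        ≤ (10 * x) * (2 * x * (2 * (4 * x * (2 * x)))) := by gcongr <;> omega
      _ = _ := by ring

variable {b tau B : ℕ} {E : List Edge}

theorem EOK.wok (h : EOK b B E) (hB : 2 ^ (6 * b + 20) ≤ B) :
    WOK B E (2 ^ b) (Dp b) (Ap b * 2 ^ tau) (2 ^ tau) (E.length + 1) (b + 3)
      ⟨2 ^ Dp b, 4 * 2 ^ b, b + 3, 4 * 2 ^ b * (E.length + 1)⟩ := by
  obtain ⟨n1, n2, n3, n4, n5, n6⟩ := numbers hB h.len
  exact ⟨by omega, fun e he => ⟨(h.each e he).1, (h.each e he).2.1.le⟩,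
    fun e he => (h.each e he).2.2, by positivity, by omega, by positivity, n5, rfl, rfl, rfl,
    by positivity, n6, by have := h.len; simp only; omega, n1, n2, n3, n4⟩

theorem EOK.sok (h : EOK b B E) (hB : 2 ^ (6 * b + 20) ≤ B) :
    SOK B (2 ^ b) E.length ⟨2 ^ Dp b, 4 * 2 ^ b, b + 3, 4 * 2 ^ b * (E.length + 1)⟩ := by
  obtain ⟨n1, n2, n3, -, -, n6⟩ := numbers hB h.len
  have := h.len
  have : 0 < 2 ^ b := by positivity
  have k : 2 * (b + 3) * (4 * 2 ^ b * (E.length + 1))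
      ≤ 4 * (b + 3) * (4 * 2 ^ b * (E.length + 1)) := Nat.mul_le_mul_right _ (by omega)
  exact ⟨by positivity, by positivity, n6, by simp only; omega, by simp only; nlinarith,
    k.trans_lt n1, n2, by simp only; nlinarith, by nlinarith, by nlinarith⟩

theorem FRes.core_ok {D n N : ℕ} {cs : List (Arr ℕ)} (h : FRes E D n N cs) (hE : EOK b B E) :
    ∃ T : Finset ℕ, T.card * n ≤ (D + 1) * N ∧
      EndsIn B T ((contractAll (hier cs) E).filter fun e => decide (e.1 ≠ e.2.1)) ∧
      ((contractAll (hier cs) E).filter fun e => decide (e.1 ≠ e.2.1)).length ≤ E.length ∧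
      (∀ e ∈ (contractAll (hier cs) E).filter fun e => decide (e.1 ≠ e.2.1), 1 ≤ e.2.2) ∧
      ∀ e ∈ (contractAll (hier cs) E).filter fun e => decide (e.1 ≠ e.2.1),
        ∃ e' ∈ E, e.1 = labAll (hier cs) e'.1 ∧ e.2.1 = labAll (hier cs) e'.2.1 := by
  obtain ⟨T, t1, t2⟩ := h.core
  have src : ∀ e ∈ contractAll (hier cs) E, ∃ e' ∈ E,
      e = (labAll (hier cs) e'.1, labAll (hier cs) e'.2.1, e'.2.2) := fun e he => by
    rw [contractAll_eq] at he
    obtain ⟨e', h1, rfl⟩ := List.mem_map.1 he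
    exact ⟨e', h1, rfl⟩
  have lt : ∀ v < B, labAll (hier cs) v < B := fun v hv => by
    rcases h.into.lab v with e | e
    · rwa [e]
    · simp only [ends, Finset.mem_union, List.mem_toFinset, List.mem_map] at e
      rcases e with ⟨e, he, k⟩ | ⟨e, he, k⟩
      · rw [← k]; exact (hE.each e he).2.2.1
      · rw [← k]; exact (hE.each e he).2.2.2
  refine ⟨T, t1, fun e he => ?_, (List.length_filter_le _ _).trans
    (by simp [contractAll_eq, contract]), fun e he => ?_, fun e he => ?_⟩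
  · obtain ⟨h1, h2⟩ := List.mem_filter.1 he
    have := t2 e h1 (by simpa using h2)
    obtain ⟨e', k, rfl⟩ := src e h1
    exact ⟨lt _ (hE.each e' k).2.2.1, lt _ (hE.each e' k).2.2.2, this⟩
  · obtain ⟨e', k, rfl⟩ := src e (List.mem_of_mem_filter he)
    exact (hE.each e' k).1
  · obtain ⟨e', k, rfl⟩ := src e (List.mem_of_mem_filter he)
    exact ⟨e', k, rfl, rfl⟩

theorem getD_mem {β : Type} {l : List β} {j : ℕ} (h : j < l.length) (d : β) : l.getD j d ∈ l := by
  simp [List.getD_eq_getElem?_getD, List.getElem?_eq_getElem h]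

theorem foldl_cons {β : Type} (l acc : List β) :
    l.foldl (fun acc C => C :: acc) acc = l.reverse ++ acc := by simp

/-- What one level does on all paths. -/
structure LRes (b tau B : ℕ) (E H : List Edge) (cs : List (Arr ℕ)) : Prop where
  len : cs.length = Dp b
  her : Her (hier cs)
  into : Into (fun z => z ∈ ends E) (hier cs)
  ok : EOK b B H
  le : H.length ≤ E.length
  small : H.length * 2 ^ tau ≤ Sz b * E.length
  src : ∀ e ∈ H, ∃ e' ∈ E, e.1 = labAll (hier cs) e'.1 ∧ e.2.1 = labAll (hier cs) e'.2.1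

theorem lvl_tri (h : EOK b B E) (hB : 2 ^ (6 * b + 20) ≤ B) (ht : tau ≤ b) (acc : List (Arr ℕ)) :
    Tri ⟨B, true⟩ (lvl b tau (E, acc)) fun s t => (∃ cs, s.2 = cs.reverse ++ acc ∧
      LRes b tau B E s.1 cs) ∧ t ≤ 2 ^ tau * Cl b * (E.length + 1) := by
  have hs := h.sok hB
  have hn : 2 ^ tau ≤ B := by
    have := hs.bX
    have : 2 ^ tau ≤ 2 ^ b := Nat.pow_le_pow_right (by omega) ht
    omega
  unfold lvl level
  simp only [Tri_bind, Tri_lenP, Tri_num, Tri_ofListP, Tri_foldP, Tri_pure]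
  refine ⟨hs.bN, by have := hs.bV; simp only at this; omega,
    (mwuM_tri (c := ⟨B, true⟩) (h.wok hB)).mono ?_⟩
  rintro css t₁ ⟨c1, c2, -, c4⟩
  refine ⟨by rwa [c1], (Tri.rbits hn).mono ?_⟩
  rintro j _ ⟨hj, rfl⟩
  have hm : css.getD j [] ∈ css := getD_mem (by omega) _
  generalize css.getD j [] = cs at hm
  have f := c2 cs hm
  obtain ⟨T, t1, t2, t3, t4, t5⟩ := f.core_ok h
  refine (coreM_tri cs E).mono ?_
  rintro _ _ ⟨rfl, rfl⟩
  refine (sparsify_tri hs t2 t3 t4).mono ?_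
  rintro H t₂ ⟨r, ht₂⟩
  have hl := r.len.trans t3
  refine ⟨⟨cs, foldl_cons _ _, f.len, f.her, f.into, ⟨hl.trans h.len, fun e he => ?_⟩, hl, ?_,
    fun e he => ?_⟩, ?_⟩
  · obtain ⟨a1, a2, e', a3, a4, a5⟩ := r.each e he
    rw [a4, a5]
    exact ⟨a1, a2, (t2 e' a3).1, (t2 e' a3).2.1⟩
  · rcases Nat.eq_zero_or_pos E.length with e | e
    · simp [show H.length = 0 by omega]
    · calc H.length * 2 ^ tau ≤ b * (Tp b * T.card) * 2 ^ tau := Nat.mul_le_mul_right _ r.small
        _ = b * (Tp b * (T.card * 2 ^ tau)) := by ring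
        _ ≤ b * (Tp b * ((Dp b + 1) * (2 * E.length))) := by
          have : E.length + 1 ≤ 2 * E.length := by omega
          exact Nat.mul_le_mul_left _ (Nat.mul_le_mul_left _
            (t1.trans (Nat.mul_le_mul_left _ this)))
        _ = _ := by unfold Sz; ring
  · obtain ⟨-, -, e', a3, a4, a5⟩ := r.each e he
    rw [a4, a5]
    exact t5 e' a3
  · rw [c1, f.len]
    have a1 : tau < 2 ^ tau := Nat.lt_two_pow_self
    unfold Cl
    generalize 2 ^ tau = n at *
    generalize Dp b = D at *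
    generalize Tp b = tp at *
    generalize E.length = N at *
    have a2 : b * (tp * (13 * N + 1) + 4 * N + 1) ≤ b * (13 * tp + 4) * (N + 1) := by
      rw [mul_assoc]
      exact Nat.mul_le_mul_left _ (by nlinarith)
    have a3 : D * (19 * N + 4) + 2 * N + 1 ≤ (19 * D + 2) * (N + 1) := by nlinarith
    have a4 := Nat.mul_le_mul_left n a3
    have a5 : (2 * D + b * (13 * tp + 4) + 7) * (N + 1)
        ≤ n * ((2 * D + b * (13 * tp + 4) + 7) * (N + 1)) := Nat.le_mul_of_pos_left _ (by omega)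
    have a6 : n ≤ n * (N + 1) := Nat.le_mul_of_pos_right _ (by omega)
    nlinarith [Nat.zero_le (D * N)]

theorem sum_getD {β : Type} (l : List β) (d : β) (f : β → ℝ) :
    ∑ j ∈ Finset.range l.length, f (l.getD j d) = (l.map f).sum := by
  induction l with
  | nil => simp
  | cons x l ih => rw [List.length_cons, Finset.sum_range_succ']; simp [← ih, add_comm]

theorem lvl_wp (h : EOK b B E) (hB : 2 ^ (6 * b + 20) ≤ B) (ht : tau ≤ b) (acc : List (Arr ℕ))
    (ψ : ℕ → ℝ) {E₀ : List Edge} {lam a a' Pen : ℝ} (hl : 0 ≤ lam) (ha : 0 ≤ a) (ha' : 0 ≤ a')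
    (hP : 0 ≤ Pen) (hd : Dom lam (contractAll (hier acc.reverse) E₀) E) (p : ℝ) :
    wp B (lvl b tau (E, acc)) (fun s _ => FN ψ (hier s.2.reverse) E₀ + (a * nrm s.1 ψ
      + a' * tot s.1 + Pen * ind (¬ Dom (lam * 2) (contractAll (hier s.2.reverse) E₀) s.1))) p
      ≤ FN ψ (hier acc.reverse) E₀ + a * nrm E ψ + a' * tot E + Pen * ((tot E + 1) / 2 ^ b)
        + (lam + a) * (((b + 3) * Ap b : ℕ) * nrm E ψ) := by
  have hs := h.sok hB
  have hn : 2 ^ tau ≤ B := by
    have := hs.bX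
    have : 2 ^ tau ≤ 2 ^ b := Nat.pow_le_pow_right (by omega) ht
    omega
  have hV : 4 * 2 ^ b * (E.length + 1) ≤ B := by have := hs.bV; simp only at this; omega
  unfold lvl level lenP ofListP
  simp only [wp_bind, wp_need, wp_pay, wp_num, wp_foldP, wp_pure, if_pos hs.bN, if_pos hV]
  refine wp_le_const_of_Tri (mwuM_tri (c := ⟨B, true⟩) (h.wok hB)) ?_ p
  rintro css t₁ ⟨c1, c2, c3, -⟩
  rw [if_pos (by rwa [c1]), wp_rbits hn, div_le_iff₀ (by positivity)]
  set Y := FN ψ (hier acc.reverse) E₀ + a * nrm E ψ + a' * tot E + Pen * ((tot E + 1) / 2 ^ b)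
  refine (Finset.sum_le_sum (g := fun j => Y + (lam + a) * FN ψ (hier (css.getD j [])) E)
    fun j hj => ?_).trans ?_
  · have hm : css.getD j [] ∈ css := getD_mem (by have := Finset.mem_range.1 hj; omega) _
    generalize css.getD j [] = cs at hm
    obtain ⟨T, -, t2, t3, t4, -⟩ := (c2 cs hm).core_ok h
    refine wp_le_const_of_Tri (coreM_tri (c := ⟨B, true⟩) cs E) ?_ p
    rintro _ _ ⟨rfl, -⟩
    set E' := (contractAll (hier cs) E).filter fun e => decide (e.1 ≠ e.2.1) with hE'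
    have hg : ∀ W : List Edge, wsum W (fun x y => a * |ψ x - ψ y| + a' * 1)
        = a * nrm W ψ + a' * tot W := fun W => by rw [wsum_add, wsum_mul, wsum_mul, nrm, tot]
    have w := sparsify_wp hs t2 t3 h.len t4 (f := fun x y => a * |ψ x - ψ y| + a' * 1)
      (fun x y => by positivity) hP 0
    have e : hier (cs.reverse ++ acc).reverse = hier acc.reverse ++ hier cs := by simp [hier]
    have w5 := wp_const_add (B := B) (sparsify b (Tp b)
      ⟨2 ^ Dp b, 4 * 2 ^ b, b + 3, 4 * 2 ^ b * (E.length + 1)⟩ E') (fun H _ =>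
      wsum H (fun x y => a * |ψ x - ψ y| + a' * 1) + Pen * ind (¬ Dom 2 E' H)) 0
      (FN ψ (hier acc.reverse ++ hier cs) E₀)
    refine le_trans (wp_le_of_Tri (sparsify_tri hs t2 t3 t4) ?_ p _) (w5.le.trans ?_)
    · intro H _ _
      simp only [foldl_cons, e, hg, contractAll_append]
      have k : ind (¬ Dom (lam * 2) (contractAll (hier cs) (contractAll (hier acc.reverse) E₀)) H)
          ≤ ind (¬ Dom 2 E' H) := by
        refine ind_le (ind_nonneg _) fun hn => (ind_pos fun k => hn ?_).ge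
        refine (hd.contractAll (hier cs)).trans (fun S => le_trans (le_of_eq ?_) (k S)) hl
        refine (wsum_filter_eq _ fun e _ he => ?_).symm
        have : e.1 = e.2.1 := by simpa using he
        rw [this, sep_self]
      linarith [mul_le_mul_of_nonneg_left k hP]
    · have a1 : nrm E' ψ ≤ nrm E ψ + FN ψ (hier cs) E :=
        (wsum_filter_le _ fun _ _ => abs_nonneg _).trans (nrm_contractAll_le ψ _ E)
      have a2 : tot E' ≤ tot E :=
        (wsum_filter_le _ fun _ _ => zero_le_one).trans (tot_contractAll _ E).le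
      have a3 := hd.fn ψ (hier cs)
      have a4 : Pen * ((tot E' + 1) / 2 ^ b) ≤ Pen * ((tot E + 1) / 2 ^ b) := by gcongr
      rw [hg] at w
      rw [FN_append]
      have a5 := mul_le_mul_of_nonneg_left a1 ha
      have a6 := mul_le_mul_of_nonneg_left a2 ha'
      simp only [Y]
      linarith
  · rw [Finset.sum_add_distrib, ← Finset.mul_sum, Finset.sum_const, Finset.card_range,
      nsmul_eq_mul, ← c1, sum_getD css [] fun cs => FN ψ (hier cs) E, c1]
    have := mul_le_mul_of_nonneg_left (c3 ψ) (add_nonneg hl ha)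
    push_cast at this ⊢
    linarith

end Vale.Agent.P305S
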