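import Vale.Agent.P305S.Scales

/-!
# Static tree sampler, part 9: the programs for loads and relabelling maps; one round
-/

namespace Vale.Agent.P305S

open Function (update)
open Vale.Agent.P305E

/-- The cut capacities of the clusters. -/
def massM (U : Arr ℕ) (EL : List LEdge) : M (Arr ℕ) :=
  foldM (fun m r => if relab U (ex r) = relab U (ey r) then pure m else
    num (m.get (relab U (ex r)) + eu r) >>= fun a => num (m.get (relab U (ey r)) + eu r) >>= fun b =>
      pure ((m.set (relab U (ex r)) a).set (relab U (ey r)) b)) (Arr.const 0) EL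

/-- One tree edge. -/
def loadStep (s : Arr ℕ × Arr ℕ) (t : TEdge) : M (Arr ℕ × Arr ℕ) :=
  num (s.1.get t.2.1 + s.1.get t.1) >>= fun a => num (s.2.get (ei t.2.2) + s.1.get t.1) >>= fun b =>
    pure (s.1.set t.2.1 a, s.2.set (ei t.2.2) b)

/-- One scale. -/
def ldStep (EL : List LEdge) (s : Arr ℕ × Arr ℕ) (g : GS) : M (Arr ℕ × Arr ℕ) :=
  massM s.1 EL >>= fun m => foldM loadStep (m, s.2) g.2 >>= fun q => pure (g.1, q.2)

/-- The loads of all scales. -/
def ldM (EL : List LEdge) (Ss : List GS) : M (Arr ℕ) :=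
  foldM (ldStep EL) (Arr.const 0, Arr.const 0) Ss >>= fun s => pure s.2

/-- The test for bad edges. -/
def badF (ρ : ℕ) (ld : Arr ℕ) (r : LEdge) : Bool := decide (ρ * eu r ≤ ld.get (ei r))

/-- Mark the clusters with an end of a bad edge. -/
def brkStep (ρ : ℕ) (ld U : Arr ℕ) (a : Arr Bool) (r : LEdge) : Arr Bool :=
  if badF ρ ld r = true then (a.set (relab U (ex r)) true).set (relab U (ey r)) true else a

/-- The portals. -/
def portM (ρ : ℕ) (ld : Arr ℕ) (ord : List TEdge) : M (Arr ℕ) :=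
  revP ord >>= fun o => foldM (fun pa t => if badF ρ ld t.2.2 = true then pure (pa.set t.1 0) else
    num (relab pa t.2.1 + 1) >>= fun z => pure (pa.set t.1 z)) (Arr.const 0) o

/-- The relabelling map of one scale. -/
def relM (ρ : ℕ) (ld U : Arr ℕ) (EL : List LEdge) (ord : List TEdge) : M (Arr ℕ) :=
  foldP (brkStep ρ ld U) (Arr.const false) EL >>= fun brk => portM ρ ld ord >>= fun pa =>
    foldP (fun C t => C.set t.1 (if brk.get (relab U t.1) = true then 0 else pa.get t.1))
      (Arr.const 0) ord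

/-- All relabelling maps. -/
def hierM (ρ : ℕ) (ld : Arr ℕ) (EL : List LEdge) (Ss : List GS) : M (List (Arr ℕ)) :=
  foldM (fun (s : Arr ℕ × List (Arr ℕ)) (g : GS) => relM ρ ld s.1 EL g.2 >>= fun C =>
    pure (g.1, C :: s.2)) (Arr.const 0, []) Ss >>= fun s => revP s.2

/-- One round: a forest and the loads of the edges. -/
noncomputable def roundM (D ρ : ℕ) (P : GP) (EL : List LEdge) : M (List (Arr ℕ) × Arr ℕ) :=
  scalesM D P EL >>= fun Ss => ldM EL Ss >>= fun ld => hierM ρ ld EL Ss >>= fun cs => pure (cs, ld)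

section impl
variable {α : Type} [Rep α]

@[fun_prop] theorem impl_ldM {EL : α → List LEdge} {Ss : α → List GS} (h1 : Pure EL)
    (h2 : Pure Ss) : Impl fun x => ldM (EL x) (Ss x) := by
  unfold ldM ldStep massM loadStep
  fun_prop

@[fun_prop] theorem pure_badF {ρ : α → ℕ} {ld : α → Arr ℕ} {r : α → LEdge} (h1 : Pure ρ)
    (h2 : Pure ld) (h3 : Pure r) : Pure fun x => badF (ρ x) (ld x) (r x) := by
  unfold badF
  fun_prop

@[fun_prop] theorem grow_badF {ρ : α → ℕ} {ld : α → Arr ℕ} {r : α → LEdge} (h1 : Pure ρ)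
    (h2 : Pure ld) (h3 : Pure r) : Grow fun x => badF (ρ x) (ld x) (r x) :=
  (pure_badF h1 h2 h3).grow

@[fun_prop] theorem impl_hierM {ρ : α → ℕ} {ld : α → Arr ℕ} {EL : α → List LEdge}
    {Ss : α → List GS} (h1 : Pure ρ) (h2 : Pure ld) (h3 : Pure EL) (h4 : Pure Ss) :
    Impl fun x => hierM (ρ x) (ld x) (EL x) (Ss x) := by
  unfold hierM relM portM brkStep
  fun_prop

@[fun_prop] theorem impl_roundM {D ρ : α → ℕ} {P : α → GP} {EL : α → List LEdge} (h1 : Pure D)
    (h2 : Pure ρ) (h3 : Pure P) (h4 : Pure EL) :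
    Impl fun x => roundM (D x) (ρ x) (P x) (EL x) := by
  unfold roundM
  fun_prop

end impl

variable {c : Cx} {EL : List LEdge}

theorem massM_tri (U : Arr ℕ) (h : sm EL eu ≤ c.B) :
    Tri c (massM U EL) fun m t => m.get = mass (relab U) EL (fun _ => 0) ∧ t = EL.length := by
  refine (Tri.foldM (fun pre (m : Arr ℕ) t => m.get = mass (relab U) pre (fun _ => 0) ∧
    (∀ v, m.get v ≤ sm pre eu) ∧ t = pre.length) ⟨rfl, by simp, rfl⟩ ?_).mono
      fun _ _ h => ⟨h.1, h.2.2⟩
  rintro pre r rest m _ e ⟨h1, h2, rfl⟩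
  rw [e] at h
  simp only [sm_append, sm_cons] at h
  simp only [Tri_ite, Tri_pure, Tri_bind, Tri_num, mass, List.foldl_append, List.foldl_cons,
    List.foldl_nil, sm_append, sm_cons, sm_nil, List.length_append, List.length_singleton]
  simp only [mass] at h1
  rw [← h1]
  have a1 := h2 (relab U (ex r))
  have a2 := h2 (relab U (ey r))
  refine ⟨fun k => ⟨by simp [massStep, k], fun v => (h2 v).trans (by omega), trivial⟩,
    fun k => ⟨by omega, by omega, by simp [massStep, k, Arr.set_get_fun], fun v => ?_, trivial⟩⟩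
  have := h2 v
  simp only [Arr.get_set]
  split_ifs <;> omega

theorem loads_tri {ctr : ℕ → ℕ} {T : ℕ} : ∀ (l : List TEdge) (s : Finset ℕ) (sub ld : Arr ℕ)
    (X : ℕ), OrdOK EL ctr l → (∀ t ∈ l, t.1 ∈ s ∧ t.2.1 ∈ s) → ∑ w ∈ s, sub.get w ≤ T →
    (∀ i, ld.get i ≤ X) → T ≤ c.B → X + l.length * T ≤ c.B →
    Tri c (foldM loadStep (sub, ld) l) fun q t => q.2.get = loads l sub.get ld.get ∧
      (∀ i, q.2.get i ≤ X + l.length * T) ∧ t = l.length
  | [], _, _, _, _, _, _, _, hX, _, _ => by simpa [foldM, loads] using hX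
  | t :: l, s, sub, ld, X, ⟨h1, h2, h3, _, _, _, _, h8⟩, hs, hT, hX, hB, hB' => by
    have ht := hs t (by simp)
    have hm : t.2.1 ∈ s.erase t.1 := Finset.mem_erase.2 ⟨h3, ht.2⟩
    rw [← Finset.add_sum_erase _ _ ht.1, ← Finset.add_sum_erase _ _ hm] at hT
    have := hX (ei t.2.2)
    simp only [List.length_cons, Nat.add_mul, one_mul] at hB' ⊢
    simp only [foldM, loadStep, Tri_bind, Tri_num, Tri_pure, Tri_tick]
    refine ⟨by omega, by omega, (loads_tri l (s.erase t.1) _ _ (X + T) h8 (fun u hu => ?_) ?_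
      (fun i => ?_) hB (by omega)).mono ?_⟩
    · have := hs u (by simp [hu])
      simp only [Finset.mem_erase]
      exact ⟨⟨fun h => h1 (h ▸ mem_verts hu), this.1⟩, h2 u hu, this.2⟩
    · rw [Arr.set_get_fun, Finset.sum_update_of_mem hm, Finset.sdiff_singleton_eq_erase]
      omega
    · have := hX i
      simp only [Arr.get_set]
      split_ifs <;> omega
    · rintro q _ ⟨k1, k2, rfl⟩
      exact ⟨k1, fun i => (k2 i).trans (by omega), by omega⟩

theorem OrdOK.length_le {ctr : ℕ → ℕ} {ord : List TEdge} (h : OrdOK EL ctr ord) :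
    ord.length ≤ 2 * EL.length := by
  have a1 : (verts ord).toFinset ⊆ ends (edges EL) := by
    intro v hv
    obtain ⟨t, ht, rfl⟩ := List.mem_map.1 (List.mem_toFinset.1 hv)
    obtain ⟨e1, e2, _⟩ := h.edge t ht
    have := mem_ends (mem_edges.2 ⟨_, e1, rfl⟩)
    rcases e2 with ⟨e2, _⟩ | ⟨_, e2⟩
    · rw [← e2]; exact this.1
    · rw [← e2]; exact this.2
  have a2 := Finset.card_le_card a1
  rw [List.toFinset_card_of_nodup h.nodup] at a2
  have a3 := card_ends_le (edges EL)
  simp only [verts, edges, List.length_map] at a2 a3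
  exact a2.trans a3

theorem mass_total (prev : ℕ → ℕ) (s : Finset ℕ)
    (hs : ∀ r ∈ EL, prev (ex r) ∈ s ∧ prev (ey r) ∈ s) :
    ∑ w ∈ s, mass prev EL (fun _ => 0) w ≤ 2 * sm EL eu := by
  have a := sum_mass prev s (fun _ => 1) EL (fun _ => 0) hs
  have b := lev_le_tot (contract prev (edges EL)) (h := fun _ => 1) zero_le_one fun _ => le_rfl
  have d := wsum_edges EL fun _ _ => False
  rw [tot_contract, tot] at b
  simp only [if_false] at d
  simp only [mul_one, Nat.cast_zero, Finset.sum_const_zero, zero_add] at a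
  rw [← a, d] at b
  have : ((∑ w ∈ s, mass prev EL (fun _ => 0) w : ℕ) : ℝ) ≤ (2 * sm EL eu : ℕ) := by
    push_cast
    simpa using b
  exact_mod_cast this

theorem ld_fold {K : ℝ} {V : ℕ} (hV : sm EL eu ≤ V) (hB : 2 * V ≤ c.B) :
    ∀ (Ss : List GS) (U ld : Arr ℕ) (X : ℕ), Chain EL K (relab U) (Ss.map toScale) →
      (∀ i, ld.get i ≤ X) → X + Ss.length * (2 * EL.length * (2 * V)) ≤ c.B →
      Tri c (foldM (ldStep EL) (U, ld) Ss) fun q t =>
        q.2.get = ldOf EL (relab U) (Ss.map toScale) ld.get ∧ t ≤ Ss.length * (3 * EL.length + 1)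
  | [], _, _, _, _, _, _ => by simp [foldM, ldOf]
  | g :: Ss, U, ld, X, ⟨h1, _, _, h4⟩, hX, hB' => by
    simp only [List.length_cons, Nat.add_mul, one_mul] at hB' ⊢
    simp only [foldM, ldStep, Tri_bind, Tri_pure, Tri_tick]
    refine (massM_tri U (by omega)).mono ?_
    rintro m _ ⟨hm, rfl⟩
    obtain ⟨s, s1, s2⟩ := exists_supp EL (relab U) g.2
    have hl : g.2.length ≤ 2 * EL.length := h1.ok.length_le
    have hl' : g.2.length * (2 * V) ≤ 2 * EL.length * (2 * V) := Nat.mul_le_mul_right _ hl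
    refine (loads_tri (T := 2 * V) g.2 s m ld X h1.ok s2
      (by rw [hm]; exact (mass_total _ s s1).trans (by omega)) hX hB (by omega)).mono ?_
    rintro q _ ⟨k1, k2, rfl⟩
    refine (ld_fold hV hB Ss g.1 q.2 (X + 2 * EL.length * (2 * V)) h4
      (fun i => (k2 i).trans (by omega)) (by omega)).mono ?_
    rintro q' t ⟨j1, j2⟩
    refine ⟨?_, by omega⟩
    rw [j1, k1, hm]
    rfl

theorem brk_fold (ρ : ℕ) (ld U : Arr ℕ) (l : List LEdge) (a : Arr Bool) (z : ℕ) :
    (l.foldl (brkStep ρ ld U) a).get z = true ↔ a.get z = true ∨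
      ∃ r ∈ l, badF ρ ld r = true ∧ (relab U (ex r) = z ∨ relab U (ey r) = z) := by
  induction l generalizing a with
  | nil => simp
  | cons r l ih =>
    rw [List.foldl_cons, ih]
    unfold brkStep
    by_cases hb : badF ρ ld r = true
    · simp only [hb, if_true, Arr.get_set, List.mem_cons, exists_eq_or_imp, true_and]
      by_cases e1 : z = relab U (ey r)
      · simp [e1]
      · by_cases e2 : z = relab U (ex r)
        · simp [e2]
        · simp [e1, e2, Ne.symm e1, Ne.symm e2]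
    · simp [hb]

theorem set_fold (f : ℕ → ℕ) (l : List TEdge) (C : Arr ℕ) (a : ℕ) :
    (l.foldl (fun C t => C.set t.1 (f t.1)) C).get a = if a ∈ verts l then f a else C.get a := by
  induction l generalizing C with
  | nil => simp
  | cons t l ih =>
    rw [List.foldl_cons, ih, Arr.get_set]
    by_cases e1 : a ∈ verts l <;> by_cases e2 : a = t.1 <;> simp [e1, e2]

theorem portM_tri (ρ : ℕ) (ld : Arr ℕ) {ord : List TEdge}
    (h : ∀ t ∈ ord, t.1 < c.B ∧ t.2.1 < c.B) :
    Tri c (portM ρ ld ord) fun pa t => relab pa = port (badF ρ ld) ord ∧ t = 2 * ord.length := by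
  unfold portM
  simp only [Tri_bind, Tri_revP]
  refine (Tri.foldM (fun pre (pa : Arr ℕ) t => relab pa = port (badF ρ ld) pre.reverse ∧
    (∀ w < c.B, relab pa w < c.B) ∧ t = pre.length)
    ⟨by funext a; simp [relab, port], by simp [relab], rfl⟩ ?_).mono ?_
  · rintro pre t rest pa _ e ⟨h1, h2, rfl⟩
    have ht := h t (List.mem_reverse.1 (by simp [e]))
    simp only [Tri_ite, Tri_pure, Tri_bind, Tri_num, List.reverse_append, List.reverse_singleton,
      List.singleton_append, port, List.length_append, List.length_singleton, ← h1]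
    have key : ∀ z, relab (pa.set t.1 z) = update (relab pa) t.1 (if z = 0 then t.1 else z - 1) := by
      intro z
      funext a
      by_cases e : a = t.1
      · subst e; simp [relab]
      · simp [relab, Arr.get_set_ne _ e, Function.update_of_ne e]
    have bd : ∀ z, z < c.B → ∀ w < c.B, update (relab pa) t.1 z w < c.B := fun z hz w hw => by
      by_cases e : w = t.1
      · subst e; simpa using hz
      · rw [Function.update_of_ne e]; exact h2 w hw
    refine ⟨fun hb => ?_, fun hb => ⟨h2 _ ht.2, ?_⟩⟩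
    · rw [key]
      exact ⟨by simp [hb], bd _ (by simpa using ht.1), trivial⟩
    · rw [key]
      exact ⟨by simp [hb], bd _ (by simpa using h2 _ ht.2), trivial⟩
  · rintro pa _ ⟨h1, _, rfl⟩
    simp only [List.reverse_reverse, List.length_reverse] at h1 ⊢
    exact ⟨h1, by omega⟩

theorem relM_tri (ρ : ℕ) (ld U : Arr ℕ) {ctr : ℕ → ℕ} {ord : List TEdge} (h : OrdOK EL ctr ord)
    (hB : ∀ r ∈ EL, ex r < c.B ∧ ey r < c.B) :
    Tri c (relM ρ ld U EL ord) fun C t => relab C = relOf EL (badF ρ ld) (relab U) ord ∧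
      t ≤ 7 * EL.length := by
  unfold relM
  simp only [Tri_bind, Tri_foldP]
  refine (portM_tri ρ ld fun t ht => ?_).mono ?_
  · obtain ⟨e1, ⟨e2, e3⟩ | ⟨e2, e3⟩, _⟩ := h.edge t ht
    · rw [← e2, ← e3]; exact hB _ e1
    · rw [← e2, ← e3]; exact (hB _ e1).symm
  · rintro pa _ ⟨hp, rfl⟩
    refine ⟨funext fun a => ?_, by have := h.length_le; omega⟩
    have k := set_fold (fun a => if (EL.foldl (brkStep ρ ld U) (Arr.const false)).get (relab U a)
      = true then 0 else pa.get a) ord (Arr.const 0) a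
    have b : (EL.foldl (brkStep ρ ld U) (Arr.const false)).get (relab U a) = true ↔
        Brk EL (badF ρ ld) (relab U) a := by simp [brk_fold, Brk]
    unfold relOf
    rw [relab, k]
    by_cases hm : a ∈ verts ord
    · by_cases hb : Brk EL (badF ρ ld) (relab U) a
      · simp [hm, b, hb]
      · simp only [hm, b, hb, if_true, if_false, ← hp]
        rfl
    · simp [hm, port_out _ _ _ hm]

theorem hier_fold {K : ℝ} (ρ : ℕ) (ld : Arr ℕ) (hB : ∀ r ∈ EL, ex r < c.B ∧ ey r < c.B) :
    ∀ (Ss : List GS) (U : Arr ℕ) (acc : List (Arr ℕ)), Chain EL K (relab U) (Ss.map toScale) →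
      Tri c (foldM (fun (s : Arr ℕ × List (Arr ℕ)) (g : GS) => relM ρ ld s.1 EL g.2 >>= fun C =>
        pure (g.1, C :: s.2)) (U, acc) Ss) fun q t =>
        q.2.reverse.map relab = acc.reverse.map relab ++
          hierOf EL (badF ρ ld) (relab U) (Ss.map toScale) ∧ t ≤ Ss.length * (7 * EL.length + 1)
  | [], _, _, _ => by simp [foldM, hierOf]
  | g :: Ss, U, acc, ⟨h1, _, _, h4⟩ => by
    simp only [foldM, Tri_bind, Tri_pure, Tri_tick]
    refine (relM_tri ρ ld U h1.ok hB).mono ?_
    rintro C t ⟨hC, ht⟩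
    refine (hier_fold ρ ld hB Ss g.1 (C :: acc) h4).mono ?_
    rintro q t' ⟨j1, j2⟩
    refine ⟨?_, by simp only [List.length_cons, Nat.add_mul]; omega⟩
    rw [j1]
    simp only [List.reverse_cons, List.map_append, List.map_cons, List.map_nil, hC, hierOf,
      List.append_assoc, List.singleton_append]
    rfl

/-- The hierarchy described by a list of arrays. -/
def hier (cs : List (Arr ℕ)) : List (ℕ → ℕ) := cs.map relab

/-- The result of one round. -/
structure RRes (EL : List LEdge) (D ρ : ℕ) (P : GP) (cs : List (Arr ℕ)) (ld : Arr ℕ) : Prop where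
  len : cs.length = D
  ldl : lsum EL ld.get (fun r => el r) ≤ D * (2 * (8 * P.g * P.V))
  fn : ∀ ψ, FN ψ (hier cs) (edges EL) ≤ lsum EL ld.get (gd (badF ρ ld) ψ)
  core : ∃ T : Finset ℕ, T.card ≤ (D + 1) * (2 * (EL.filter (badF ρ ld)).length) ∧
    ∀ e ∈ contractAll (hier cs) (edges EL), e.1 ≠ e.2.1 → e.1 ∈ T ∧ e.2.1 ∈ T
  her : Her (hier cs)
  into : Into (fun z => z ∈ ends (edges EL)) (hier cs)

theorem roundM_tri {D : ℕ} {P : GP} (ρ : ℕ) (h : ROK c.B EL D P) :
    Tri c (roundM D ρ P EL) fun q t => RRes EL D ρ P q.1 q.2 ∧ t ≤ D * (19 * EL.length + 4) := by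
  unfold roundM
  refine (scalesM_tri h).bind ?_
  rintro Ss t₁ ⟨hc, hh, hl, ht₁⟩
  have id0 : relab (Arr.const 0) = id := by funext a; simp [relab]
  unfold ldM hierM
  simp only [Tri_bind, Tri_pure, Tri_revP]
  refine (ld_fold h.cap h.bV Ss (Arr.const 0) (Arr.const 0) 0 (id0 ▸ hc) (by simp)
    (by rw [hl]; simpa using h.bld)).mono ?_
  rintro q t₂ ⟨hq, ht₂⟩
  refine (hier_fold ρ q.2 h.bx Ss (Arr.const 0) [] (id0 ▸ hc)).mono ?_
  rintro s t₃ ⟨hs, ht₃⟩
  rw [id0] at hq hs
  simp only [List.reverse_nil, List.map_nil, List.nil_append] at hs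
  obtain ⟨f1, f2, f3⟩ := round_facts h.nd hc (badF ρ q.2)
  have hlen : s.2.length = D := by
    have := congrArg List.length hs
    simpa [length_hierOf, hl] using this
  have hq' : q.2.get = ldOf EL id (Ss.map toScale) fun _ => 0 := hq
  rw [List.length_map, hl] at f1 f3
  refine ⟨⟨by simpa using hlen, by rw [hq']; exact f1, fun ψ => ?_, ?_, ?_, ?_⟩, ?_⟩
  · rw [hier, hs]
    exact (f2 ψ).trans (by rw [hq'])
  · obtain ⟨T, k1, _, k3⟩ := f3 (fun _ => True) (by simp)
    exact ⟨T, k1, by rw [hier, hs]; exact k3⟩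
  · rw [hier, hs]; exact her_hierOf _ hc hh
  · rw [hier, hs]
    exact into_hierOf _ (fun r hr => mem_ends (mem_edges.2 ⟨r, hr, rfl⟩)) _ _ hc
  · rw [hl] at ht₂ ht₃
    rw [hlen]
    nlinarith

end Vale.Agent.P305S
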