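import Vale.Agent.P305S.Tree

/-!
# Static tree sampler, part 2: one round (a chain of scales, its loads and its hierarchy)
-/

namespace Vale.Agent.P305S

open Function (update)

/-- One scale. -/
structure Scale where
  ctr : ℕ → ℕ
  ord : List TEdge

/-- The edges without lengths. -/
def edges (EL : List LEdge) : List Edge := EL.map fun r => r.1

@[simp] theorem edges_nil : edges [] = [] := rfl
@[simp] theorem edges_cons (r : LEdge) (EL : List LEdge) : edges (r :: EL) = r.1 :: edges EL := rfl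

theorem mem_edges {EL : List LEdge} {e : Edge} : e ∈ edges EL ↔ ∃ r ∈ EL, r.1 = e := List.mem_map

/-- The cluster of `a` contains an end of a bad edge. -/
def Brk (EL : List LEdge) (bad : LEdge → Bool) (prev : ℕ → ℕ) (a : ℕ) : Prop :=
  ∃ r ∈ EL, bad r = true ∧ (prev (ex r) = prev a ∨ prev (ey r) = prev a)

open Classical in
/-- The relabelling map of one scale. -/
noncomputable def relOf (EL : List LEdge) (bad : LEdge → Bool) (prev : ℕ → ℕ) (ord : List TEdge)
    (a : ℕ) : ℕ := if Brk EL bad prev a then a else port bad ord a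

/-- The hierarchy of a chain of scales (finest first). -/
noncomputable def hierOf (EL : List LEdge) (bad : LEdge → Bool) :
    (ℕ → ℕ) → List Scale → List (ℕ → ℕ)
  | _, [] => []
  | prev, S :: Ss => relOf EL bad prev S.ord :: hierOf EL bad S.ctr Ss

theorem length_hierOf (EL : List LEdge) (bad : LEdge → Bool) :
    ∀ (Ss : List Scale) (prev : ℕ → ℕ), (hierOf EL bad prev Ss).length = Ss.length
  | [], _ => rfl
  | S :: Ss, _ => by simp [hierOf, length_hierOf EL bad Ss]

/-- Add the capacity of an edge between two clusters to both centres. -/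
def massStep (prev : ℕ → ℕ) (m : ℕ → ℕ) (r : LEdge) : ℕ → ℕ :=
  if prev (ex r) = prev (ey r) then m else
    update (update m (prev (ex r)) (m (prev (ex r)) + eu r)) (prev (ey r))
      (m (prev (ey r)) + eu r)

/-- The cut capacities of the clusters. -/
def mass (prev : ℕ → ℕ) (EL : List LEdge) (m : ℕ → ℕ) : ℕ → ℕ := EL.foldl (massStep prev) m

/-- The loads of a chain of scales. -/
def ldOf (EL : List LEdge) : (ℕ → ℕ) → List Scale → (ℕ → ℕ) → ℕ → ℕ
  | _, [], ld => ld
  | prev, S :: Ss, ld => ldOf EL S.ctr Ss (loads S.ord (mass prev EL fun _ => 0) ld)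

/-- The capacity of the edges between different clusters. -/
noncomputable def cutTot (prev : ℕ → ℕ) (E : List Edge) : ℝ :=
  wsum E fun x y => if prev x = prev y then 0 else 1

/-- All trees have depth at most `R`. -/
def Rad (ord : List TEdge) (R : ℕ) : Prop :=
  ∃ d : ℕ → ℕ, (∀ t ∈ ord, el t.2.2 + d t.2.1 ≤ d t.1) ∧ ∀ v, d v ≤ R

/-- A chain of nested scales above the clustering `prev`. -/
def Chain (EL : List LEdge) (K : ℝ) : (ℕ → ℕ) → List Scale → Prop
  | prev, [] => ∀ r ∈ EL, prev (ex r) = prev (ey r)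
  | prev, S :: Ss => ScaleOK EL S.ctr S.ord ∧ (∀ w, S.ctr (prev w) = S.ctr w) ∧
      (∃ R : ℕ, Rad S.ord R ∧ R * cutTot prev (edges EL) ≤ K) ∧ Chain EL K S.ctr Ss

theorem sum_update_mul (s : Finset ℕ) (m : ℕ → ℕ) {a : ℕ} (ha : a ∈ s) (k : ℕ) (P : ℕ → ℝ) :
    ∑ w ∈ s, ((update m a (m a + k) w : ℕ) : ℝ) * P w = ∑ w ∈ s, (m w : ℝ) * P w + k * P a := by
  rw [← Finset.add_sum_erase _ _ ha, ← Finset.add_sum_erase _ (fun w => (m w : ℝ) * P w) ha,
    Function.update_self]
  have : ∑ w ∈ s.erase a, ((update m a (m a + k) w : ℕ) : ℝ) * P w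
      = ∑ w ∈ s.erase a, (m w : ℝ) * P w :=
    Finset.sum_congr rfl fun w hw => by rw [Function.update_of_ne (Finset.mem_erase.1 hw).1]
  rw [this]
  push_cast
  ring

theorem sum_mass (prev : ℕ → ℕ) (s : Finset ℕ) (P : ℕ → ℝ) : ∀ (EL : List LEdge) (m : ℕ → ℕ),
    (∀ r ∈ EL, prev (ex r) ∈ s ∧ prev (ey r) ∈ s) →
    ∑ w ∈ s, (mass prev EL m w : ℝ) * P w
      = ∑ w ∈ s, (m w : ℝ) * P w + lev (contract prev (edges EL)) P
  | [], m, _ => by simp [mass, lev, contract]
  | r :: EL, m, h => by
    have ih := sum_mass prev s P EL (massStep prev m r) fun r' hr' => h r' (by simp [hr'])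
    have hr := h r (by simp)
    simp only [mass, List.foldl_cons] at ih ⊢
    rw [ih]
    simp only [lev, wsum_contract, edges_cons, wsum_cons]
    unfold massStep
    by_cases hxy : prev (ex r) = prev (ey r)
    · simp [hxy]
    · simp only [hxy, if_false]
      have e : m (prev (ey r)) = update m (prev (ex r)) (m (prev (ex r)) + eu r) (prev (ey r)) := by
        rw [Function.update_of_ne (Ne.symm hxy)]
      rw [e, sum_update_mul s _ hr.2, sum_update_mul s _ hr.1]
      ring

/-- A finite set that contains everything that occurs in one scale. -/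
theorem exists_supp (EL : List LEdge) (prev : ℕ → ℕ) (ord : List TEdge) : ∃ s : Finset ℕ,
    (∀ r ∈ EL, prev (ex r) ∈ s ∧ prev (ey r) ∈ s) ∧ ∀ t ∈ ord, t.1 ∈ s ∧ t.2.1 ∈ s := by
  refine ⟨((EL.map fun r => prev (ex r)) ++ (EL.map fun r => prev (ey r)) ++
    (ord.map fun t => t.1) ++ (ord.map fun t => t.2.1)).toFinset, fun r hr => ?_, fun t ht => ?_⟩
  · simp only [List.mem_toFinset, List.mem_append, List.mem_map]
    exact ⟨Or.inl (Or.inl (Or.inl ⟨r, hr, rfl⟩)), Or.inl (Or.inl (Or.inr ⟨r, hr, rfl⟩))⟩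
  · simp only [List.mem_toFinset, List.mem_append, List.mem_map]
    exact ⟨Or.inl (Or.inr ⟨t, ht, rfl⟩), Or.inr ⟨t, ht, rfl⟩⟩

/-- Routing the cut capacities of `prev` along the trees of one scale. -/
theorem scale_loads {EL : List LEdge} (hn : (EL.map ei).Nodup) {ctr : ℕ → ℕ} {ord : List TEdge}
    (h : OrdOK EL ctr ord) (prev : ℕ → ℕ) (P : ℕ → ℝ) (δ : LEdge → ℝ)
    (hP : ∀ t ∈ ord, P t.1 ≤ δ t.2.2 + P t.2.1) (h0 : ∀ w, w ∉ verts ord → P w ≤ 0)
    (ld : ℕ → ℕ) : lev (contract prev (edges EL)) P + lsum EL ld δ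
      ≤ lsum EL (loads ord (mass prev EL fun _ => 0) ld) δ := by
  obtain ⟨s, h1, h2⟩ := exists_supp EL prev ord
  have a := loads_ge hn P δ ord s (mass prev EL fun _ => 0) ld h h2 hP fun w _ hw => h0 w hw
  rw [sum_mass prev s P EL _ h1] at a
  simpa using a

theorem lsum_neg (EL : List LEdge) (ld : ℕ → ℕ) (δ : LEdge → ℝ) :
    lsum EL ld (fun r => -δ r) = -lsum EL ld δ := by
  induction EL with
  | nil => simp [lsum]
  | cons r EL ih =>
    simp only [lsum, List.map_cons, List.sum_cons] at ih ⊢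
    rw [ih]; ring

/-- The length of the routing. -/
theorem ld_len {EL : List LEdge} (hn : (EL.map ei).Nodup) {K : ℝ} :
    ∀ (Ss : List Scale) (prev ld : ℕ → ℕ), Chain EL K prev Ss →
      lsum EL (ldOf EL prev Ss ld) (fun r => el r)
        ≤ lsum EL ld (fun r => el r) + Ss.length * (2 * K)
  | [], _, _, _ => by simp [ldOf]
  | S :: Ss, prev, ld, ⟨h1, _, ⟨R, ⟨d, hd, hR⟩, hK⟩, h4⟩ => by
    have ih := ld_len hn Ss S.ctr (loads S.ord (mass prev EL fun _ => 0) ld) h4
    have a := scale_loads hn h1.ok prev (fun v => -(d v : ℝ)) (fun r => -(el r : ℝ))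
      (fun t ht => by
        have : ((el t.2.2 + d t.2.1 : ℕ) : ℝ) ≤ d t.1 := by exact_mod_cast hd t ht
        push_cast at this
        linarith)
      (fun w _ => by simp) ld
    rw [lsum_neg, lsum_neg] at a
    have b : -(2 * R) * cutTot prev (edges EL)
        ≤ lev (contract prev (edges EL)) fun v => -(d v : ℝ) := by
      simp only [lev, cutTot, wsum_contract, ← wsum_mul]
      refine wsum_le fun e _ => ?_
      have k1 : (d (prev e.1) : ℝ) ≤ R := by exact_mod_cast hR _
      have k2 : (d (prev e.2.1) : ℝ) ≤ R := by exact_mod_cast hR _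
      split_ifs <;> linarith
    simp only [ldOf, List.length_cons]
    push_cast
    linarith

/-- The labels of one level against the centres of the clusters. -/
def LabInv (EL : List LEdge) (bad : LEdge → Bool) (prev lab : ℕ → ℕ) : Prop :=
  ∀ v, prev (lab v) = prev v ∧ (¬ Brk EL bad prev v → lab v = prev v)

theorem Brk.congr {EL : List LEdge} {bad : LEdge → Bool} {prev : ℕ → ℕ} {a b : ℕ}
    (h : prev a = prev b) : Brk EL bad prev a ↔ Brk EL bad prev b := by
  simp only [Brk, h]

theorem Brk.up {EL : List LEdge} {bad : LEdge → Bool} {prev ctr : ℕ → ℕ}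
    (h : ∀ w, ctr (prev w) = ctr w) {a : ℕ} (hb : Brk EL bad prev a) : Brk EL bad ctr a := by
  obtain ⟨r, hr, h1, h2⟩ := hb
  refine ⟨r, hr, h1, ?_⟩
  rcases h2 with h2 | h2
  · left; rw [← h, h2, h]
  · right; rw [← h, h2, h]

theorem BadEnd.brk {EL : List LEdge} {bad : LEdge → Bool} {ctr : ℕ → ℕ} {z v : ℕ}
    (hz : BadEnd EL bad z) (h : ctr z = ctr v) : Brk EL bad ctr v := by
  obtain ⟨r, hr, h1, h2⟩ := hz
  refine ⟨r, hr, h1, ?_⟩
  rcases h2 with h2 | h2
  · left; rw [h2, h]
  · right; rw [h2, h]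

theorem LabInv.step {EL : List LEdge} {bad : LEdge → Bool} {prev lab ctr : ℕ → ℕ}
    {ord : List TEdge} (h : LabInv EL bad prev lab) (hS : ScaleOK EL ctr ord)
    (hup : ∀ w, ctr (prev w) = ctr w) :
    LabInv EL bad ctr fun v => relOf EL bad prev ord (lab v) := by
  intro v
  obtain ⟨h1, h2⟩ := h v
  have e : ctr (lab v) = ctr v := by rw [← hup, h1, hup]
  beta_reduce
  unfold relOf
  by_cases hb : Brk EL bad prev v
  · rw [if_pos ((Brk.congr h1).2 hb)]
    exact ⟨e, fun hn => absurd (hb.up hup) hn⟩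
  · rw [if_neg fun k => hb ((Brk.congr h1).1 k)]
    obtain ⟨p1, p2⟩ := hS.port bad (lab v)
    refine ⟨p1.trans e, fun hn => ?_⟩
    rcases p2 with p2 | p2
    · rw [p2, e]
    · exact absurd (p2.brk (p1.trans e)) hn

theorem LabInv.ne {EL : List LEdge} {bad : LEdge → Bool} {prev lab : ℕ → ℕ}
    (h : LabInv EL bad prev lab) {x y : ℕ} (hne : lab x ≠ lab y) (he : prev x = prev y) :
    Brk EL bad prev x := by
  by_contra hb
  have hb' : ¬ Brk EL bad prev y := fun k => hb ((Brk.congr he).2 k)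
  exact hne (by rw [(h x).2 hb, (h y).2 hb', he])

/-- The weight of a good edge. -/
noncomputable def gd (bad : LEdge → Bool) (ψ : ℕ → ℝ) (r : LEdge) : ℝ :=
  if bad r then 0 else |ψ (ex r) - ψ (ey r)|

/-- The norm on the forest is at most the norm with the loads of the good edges. -/
theorem FN_le_ld {EL : List LEdge} (hn : (EL.map ei).Nodup) {K : ℝ} (bad : LEdge → Bool)
    (ψ : ℕ → ℝ) : ∀ (Ss : List Scale) (prev lab ld : ℕ → ℕ), Chain EL K prev Ss →
      LabInv EL bad prev lab →
      FN ψ (hierOf EL bad prev Ss) (contract lab (edges EL)) + lsum EL ld (gd bad ψ)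
        ≤ lsum EL (ldOf EL prev Ss ld) (gd bad ψ)
  | [], _, _, _, _, _ => by simp [ldOf, hierOf, FN]
  | S :: Ss, prev, lab, ld, ⟨h1, h2, _, h4⟩, hi => by
    have ih := FN_le_ld hn bad ψ Ss S.ctr _ (loads S.ord (mass prev EL fun _ => 0) ld) h4
      (hi.step h1 h2)
    have a := scale_loads hn h1.ok prev (fun v => |ψ v - ψ (port bad S.ord v)|) (gd bad ψ)
      (fun t ht => by
        rw [port_step bad h1.ok t ht]
        unfold gd
        by_cases hb : bad t.2.2 = true
        · simp [hb]
        · simp only [hb]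
          have k := abs_sub_le (ψ t.1) (ψ t.2.1) (ψ (port bad S.ord t.2.1))
          rcases (h1.ok.edge t ht).2.1 with ⟨a, b⟩ | ⟨a, b⟩
          · rw [a, b]; simpa using k
          · rw [a, b, abs_sub_comm (ψ t.2.1) (ψ t.1)]; simpa using k)
      (fun w hw => by rw [port_out bad _ w hw]; simp) ld
    have b : lev (contract lab (edges EL)) (fun a => |ψ a - ψ (relOf EL bad prev S.ord a)|)
        ≤ lev (contract prev (edges EL)) fun v => |ψ v - ψ (port bad S.ord v)| := by
      simp only [lev, wsum_contract]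
      refine wsum_le fun e _ => ?_
      have one : ∀ v, |ψ (lab v) - ψ (relOf EL bad prev S.ord (lab v))|
          ≤ |ψ (prev v) - ψ (port bad S.ord (prev v))| := by
        intro v
        unfold relOf
        by_cases hb : Brk EL bad prev v
        · rw [if_pos ((Brk.congr (hi v).1).2 hb)]; simp
        · rw [if_neg fun k => hb ((Brk.congr (hi v).1).1 k), (hi v).2 hb]
      by_cases hl : lab e.1 = lab e.2.1
      · rw [if_pos hl]
        split_ifs
        · exact le_rfl
        · positivity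
      · rw [if_neg hl]
        by_cases hp : prev e.1 = prev e.2.1
        · rw [if_pos hp]
          have k1 := hi.ne hl hp
          have k2 := hi.ne (Ne.symm hl) hp.symm
          unfold relOf
          rw [if_pos ((Brk.congr (hi _).1).2 k1), if_pos ((Brk.congr (hi _).1).2 k2)]
          simp
        · rw [if_neg hp]
          exact add_le_add (one _) (one _)
    have c : contract (relOf EL bad prev S.ord) (contract lab (edges EL))
        = contract (fun v => relOf EL bad prev S.ord (lab v)) (edges EL) := by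
      simp [contract, List.map_map, Function.comp_def]
    simp only [ldOf, hierOf, FN, c]
    linarith

/-- The ends of the bad edges. -/
def badEnds (EL : List LEdge) (bad : LEdge → Bool) : Finset ℕ := ends (edges (EL.filter bad))

theorem card_badEnds (EL : List LEdge) (bad : LEdge → Bool) :
    (badEnds EL bad).card ≤ 2 * (EL.filter bad).length := by
  simpa [edges, badEnds] using card_ends_le (edges (EL.filter bad))

theorem mem_badEnds {EL : List LEdge} {bad : LEdge → Bool} {z : ℕ} :
    z ∈ badEnds EL bad ↔ BadEnd EL bad z := by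
  simp only [badEnds, ends, edges, Finset.mem_union, List.mem_toFinset, List.mem_map,
    List.mem_filter, BadEnd]
  constructor
  · rintro (⟨e, ⟨r, ⟨h1, h2⟩, rfl⟩, rfl⟩ | ⟨e, ⟨r, ⟨h1, h2⟩, rfl⟩, rfl⟩)
    · exact ⟨r, h1, h2, Or.inl rfl⟩
    · exact ⟨r, h1, h2, Or.inr rfl⟩
  · rintro ⟨r, h1, h2, rfl | rfl⟩
    · exact Or.inl ⟨r.1, ⟨r, ⟨h1, h2⟩, rfl⟩, rfl⟩
    · exact Or.inr ⟨r.1, ⟨r, ⟨h1, h2⟩, rfl⟩, rfl⟩

/-- The edges that are no loops at the top have their ends in a small set. -/
theorem core_small {EL : List LEdge} {K : ℝ} (bad : LEdge → Bool) (Z : ℕ → Prop)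
    (hZ : ∀ r ∈ EL, Z (ex r) ∧ Z (ey r)) :
    ∀ (Ss : List Scale) (prev lab : ℕ → ℕ) (T : Finset ℕ), Chain EL K prev Ss →
      LabInv EL bad prev lab → badEnds EL bad ⊆ T → (∀ a ∈ T, Z a) →
      (∀ v, Brk EL bad prev v → lab v ∈ T) →
      ∃ T' : Finset ℕ, T'.card ≤ T.card + Ss.length * (badEnds EL bad).card ∧ (∀ a ∈ T', Z a) ∧
        ∀ r ∈ EL, labAll (hierOf EL bad prev Ss) (lab (ex r))
            ≠ labAll (hierOf EL bad prev Ss) (lab (ey r)) →
          labAll (hierOf EL bad prev Ss) (lab (ex r)) ∈ T' ∧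
          labAll (hierOf EL bad prev Ss) (lab (ey r)) ∈ T'
  | [], prev, lab, T, hc, hi, _, hT, hb => by
    refine ⟨T, by simp, hT, fun r hr hne => ?_⟩
    simp only [hierOf, labAll] at hne ⊢
    exact ⟨hb _ (hi.ne hne (hc r hr)), hb _ (hi.ne (Ne.symm hne) (hc r hr).symm)⟩
  | S :: Ss, prev, lab, T, ⟨h1, h2, _, h4⟩, hi, hs, hT, hb => by
    obtain ⟨T', k1, k2, k3⟩ := core_small bad Z hZ Ss S.ctr _
      (T ∪ (badEnds EL bad).image S.ctr) h4 (hi.step h1 h2)
      (hs.trans Finset.subset_union_left)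
      (fun a ha => by
        rcases Finset.mem_union.1 ha with ha | ha
        · exact hT a ha
        · obtain ⟨z, hz, rfl⟩ := Finset.mem_image.1 ha
          have := h1.const (χ := Z) (fun r hr => propext ⟨fun _ => (hZ r hr).2,
            fun _ => (hZ r hr).1⟩) z
          rw [this]
          exact hT z (hs hz))
      (fun v hv => by
        unfold relOf
        by_cases hp : Brk EL bad prev v
        · rw [if_pos ((Brk.congr (hi v).1).2 hp)]
          exact Finset.mem_union_left _ (hb v hp)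
        · rw [if_neg fun k => hp ((Brk.congr (hi v).1).1 k)]
          have e : S.ctr (lab v) = S.ctr v := by rw [← h2, (hi v).1, h2]
          rcases (h1.port bad (lab v)).2 with p | p
          · rw [p, e]
            obtain ⟨r, hr, b1, b2⟩ := hv
            refine Finset.mem_union_right _ (Finset.mem_image.2 ?_)
            rcases b2 with b2 | b2
            · exact ⟨ex r, mem_badEnds.2 ⟨r, hr, b1, Or.inl rfl⟩, b2⟩
            · exact ⟨ey r, mem_badEnds.2 ⟨r, hr, b1, Or.inr rfl⟩, b2⟩
          · exact Finset.mem_union_left _ (hs (mem_badEnds.2 p)))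
    refine ⟨T', ?_, k2, fun r hr hne => k3 r hr hne⟩
    have c1 := Finset.card_union_le T ((badEnds EL bad).image S.ctr)
    have c2 := Finset.card_image_le (s := badEnds EL bad) (f := S.ctr)
    simp only [List.length_cons]
    nlinarith

theorem contract_id (E : List Edge) : contract id E = E := by simp [contract]

/-- Summary for a chain above the single vertices. -/
theorem round_facts {EL : List LEdge} (hn : (EL.map ei).Nodup) {K : ℝ} {Ss : List Scale}
    (hc : Chain EL K id Ss) (bad : LEdge → Bool) :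
    lsum EL (ldOf EL id Ss fun _ => 0) (fun r => el r) ≤ Ss.length * (2 * K) ∧
    (∀ ψ, FN ψ (hierOf EL bad id Ss) (edges EL) ≤ lsum EL (ldOf EL id Ss fun _ => 0) (gd bad ψ)) ∧
    ∀ Z : ℕ → Prop, (∀ r ∈ EL, Z (ex r) ∧ Z (ey r)) →
      ∃ T : Finset ℕ, T.card ≤ (Ss.length + 1) * (2 * (EL.filter bad).length) ∧ (∀ a ∈ T, Z a) ∧
        ∀ e ∈ contractAll (hierOf EL bad id Ss) (edges EL), e.1 ≠ e.2.1 → e.1 ∈ T ∧ e.2.1 ∈ T := by
  have hi : LabInv EL bad id id := fun v => ⟨rfl, fun _ => rfl⟩
  have z : ∀ δ, lsum EL (fun _ => 0) δ = 0 := fun δ => by simp [lsum]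
  refine ⟨?_, fun ψ => ?_, fun Z hZ => ?_⟩
  · simpa [z] using ld_len hn Ss id (fun _ => 0) hc
  · simpa [z, contract_id] using FN_le_ld hn bad ψ Ss id id (fun _ => 0) hc hi
  · obtain ⟨T, k1, k2, k3⟩ := core_small bad Z hZ Ss id id (badEnds EL bad) hc hi subset_rfl
      (fun a ha => by
        obtain ⟨r, hr, _, rfl | rfl⟩ := mem_badEnds.1 ha
        · exact (hZ r hr).1
        · exact (hZ r hr).2)
      (fun v ⟨r, hr, b1, b2⟩ => mem_badEnds.2 ⟨r, hr, b1, b2⟩)
    refine ⟨T, ?_, k2, fun e he hne => ?_⟩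
    · have := card_badEnds EL bad
      nlinarith
    · rw [contractAll_eq] at he
      simp only [contract, edges, List.map_map, List.mem_map] at he
      obtain ⟨r, hr, rfl⟩ := he
      exact k3 r hr hne

end Vale.Agent.P305S
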