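import Vale.Agent.P305S.Level

/-!
# Static tree sampler, part 15: the sampler
-/

namespace Vale.Agent.P305S

open Vale.Agent.P305E

/-- A random hierarchy with `L` levels of `Dp b` maps each. -/
noncomputable def sample (b tau L : ℕ) (E : List Edge) : M (List (Arr ℕ)) :=
  pow2 b >>= fun X => num (3 * b + 10) >>= fun D => pow2 D >>= fun R => num (4 * X) >>= fun Mm =>
  num (b + 3) >>= fun g => pow2 tau >>= fun n => num ((8 * (D * (16 * g)) + 4) * n) >>= fun ρ =>
  num (4 * (b * b) * (6 * b + 20)) >>= fun tp =>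
  iterM (fun s _ => level b tau X D R Mm g n ρ tp s) (E, []) L >>= fun s => revP s.2

@[fun_prop] theorem impl_sample {α : Type} [Rep α] {b tau L : α → ℕ} {E : α → List Edge}
    (h1 : Pure b) (h2 : Pure tau) (h3 : Pure L) (h4 : Pure E) :
    Impl fun x => sample (b x) (tau x) (L x) (E x) := by
  unfold sample
  fun_prop

/-- The factor for the time. -/
def Cs (b : ℕ) : ℕ := Cl b + Dp b + 1
/-- The loss of quality per level. -/
def Qs (b : ℕ) : ℕ := 3 * ((b + 3) * Ap b) + 2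

variable {b tau B L : ℕ} {E : List Edge}

theorem setup (hB : 2 ^ (6 * b + 20) ≤ B) (ht : tau ≤ b) :
    2 ^ b ≤ B ∧ 3 * b + 10 ≤ B ∧ 2 ^ (3 * b + 10) ≤ B ∧ 4 * 2 ^ b ≤ B ∧ b + 3 ≤ B ∧ 2 ^ tau ≤ B ∧
      (8 * ((3 * b + 10) * (16 * (b + 3))) + 4) * 2 ^ tau ≤ B ∧
      4 * (b * b) * (6 * b + 20) ≤ B := by
  have b1 : b < 2 ^ b := Nat.lt_two_pow_self
  have b2 : 2 ^ tau ≤ 2 ^ b := Nat.pow_le_pow_right (by omega) ht
  have b3 : 2 ^ (3 * b + 10) ≤ B := le_trans (Nat.pow_le_pow_right (by omega) (by omega)) hB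
  have k := @big_le b B hB
  have b4 := k (a := 10 * 2 ^ b) 10 1 (by norm_num) (by norm_num) (by simp)
  refine ⟨by omega, by omega, b3, by omega, by omega, by omega, ?_, ?_⟩
  all_goals clear hB b3
  all_goals generalize 2 ^ b = x at *
  · refine k 3844 3 (by norm_num) (by norm_num) ?_
    calc (8 * ((3 * b + 10) * (16 * (b + 3))) + 4) * 2 ^ tau
        ≤ (8 * ((10 * x) * (16 * (3 * x))) + 4 * (x * x)) * x := by
          gcongr
          · omega
          · omega
          · nlinarith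
      _ = _ := by ring
  · refine k 80 3 (by norm_num) (by norm_num) ?_
    calc 4 * (b * b) * (6 * b + 20) ≤ 4 * (x * x) * (20 * x) := by gcongr; omega
      _ = _ := by ring

theorem level_eq (b tau : ℕ) : level b tau (2 ^ b) (3 * b + 10) (2 ^ (3 * b + 10)) (4 * 2 ^ b)
    (b + 3) (2 ^ tau) ((8 * ((3 * b + 10) * (16 * (b + 3))) + 4) * 2 ^ tau)
    (4 * (b * b) * (6 * b + 20)) = lvl b tau := by
  rw [lvl, Tp, pow_two]
  rfl

/-- The invariant of the loop over the levels. -/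
structure LInv (b tau B : ℕ) (E : List Edge) (k : ℕ) (s : List Edge × List (Arr ℕ)) : Prop where
  ok : EOK b B s.1
  le : s.1.length ≤ E.length
  small : s.1.length * 2 ^ (tau * k) ≤ Sz b ^ k * E.length
  len : s.2.length = k * Dp b
  her : Her (hier s.2.reverse)
  into : Into (fun z => z ∈ ends E) (hier s.2.reverse)
  src : ∀ e ∈ s.1, ∃ e' ∈ E, e.1 = labAll (hier s.2.reverse) e'.1 ∧
    e.2.1 = labAll (hier s.2.reverse) e'.2.1

theorem LInv.init (h : EOK b B E) : LInv b tau B E 0 (E, []) :=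
  ⟨h, le_rfl, by simp, by simp, Her.nil, by simp [Into, hier],
    fun e he => ⟨e, he, rfl, rfl⟩⟩

theorem LInv.step {k : ℕ} {s s' : List Edge × List (Arr ℕ)} (h : LInv b tau B E k s)
    {cs : List (Arr ℕ)} (e : s'.2 = cs.reverse ++ s.2) (r : LRes b tau B s.1 s'.1 cs) :
    LInv b tau B E (k + 1) s' := by
  have e2 : hier s'.2.reverse = hier s.2.reverse ++ hier cs := by simp [hier, e]
  have src : ∀ z ∈ ends s.1, ∃ v ∈ ends E, z = labAll (hier s.2.reverse) v := by
    intro z hz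
    simp only [ends, Finset.mem_union, List.mem_toFinset, List.mem_map] at hz
    rcases hz with ⟨a, ha, rfl⟩ | ⟨a, ha, rfl⟩
    · obtain ⟨a', h1, h2, -⟩ := h.src a ha
      exact ⟨_, (mem_ends h1).1, h2⟩
    · obtain ⟨a', h1, -, h2⟩ := h.src a ha
      exact ⟨_, (mem_ends h1).2, h2⟩
  refine ⟨r.ok, r.le.trans h.le, ?_, ?_, ?_, ?_, fun a ha => ?_⟩
  · calc s'.1.length * 2 ^ (tau * (k + 1)) = s'.1.length * 2 ^ tau * 2 ^ (tau * k) := by ring
      _ ≤ Sz b * s.1.length * 2 ^ (tau * k) := Nat.mul_le_mul_right _ r.small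
      _ = Sz b * (s.1.length * 2 ^ (tau * k)) := by ring
      _ ≤ Sz b * (Sz b ^ k * E.length) := Nat.mul_le_mul_left _ h.small
      _ = _ := by ring
  · rw [e, List.length_append, List.length_reverse, r.len, h.len]; ring
  · rw [e2]
    exact h.her.append r.her (r.into.mono fun z hz => (src z hz).imp fun _ h => h.2)
  · rw [e2]
    refine h.into.append (r.into.mono fun z hz => ?_)
    obtain ⟨v, h1, rfl⟩ := src z hz
    rcases h.into.lab v with k | k
    · rwa [k]
    · exact k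
  · obtain ⟨a₁, h1, h2, h3⟩ := r.src a ha
    obtain ⟨a₂, k1, k2, k3⟩ := h.src a₁ h1
    exact ⟨a₂, k1, by rw [e2, labAll_append, h2, k2], by rw [e2, labAll_append, h3, k3]⟩

theorem LInv.tri {k : ℕ} {s : List Edge × List (Arr ℕ)} (h : LInv b tau B E k s)
    (hB : 2 ^ (6 * b + 20) ≤ B) (ht : tau ≤ b) :
    Tri ⟨B, true⟩ (lvl b tau s) fun s' t => LInv b tau B E (k + 1) s' ∧
      t ≤ 2 ^ tau * Cl b * (E.length + 1) :=
  (lvl_tri h.ok hB ht s.2).mono fun _ _ ⟨⟨_, e, r⟩, ht⟩ =>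
    ⟨h.step e r, ht.trans (Nat.mul_le_mul_left _ (by have := h.le; omega))⟩

/-- The sampler on all paths: shape of the hierarchy and time. -/
theorem sample_tri (h : EOK b B E) (hB : 2 ^ (6 * b + 20) ≤ B) (ht : tau ≤ b) (L : ℕ) :
    Tri ⟨B, true⟩ (sample b tau L E) fun cs t => cs.length = L * Dp b ∧ Her (hier cs) ∧
      (∀ c ∈ hier cs, ∀ v, c v = v ∨ c v ∈ ends E) ∧ t ≤ 2 ^ tau * Cs b * L * (E.length + 1) := by
  obtain ⟨s1, s2, s3, s4, s5, s6, s7, s8⟩ := setup hB ht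
  unfold sample
  simp only [Tri_bind, Tri_pow2, Tri_num, Tri_revP, level_eq]
  refine ⟨s1, s2, s3, s4, s5, s6, s7, s8, (Tri.iterM (fun k s t => LInv b tau B E k s ∧
    t ≤ k * (2 ^ tau * Cl b * (E.length + 1) + 1)) ⟨LInv.init h, by simp⟩ ?_).mono ?_⟩
  · rintro k s t - ⟨h1, h2⟩
    exact (h1.tri hB ht).mono fun s' t' ⟨k1, k2⟩ => ⟨k1, by rw [add_mul]; omega⟩
  · rintro s t ⟨h1, h2⟩
    refine ⟨by simpa using h1.len, h1.her, h1.into, ?_⟩
    rw [h1.len]
    have a1 : 1 ≤ 2 ^ tau * (E.length + 1) := Nat.mul_pos (by positivity) (by omega)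
    have a2 : L * (Dp b + 1) ≤ L * (Dp b + 1) * (2 ^ tau * (E.length + 1)) :=
      Nat.le_mul_of_pos_right _ a1
    unfold Cs
    nlinarith

/-- The sampler in expectation: the norm on the tree against the norm on the graph. -/
theorem sample_wp (h : EOK b B E) (hB : 2 ^ (6 * b + 20) ≤ B) (ht : tau ≤ b)
    (hL : E.length * Sz b ^ L < 2 ^ (tau * L)) {Osc : ℝ} {ψ : ℕ → ℝ}
    (hψ : ∀ a a', |ψ a - ψ a'| ≤ Osc)
    (hO : ((L * Dp b : ℕ) + 1) * (2 * Osc * tot E) * L * (tot E + 1) ≤ 2 ^ b) (p : ℝ) :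
    wp B (sample b tau L E) (fun cs _ => TN Osc ψ (hier cs) E) p
      ≤ (Qs b : ℝ) ^ L * nrm E ψ + 1 := by
  obtain ⟨s1, s2, s3, s4, s5, s6, s7, s8⟩ := setup hB ht
  have O0 : 0 ≤ Osc := (abs_nonneg _).trans (hψ 0 0)
  set Pen : ℝ := ((L * Dp b : ℕ) + 1) * (2 * Osc * tot E) with hPen
  have P0 : 0 ≤ Pen := by have := tot_nonneg E; positivity
  have q1 : (1 : ℝ) ≤ Qs b := by exact_mod_cast (by unfold Qs; omega : 1 ≤ Qs b)
  have nn : ∀ k (s : List Edge × List (Arr ℕ)), 0 ≤ FN ψ (hier s.2.reverse) E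
      + 2 ^ k * (Qs b : ℝ) ^ (L - k) * nrm s.1 ψ + Pen * (L - k : ℕ) / 2 ^ b * (tot s.1 + 1) :=
    fun k s => by
      have := FN_nonneg ψ (hier s.2.reverse) E
      have := nrm_nonneg s.1 ψ
      have := tot_nonneg s.1
      positivity
  unfold sample
  simp only [wp_bind, wp_pow2, wp_num, wp_revP, level_eq, if_pos s1, if_pos s2, if_pos s3,
    if_pos s4, if_pos s5, if_pos s6, if_pos s7, if_pos s8]
  refine (wp_iterM_le (fun k s _ => LInv b tau B E k s)
    (fun k s _ => min Pen (FN ψ (hier s.2.reverse) E + 2 ^ k * (Qs b : ℝ) ^ (L - k) * nrm s.1 ψ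
      + Pen * (L - k : ℕ) / 2 ^ b * (tot s.1 + 1)
      + Pen * ind (¬ Dom (2 ^ k) (contractAll (hier s.2.reverse) E) s.1))) (LInv.init h)
    (fun k s t _ hs => ((hs.tri hB ht).mono fun _ _ h => h.1).par) ?_ ?_).trans ?_
  · intro k s t hk hs
    have top := wp_le_const_of_Tri (hs.tri hB ht) (x := Pen) (F := fun s _ =>
      min Pen (FN ψ (hier s.2.reverse) E + 2 ^ (k + 1) * (Qs b : ℝ) ^ (L - (k + 1)) * nrm s.1 ψ
      + Pen * (L - (k + 1) : ℕ) / 2 ^ b * (tot s.1 + 1)
      + Pen * ind (¬ Dom (2 ^ (k + 1)) (contractAll (hier s.2.reverse) E) s.1)))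
      (fun _ _ _ => min_le_left _ _) p
    refine le_min top ?_
    by_cases hd : Dom (2 ^ k) (contractAll (hier s.2.reverse) E) s.1
    · obtain ⟨m, hm⟩ : ∃ m, L - k = m + 1 := ⟨L - k - 1, by omega⟩
      have hm' : L - (k + 1) = m := by omega
      have w := lvl_wp hs.ok hB ht s.2 ψ (lam := 2 ^ k) (a := 2 ^ (k + 1) * (Qs b : ℝ) ^ m)
        (a' := Pen * m / 2 ^ b) (by positivity) (by positivity) (by positivity) P0 hd 0
      have w5 := wp_add_const (B := B) (lvl b tau s) (fun s _ => FN ψ (hier s.2.reverse) E +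
        (2 ^ (k + 1) * (Qs b : ℝ) ^ m * nrm s.1 ψ + Pen * m / 2 ^ b * tot s.1
          + Pen * ind (¬ Dom (2 ^ k * 2) (contractAll (hier s.2.reverse) E) s.1))) 0
        (Pen * m / 2 ^ b)
      refine le_trans (wp_le_of_Tri (hs.tri hB ht) ?_ p _) (w5.le.trans ?_)
      · intro s' _ _
        refine (min_le_right _ _).trans (le_of_eq ?_)
        rw [hm', pow_succ (2 : ℝ) k]
        ring
      · rw [ind_neg (not_not.2 hd), hm]
        have a1 : (1 : ℝ) ≤ (Qs b : ℝ) ^ m := one_le_pow₀ q1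
        have a2 : (Qs b : ℝ) = 3 * ((b + 3) * Ap b : ℕ) + 2 := by unfold Qs; push_cast; ring
        have a3 : (0 : ℝ) ≤ ((b + 3) * Ap b : ℕ) := Nat.cast_nonneg _
        have a4 : 0 ≤ 2 ^ k * nrm s.1 ψ := mul_nonneg (by positivity) (nrm_nonneg _ _)
        rw [pow_succ (Qs b : ℝ) m]
        generalize (Qs b : ℝ) ^ m = y at *
        generalize (((b + 3) * Ap b : ℕ) : ℝ) = g at *
        have a5 : 2 ^ k * nrm s.1 ψ * (g * 1) ≤ 2 ^ k * nrm s.1 ψ * (g * y) := by gcongr
        refine (add_le_add_left w _).trans ?_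
        rw [a2, pow_succ (2 : ℝ) k]
        push_cast
        have e : Pen * (m + 1) / 2 ^ b * (tot s.1 + 1) = Pen * m / 2 ^ b * tot s.1
          + Pen * ((tot s.1 + 1) / 2 ^ b) + Pen * m / 2 ^ b := by ring
        rw [e]
        linarith
    · rw [ind_pos hd]
      linarith [nn k s]
  · intro s t hs
    have a1 : TN Osc ψ (hier s.2.reverse) E ≤ Pen := by
      have := TN_le hψ (hier s.2.reverse) E
      rwa [hier, List.length_map, List.length_reverse, hs.len] at this
    refine le_min a1 ?_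
    by_cases hd : Dom (2 ^ L) (contractAll (hier s.2.reverse) E) s.1
    · have a2 : s.1 = [] := by
        have := hs.small
        rw [mul_comm (Sz b ^ L)] at this
        refine List.eq_nil_of_length_eq_zero ?_
        by_contra hc
        have : 1 * 2 ^ (tau * L) ≤ s.1.length * 2 ^ (tau * L) := Nat.mul_le_mul_right _ (by omega)
        omega
      have a3 := hd.lev (h := fun _ => Osc) fun _ => O0
      rw [ind_neg (not_not.2 hd)]
      rw [a2] at a3 ⊢
      rw [show lev [] (fun _ => Osc) = 0 from rfl, mul_zero] at a3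
      simp only [TN, nrm, wsum_nil, Nat.sub_self, Nat.cast_zero, mul_zero, zero_div, zero_mul]
      linarith
    · rw [ind_pos hd]
      linarith [nn L s]
  · refine (min_le_right _ _).trans ?_
    simp only [List.reverse_nil, hier, List.map_nil, FN, contractAll, pow_zero, Nat.sub_zero]
    rw [ind_neg (not_not.2 (Dom.refl E))]
    have : Pen * L / 2 ^ b * (tot E + 1) ≤ 1 := by
      rw [div_mul_eq_mul_div, div_le_one (by positivity)]
      exact hO
    linarith

end Vale.Agent.P305S
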