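import Vale.Agent.P305S.GrowTri
import Vale.Agent.P305S.Her

/-!
# Static tree sampler, part 8: the chain of scales, from the top to the bottom
-/

namespace Vale.Agent.P305S

open Vale.Agent.P305E

/-- The scale described by the output of region growing. -/
def toScale (g : GS) : Scale := ⟨relab g.1, g.2⟩

/-- One more scale. -/
noncomputable def scaleStep (P : GP) (EL : List LEdge) (s : Arr ℕ × ℕ × List GS) :
    M (Arr ℕ × ℕ × List GS) :=
  filterP (fun r => decide (relab s.1 (ex r) = relab s.1 (ey r))) EL >>= fun rem =>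
    grow ⟨s.2.1, P.M, P.g, P.V⟩ s.1 rem >>= fun q => pure (q.1, s.2.1 / 2, q :: s.2.2)

/-- All scales, finest first. -/
noncomputable def scalesM (D : ℕ) (P : GP) (EL : List LEdge) : M (List GS) :=
  iterM (fun s _ => scaleStep P EL s) (Arr.const 1, P.R, []) D >>= fun s => pure s.2.2

@[fun_prop] theorem impl_scalesM {α : Type} [Rep α] {D : α → ℕ} {P : α → GP}
    {EL : α → List LEdge} (h1 : Pure D) (h2 : Pure P) (h3 : Pure EL) :
    Impl fun x => scalesM (D x) (P x) (EL x) := by
  unfold scalesM scaleStep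
  fun_prop

/-- The assumptions of one round. -/
structure ROK (B : ℕ) (EL : List LEdge) (D : ℕ) (P : GP) : Prop where
  nd : (EL.map ei).Nodup
  hR : P.R = 2 ^ D
  hV : 0 < P.V
  hM : 0 < P.M
  hg : (1 + P.M : ℝ) ≤ Real.exp P.g
  len : 3 * EL.length ≤ P.M
  vol : sm EL (fun r => eu r * el r) ≤ P.V
  cap : sm EL eu ≤ P.V
  pos : ∀ r ∈ EL, 1 ≤ eu r
  top : 4 * P.g * P.V < 2 ^ D
  bV : 2 * P.V ≤ B
  bl : ∀ r ∈ EL, P.R + el r ≤ B
  bx : ∀ r ∈ EL, ex r < B ∧ ey r < B
  bld : D * (2 * EL.length * (2 * P.V)) ≤ B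

theorem ROK.g_pos {B D : ℕ} {EL : List LEdge} {P : GP} (h : ROK B EL D P) : 1 ≤ P.g := by
  by_contra hc
  have e : P.g = 0 := by omega
  have := h.hg
  have hM : (0 : ℝ) < P.M := by exact_mod_cast h.hM
  rw [e, Nat.cast_zero, Real.exp_zero] at this
  linarith

theorem cutTot_nonneg (prev : ℕ → ℕ) (E : List Edge) : 0 ≤ cutTot prev E :=
  wsum_nonneg fun _ _ => by split_ifs <;> norm_num

theorem closed_of_cutTot {EL : List LEdge} (hp : ∀ r ∈ EL, 1 ≤ eu r) {prev : ℕ → ℕ}
    (h : cutTot prev (edges EL) < 1) : ∀ r ∈ EL, prev (ex r) = prev (ey r) := by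
  rw [cutTot, wsum_edges EL fun x y => prev x = prev y] at h
  have h0 : (sm EL fun r => if prev (ex r) = prev (ey r) then 0 else eu r) = 0 := by
    have : (sm EL fun r => if prev (ex r) = prev (ey r) then 0 else eu r) < 1 := by
      exact_mod_cast h
    omega
  intro r hr
  by_contra hc
  have := List.single_le_sum (l := EL.map fun r => if prev (ex r) = prev (ey r) then 0 else eu r)
    (fun _ _ => Nat.zero_le _) _ (List.mem_map.2 ⟨r, hr, rfl⟩)
  rw [if_neg hc] at this
  have := hp r hr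
  unfold sm at h0
  omega

theorem cutTot_split (EL : List LEdge) (up ctr : ℕ → ℕ) :
    cutTot ctr (edges EL) ≤ cutTot up (edges EL)
      + cutTot ctr (edges (EL.filter fun r => decide (up (ex r) = up (ey r)))) := by
  rw [cutTot, cutTot, cutTot, wsum_edges _ fun x y => ctr x = ctr y,
    wsum_edges _ fun x y => up x = up y, wsum_edges _ fun x y => ctr x = ctr y, sm_filter]
  norm_cast
  rw [← sm_add]
  refine sm_le fun r _ => ?_
  by_cases e : up (ex r) = up (ey r) <;> simp [e]
  split_ifs <;> simp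

theorem sm_filter_le (EL : List LEdge) (p : LEdge → Bool) (f : LEdge → ℕ) :
    sm (EL.filter p) f ≤ sm EL f := by
  rw [sm_filter]
  exact sm_le fun r _ => by split_ifs <;> simp

theorem ScaleOK.mono {EL EL' : List LEdge} {ctr : ℕ → ℕ} {ord : List TEdge}
    (h : ScaleOK EL ctr ord) (hs : ∀ r ∈ EL, r ∈ EL') : ScaleOK EL' ctr ord :=
  ⟨h.ok.mono hs, h.out⟩

theorem scalesM_tri {c : Cx} {EL : List LEdge} {D : ℕ} {P : GP} (h : ROK c.B EL D P) :
    Tri c (scalesM D P EL) fun Ss t => Chain EL (8 * P.g * P.V) id (Ss.map toScale) ∧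
      HChain id (Ss.map toScale) ∧ Ss.length = D ∧ t ≤ D * (9 * EL.length + 1) := by
  unfold scalesM
  refine (Tri.iterM (fun j (s : Arr ℕ × ℕ × List GS) t => s.2.1 = 2 ^ (D - j) ∧
    (∀ w, relab s.1 (relab s.1 w) = relab s.1 w) ∧ (∀ r ∈ EL, relab s.1 (ex r) < c.B) ∧
    2 * (2 : ℝ) ^ (D - j) * cutTot (relab s.1) (edges EL) ≤ 4 * P.g * P.V ∧
    (∀ prev : ℕ → ℕ, (∀ w, relab s.1 (prev w) = relab s.1 w) →
      2 * (2 : ℝ) ^ (D - j) * cutTot prev (edges EL) ≤ 8 * P.g * P.V →
      Chain EL (8 * P.g * P.V) prev (s.2.2.map toScale)) ∧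
    (∀ prev : ℕ → ℕ, (∀ w, prev (relab s.1 w) = relab s.1 w) →
      HChain prev (s.2.2.map toScale)) ∧
    s.2.2.length = j ∧ t ≤ j * (9 * EL.length + 1)) ?_ ?_).bind ?_
  · refine ⟨h.hR, by simp [relab], fun r hr => ?_, ?_, fun prev _ hp => ?_, fun _ _ => trivial,
      rfl, by simp⟩
    · have := (h.bx r hr).1
      simp only [relab, Arr.get_const]
      simp
      omega
    · simp only [cutTot, relab, Arr.get_const]
      simp
      positivity
    · refine closed_of_cutTot h.pos ?_
      have t : (4 * P.g * P.V : ℝ) < 2 ^ D := by exact_mod_cast h.top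
      have : (0 : ℝ) < 2 ^ D := by positivity
      simp only [Nat.sub_zero] at hp
      nlinarith
  · rintro j ⟨U, R, Ss⟩ t hj ⟨i1, i2, i3, i4, i5, i6, i7, i8⟩
    simp only at i1 i2 i3 i4 i5 i6 i7
    subst i1
    unfold scaleStep
    simp only [Tri_bind, Tri_filterP, Tri_pure]
    set rem := EL.filter fun r => decide (relab U (ex r) = relab U (ey r)) with hrem
    have sub : ∀ r ∈ rem, r ∈ EL := fun r hr => List.mem_of_mem_filter hr
    have hl : rem.length ≤ EL.length := List.length_filter_le _ _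
    have hk : GOK c.B rem (relab U) ⟨2 ^ (D - j), P.M, P.g, P.V⟩ :=
      ⟨h.nd.sublist (List.filter_sublist.map _), i2,
        fun r hr => by simpa using List.of_mem_filter hr, by positivity, h.hV, h.hM, h.hg,
        by have := h.len; simp only; omega, (sm_filter_le _ _ _).trans h.vol,
        (sm_filter_le _ _ _).trans h.cap, h.bV,
        fun r hr => by
          have := h.bl r (sub r hr)
          have : 2 ^ (D - j) ≤ 2 ^ D := Nat.pow_le_pow_right (by omega) (by omega)
          have := h.hR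
          simp only
          omega,
        fun r hr => ⟨(h.bx r (sub r hr)).1, (h.bx r (sub r hr)).2, i3 r (sub r hr)⟩⟩
    refine (grow_tri hk).mono ?_
    rintro q t' ⟨g, ht'⟩
    have e2 : (2 : ℝ) ^ (D - j) = 2 * 2 ^ (D - (j + 1)) := by
      rw [← pow_succ']; congr 1; omega
    have nest : ∀ w, relab U (relab q.1 w) = relab U w := g.ok.const hk.const
    have cs := cutTot_split EL (relab U) (relab q.1)
    have gc := g.cut
    simp only [Nat.cast_pow, Nat.cast_ofNat] at gc
    rw [← hrem] at cs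
    have pp : (0 : ℝ) < 2 ^ (D - j) := by positivity
    have cs' := mul_le_mul_of_nonneg_left cs pp.le
    refine ⟨?_, g.idem, fun r hr => ?_, by rw [← e2]; nlinarith, fun prev hp hK => ?_,
      fun prev hp => ⟨hp, g.cen, i6 _ g.her⟩, by simp [i7], by nlinarith⟩
    · rw [show D - j = (D - (j + 1)) + 1 by omega, pow_succ]
      omega
    · rw [g.ok.const (χ := fun v => v < c.B) fun r hr => propext
        ⟨fun _ => (hk.bx r hr).2.1, fun _ => (hk.bx r hr).1⟩]
      exact (h.bx r hr).1
    · refine ⟨g.ok.mono sub, hp, ⟨2 ^ (D - j), g.rad, ?_⟩, i5 (relab q.1) nest (by nlinarith)⟩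
      rw [← e2] at hK
      simpa using hK
  · rintro ⟨U, R, Ss⟩ t ⟨-, -, -, -, i5, i6, i7, i8⟩
    simp only [Tri_pure]
    refine ⟨i5 id (fun _ => rfl) ?_, i6 id fun _ => rfl, i7, by simpa using i8⟩
    have a1 : cutTot id (edges EL) ≤ P.V := by
      rw [cutTot, wsum_edges EL fun x y => id x = id y]
      exact_mod_cast le_trans (sm_le fun r _ => by split_ifs <;> simp) h.cap
    have a2 : (1 : ℝ) ≤ P.g := by exact_mod_cast h.g_pos
    have a3 : (0 : ℝ) ≤ P.V := Nat.cast_nonneg _
    simp only [Nat.sub_self, pow_zero]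
    nlinarith

end Vale.Agent.P305S
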