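import Vale.Agent.P305S.Loads
import Vale.Agent.P305E.WpLoop

/-!
# Static tree sampler, part 11: the cut sparsifier (program, all paths)
-/

namespace Vale.Agent.P305S

open Vale.Agent.P305E

/-- Remove a spanning forest and put it into the output. -/
noncomputable def peelStep (P : GP) (s : List LEdge × List LEdge) : M (List LEdge × List LEdge) :=
  grow P (Arr.const 1) s.1 >>= fun g =>
  foldP (fun (a : Arr Bool) (t : TEdge) => a.set (ei t.2.2) true) (Arr.const false) g.2 >>= fun mk =>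
  filterP (fun r => mk.get (ei r)) s.1 >>= fun F =>
  filterP (fun r => !mk.get (ei r)) s.1 >>= fun rest =>
  appendP F s.2 >>= fun out => pure (rest, out)

/-- The edge with twice the capacity. -/
def dbl (r : LEdge) : LEdge := ((ex r, ey r, 2 * eu r), el r, ei r)

/-- Keep an edge with probability one half. -/
def halveStep (acc : List LEdge) (r : LEdge) : M (List LEdge) :=
  flip >>= fun x => if x = true then
    num (2 * eu r) >>= fun u => pure (((ex r, ey r, u), el r, ei r) :: acc) else pure acc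

/-- One class of capacities. -/
noncomputable def classStep (P : GP) (tp : ℕ) (s : List LEdge × List LEdge) (i : ℕ) :
    M (List LEdge × List LEdge) :=
  pow2 i >>= fun y => filterP (fun r => decide (eu r < 2 * y)) s.1 >>= fun C =>
  filterP (fun r => !decide (eu r < 2 * y)) s.1 >>= fun O =>
  iterM (fun q _ => peelStep P q) (C, s.2) tp >>= fun q =>
  foldM halveStep O q.1 >>= fun pend => pure (pend, q.2)

/-- The cut sparsifier. -/
noncomputable def sparsify (b tp : ℕ) (P : GP) (E : List Edge) : M (List Edge) :=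
  zipIdxP E >>= fun z => mapP (fun p => ((p.1, 1, p.2) : LEdge)) z >>= fun L =>
    iterM (classStep P tp) (L, []) b >>= fun s => mapP (fun r => r.1) s.2

@[fun_prop] theorem impl_sparsify {α : Type} [Rep α] {b tp : α → ℕ} {P : α → GP}
    {E : α → List Edge} (h1 : Pure b) (h2 : Pure tp) (h3 : Pure P) (h4 : Pure E) :
    Impl fun x => sparsify (b x) (tp x) (P x) (E x) := by
  unfold sparsify classStep peelStep halveStep
  fun_prop

/-- The edges `F` connect the ends of all edges of `C`. -/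
def Spans (F C : List LEdge) : Prop :=
  ∀ χ : ℕ → Prop, (∀ r ∈ F, χ (ex r) = χ (ey r)) → ∀ r ∈ C, χ (ex r) = χ (ey r)

theorem OrdOK.restrict {EL EL' : List LEdge} {ctr : ℕ → ℕ} : ∀ {l : List TEdge}, OrdOK EL ctr l →
    (∀ t ∈ l, t.2.2 ∈ EL') → OrdOK EL' ctr l
  | [], _, _ => trivial
  | t :: _, ⟨h1, h2, h3, _, h5, h6, h7, h8⟩, h =>
    ⟨h1, h2, h3, h t (by simp), h5, h6, h7, h8.restrict fun s hs => h s (by simp [hs])⟩

theorem mark_fold (l : List TEdge) (a : Arr Bool) (i : ℕ) :
    (l.foldl (fun (a : Arr Bool) (t : TEdge) => a.set (ei t.2.2) true) a).get i = true ↔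
      a.get i = true ∨ ∃ t ∈ l, ei t.2.2 = i := by
  induction l generalizing a with
  | nil => simp
  | cons t l ih =>
    rw [List.foldl_cons, ih, Arr.get_set]
    by_cases e : i = ei t.2.2
    · simp [e]
    · simp [e, Ne.symm e]

/-- The assumptions of the sparsifier on the numbers. -/
structure SOK (B X N : ℕ) (P : GP) : Prop where
  hV : 0 < P.V
  hM : 0 < P.M
  hg : (1 + P.M : ℝ) ≤ Real.exp P.g
  lenM : 3 * N ≤ P.M
  vol : X * N ≤ P.V
  top : 2 * P.g * P.V < P.R
  bV : 2 * P.V ≤ B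
  bl : P.R + 1 ≤ B
  bX : 2 * X ≤ B
  bN : N ≤ B

/-- A list of edges that can be given to region growing. -/
structure COK (B X N : ℕ) (T : Finset ℕ) (C : List LEdge) : Prop where
  nd : (C.map ei).Nodup
  len : C.length ≤ N
  each : ∀ r ∈ C, 1 ≤ eu r ∧ eu r ≤ X ∧ el r = 1 ∧ ex r < B ∧ ey r < B ∧ ex r ∈ T ∧ ey r ∈ T

variable {c : Cx} {X N : ℕ} {T : Finset ℕ} {P : GP}

theorem COK.filter {B : ℕ} {C : List LEdge} (h : COK B X N T C) (p : LEdge → Bool) :
    COK B X N T (C.filter p) :=
  ⟨h.nd.sublist (List.filter_sublist.map _), (List.length_filter_le _ _).trans h.len,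
    fun r hr => h.each r (List.mem_of_mem_filter hr)⟩

theorem peelStep_tri (h : SOK c.B X N P) {C out : List LEdge} (hC : COK c.B X N T C) :
    Tri c (peelStep P (C, out)) fun q t => ∃ F, q.2 = F ++ out ∧ C.Perm (F ++ q.1) ∧ Spans F C ∧
      F.length ≤ T.card ∧ COK c.B X N T q.1 ∧ t ≤ 13 * N := by
  have cap : sm C eu ≤ P.V := by
    refine le_trans (sm_le fun r hr => (hC.each r hr).2.1) ?_
    rw [sm_const]
    exact (Nat.mul_le_mul_left _ hC.len).trans h.vol
  have hk : GOK c.B C (relab (Arr.const 1)) P :=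
    ⟨hC.nd, by simp [relab], by simp [relab], by have := h.top; omega, h.hV, h.hM, h.hg,
      by have := hC.len; have := h.lenM; omega,
      le_trans (sm_le fun r hr => by rw [(hC.each r hr).2.2.1, mul_one]) cap, cap, h.bV,
      fun r hr => by rw [(hC.each r hr).2.2.1]; exact h.bl,
      fun r hr => by
        obtain ⟨-, -, -, a, b, -⟩ := hC.each r hr
        exact ⟨a, b, by simp [relab]; omega⟩⟩
  unfold peelStep
  simp only [Tri_bind, Tri_foldP, Tri_filterP, Tri_appendP, Tri_pure]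
  refine (grow_tri hk).mono ?_
  rintro ⟨A, ord⟩ t ⟨g, ht⟩
  have mk := mark_fold ord (Arr.const false)
  simp only [Arr.get_const, Bool.false_eq_true, false_or] at mk
  generalize ord.foldl (fun (a : Arr Bool) (t : TEdge) => a.set (ei t.2.2) true) (Arr.const false)
    = a at mk
  have ho : ord.length ≤ 2 * C.length := g.ok.ok.length_le
  have hf : (C.filter fun r => a.get (ei r)).length ≤ C.length := List.length_filter_le _ _
  have := hC.len
  refine ⟨_, rfl, (List.filter_append_perm _ _).symm, fun χ hχ r hr => ?_, ?_, hC.filter _,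
    by simp only; omega⟩
  · have s1 : ScaleOK (C.filter fun r => a.get (ei r)) (relab A) ord :=
      ⟨g.ok.ok.restrict fun t ht => List.mem_filter.2
        ⟨(g.ok.ok.edge t ht).1, (mk _).2 ⟨t, ht, rfl⟩⟩, g.ok.out⟩
    have s2 : relab A (ex r) = relab A (ey r) := by
      refine closed_of_cutTot (fun r hr => (hC.each r hr).1) ?_ r hr
      have a1 := g.cut
      have a2 : (2 * P.g * P.V : ℝ) < P.R := by exact_mod_cast h.top
      have a3 : (0 : ℝ) < P.R := by exact_mod_cast hk.hR
      simp only at a1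
      nlinarith
    rw [← s1.const hχ (ex r), s2, s1.const hχ]
  · have a1 : ((C.filter fun r => a.get (ei r)).map ei).length
        ≤ (ord.map fun t => ei t.2.2).length := by
      refine (List.subperm_of_subset (hC.filter _).nd fun i hi => ?_).length_le
      obtain ⟨r, hr, rfl⟩ := List.mem_map.1 hi
      exact List.mem_map.2 ((mk _).1 (List.mem_filter.1 hr).2)
    have a2 : (verts ord).toFinset ⊆ T := by
      intro v hv
      obtain ⟨t, ht, rfl⟩ := List.mem_map.1 (List.mem_toFinset.1 hv)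
      obtain ⟨e1, e2, _⟩ := g.ok.ok.edge t ht
      obtain ⟨-, -, -, -, -, b1, b2⟩ := hC.each _ e1
      rcases e2 with ⟨e2, _⟩ | ⟨_, e2⟩
      · rw [← e2]; exact b1
      · rw [← e2]; exact b2
    have a3 := Finset.card_le_card a2
    rw [List.toFinset_card_of_nodup g.ok.ok.nodup] at a3
    simp only [verts, List.length_map] at a1 a3
    omega

/-- The result of peeling. -/
def PRes (B X N : ℕ) (T : Finset ℕ) (C out : List LEdge) (j : ℕ) (q : List LEdge × List LEdge) :
    Prop :=
  ∃ Fs : List (List LEdge), Fs.length = j ∧ q.2 = Fs.flatten ++ out ∧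
    C.Perm (Fs.flatten ++ q.1) ∧ (∀ F ∈ Fs, Spans F q.1 ∧ F.length ≤ T.card) ∧ COK B X N T q.1

theorem peel_tri (h : SOK c.B X N P) {C : List LEdge} (out : List LEdge) (hC : COK c.B X N T C)
    (tp : ℕ) : Tri c (iterM (fun q _ => peelStep P q) (C, out) tp) fun q t =>
      PRes c.B X N T C out tp q ∧ t ≤ tp * (13 * N + 1) := by
  refine Tri.iterM (fun j q t => PRes c.B X N T C out j q ∧ t ≤ j * (13 * N + 1))
    ⟨⟨[], rfl, rfl, by simp, by simp, hC⟩, by simp⟩ ?_
  rintro j ⟨C', out'⟩ t - ⟨⟨Fs, i1, i2, i3, i4, i5⟩, ht⟩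
  refine (peelStep_tri h i5).mono ?_
  rintro ⟨C'', out''⟩ t' ⟨F, k1, k2, k3, k4, k5, k6⟩
  simp only at i2 i3 i4 k1 k2 k5
  have sub : ∀ r ∈ C'', r ∈ C' := fun r hr => k2.symm.subset (by simp [hr])
  refine ⟨⟨F :: Fs, by simp [i1], by simp [k1, i2], ?_, fun F' hF => ?_, k5⟩, by nlinarith⟩
  · refine (i3.trans (k2.append_left _)).trans ?_
    simp only [List.flatten_cons, ← List.append_assoc]
    exact List.perm_append_comm.append_right _
  · rcases List.mem_cons.1 hF with rfl | hF
    · exact ⟨fun χ hχ r hr => k3 χ hχ r (sub r hr), k4⟩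
    · exact ⟨fun χ hχ r hr => (i4 F' hF).1 χ hχ r (sub r hr), (i4 F' hF).2⟩

theorem halve_tri {B : ℕ} {C : List LEdge} (O : List LEdge) (h : ∀ r ∈ C, 2 * eu r ≤ B) :
    Tri ⟨B, true⟩ (foldM halveStep O C) fun acc t =>
      (∃ S : List LEdge, S.Sublist C ∧ acc = (S.map dbl).reverse ++ O) ∧ t = 2 * C.length := by
  refine Tri.foldM (fun pre acc t => (∃ S : List LEdge, S.Sublist pre ∧
    acc = (S.map dbl).reverse ++ O) ∧ t = 2 * pre.length) ⟨⟨[], by simp, by simp⟩, rfl⟩ ?_
  rintro pre r rest _ _ e ⟨⟨S, h1, rfl⟩, rfl⟩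
  unfold halveStep
  simp only [Tri_bind, Tri_flip, Tri_ite, Tri_num, Tri_pure, true_and, List.length_append,
    List.length_singleton]
  refine fun x => ⟨fun _ => ⟨h r (by simp [e]), ⟨S ++ [r], h1.append_right _, by simp [dbl]⟩,
    by omega⟩, fun _ => ⟨⟨S, h1.trans (List.sublist_append_left _ _), rfl⟩, by omega⟩⟩

/-- The edge has the ends of an edge of `E`. -/
def Src (E : List Edge) (r : LEdge) : Prop := ∃ e ∈ E, ex r = e.1 ∧ ey r = e.2.1

/-- The invariant of the loop over the classes. -/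
structure KInv (E : List Edge) (X tp : ℕ) (T : Finset ℕ) (i : ℕ) (s : List LEdge × List LEdge) :
    Prop where
  nd : (s.1.map ei).Nodup
  pend : ∀ r ∈ s.1, 2 ^ i ≤ eu r ∧ el r = 1 ∧ Src E r
  out : ∀ r ∈ s.2, 1 ≤ eu r ∧ eu r < X ∧ Src E r
  len : s.1.length + s.2.length ≤ E.length
  small : s.2.length ≤ i * (tp * T.card)

/-- The ends of the edges are small numbers in `T`. -/
def EndsIn (B : ℕ) (T : Finset ℕ) (E : List Edge) : Prop :=
  ∀ e ∈ E, e.1 < B ∧ e.2.1 < B ∧ e.1 ∈ T ∧ e.2.1 ∈ T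

theorem KInv.cok {B : ℕ} {E : List Edge} {tp i : ℕ} {s : List LEdge × List LEdge}
    (h : KInv E X tp T i s) (hE : EndsIn B T E) (hN : E.length ≤ N) (hi : 2 * 2 ^ i ≤ X) :
    COK B X N T (s.1.filter fun r => decide (eu r < 2 * 2 ^ i)) := by
  refine ⟨h.nd.sublist (List.filter_sublist.map _),
    (List.length_filter_le _ _).trans (by have := h.len; omega), fun r hr => ?_⟩
  obtain ⟨h1, h2⟩ := List.mem_filter.1 hr
  obtain ⟨a1, a2, e, he, a3, a4⟩ := h.pend r h1
  have := Nat.one_le_two_pow (n := i)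
  simp only [decide_eq_true_eq] at h2
  rw [a3, a4]
  exact ⟨by omega, by omega, a2, hE e he⟩

theorem KInv.step {B : ℕ} {E : List Edge} {tp i : ℕ} {s q : List LEdge × List LEdge}
    (h : KInv E X tp T i s) (hi : 2 * 2 ^ i ≤ X)
    (hq : PRes B X N T (s.1.filter fun r => decide (eu r < 2 * 2 ^ i)) s.2 tp q)
    {S : List LEdge} (hS : S.Sublist q.1) :
    KInv E X tp T (i + 1)
      ((S.map dbl).reverse ++ s.1.filter fun r => !decide (eu r < 2 * 2 ^ i), q.2) := by
  obtain ⟨Fs, i1, i2, i3, i4, -⟩ := hq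
  have p := List.filter_append_perm (fun r => decide (eu r < 2 * 2 ^ i)) s.1
  have p2 := ((i3.symm.append_right _).trans p)
  have mem : ∀ r ∈ Fs.flatten ++ q.1, r ∈ s.1 ∧ eu r < 2 * 2 ^ i := fun r hr => by
    simpa using List.mem_filter.1 (i3.symm.subset hr)
  refine ⟨?_, fun r hr => ?_, fun r hr => ?_, ?_, ?_⟩
  · have a1 := (p2.map ei).nodup_iff.2 h.nd
    have a2 : ((S.map dbl).reverse.map ei).Perm (S.map ei) := by
      rw [List.map_reverse, List.map_map]
      exact List.reverse_perm _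
    rw [List.map_append]
    refine (a2.append_right _).nodup_iff.2 (a1.sublist ?_)
    rw [← List.map_append]
    exact ((hS.trans (List.sublist_append_right _ _)).append_right _).map _
  · rcases List.mem_append.1 hr with hr | hr
    · obtain ⟨r', h1, rfl⟩ := List.mem_map.1 (List.mem_reverse.1 hr)
      obtain ⟨a1, a2, a3⟩ := h.pend r' (mem r' (by simp [hS.subset h1])).1
      exact ⟨show 2 ^ (i + 1) ≤ 2 * eu r' by rw [pow_succ]; omega, a2, a3⟩
    · obtain ⟨h1, h2⟩ := List.mem_filter.1 hr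
      obtain ⟨_, a2, a3⟩ := h.pend r h1
      simp only [Bool.not_eq_eq_eq_not, Bool.not_true, decide_eq_false_iff_not] at h2
      exact ⟨by rw [pow_succ]; omega, a2, a3⟩
  · rw [i2] at hr
    rcases List.mem_append.1 hr with hr | hr
    · obtain ⟨h1, h2⟩ := mem r (List.mem_append_left _ hr)
      obtain ⟨a1, _, a3⟩ := h.pend r h1
      have := Nat.one_le_two_pow (n := i)
      exact ⟨by omega, by omega, a3⟩
    · exact h.out r hr
  · have a1 := p2.length_eq
    have a2 := hS.length_le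
    have a3 := h.len
    simp only [i2, List.length_append, List.length_reverse, List.length_map] at a1 ⊢
    omega
  · have a1 : Fs.flatten.length ≤ tp * T.card := by
      rw [List.length_flatten, ← i1]
      simpa using List.sum_le_card_nsmul (Fs.map List.length) T.card (by
        simp only [List.mem_map]
        rintro _ ⟨F, hF, rfl⟩
        exact (i4 F hF).2)
    have a2 := h.small
    simp only [i2, List.length_append, add_mul]
    omega

theorem two_mul_pow_le {i b : ℕ} (hi : i < b) : 2 * 2 ^ i ≤ 2 ^ b := by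
  rw [← pow_succ']; exact Nat.pow_le_pow_right (by omega) hi

theorem classStep_tri {B b : ℕ} {E : List Edge} {tp i : ℕ} {s : List LEdge × List LEdge}
    (h : SOK B (2 ^ b) N P) (hE : EndsIn B T E) (hN : E.length ≤ N) (hi : i < b)
    (hs : KInv E (2 ^ b) tp T i s) : Tri ⟨B, true⟩ (classStep P tp s i) fun s' t =>
      KInv E (2 ^ b) tp T (i + 1) s' ∧ t ≤ tp * (13 * N + 1) + 4 * N := by
  have h2 := two_mul_pow_le hi
  have hX := h.bX
  unfold classStep
  simp only [Tri_bind, Tri_pow2, Tri_filterP, Tri_pure]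
  refine ⟨by omega, (peel_tri (c := ⟨B, true⟩) h s.2 (hs.cok hE hN h2) tp).mono ?_⟩
  rintro q t ⟨hq, ht⟩
  have hq' := hq
  obtain ⟨Fs, -, -, -, -, hc⟩ := hq'
  refine (halve_tri _ fun r hr => by have := (hc.each r hr).2.1; omega).mono ?_
  rintro _ _ ⟨⟨S, hS, rfl⟩, rfl⟩
  have := hc.len
  have := hs.len
  exact ⟨hs.step h2 hq hS, by omega⟩

theorem KInv.init {E : List Edge} (tp : ℕ) (hu : ∀ e ∈ E, 1 ≤ e.2.2) :
    KInv E X tp T 0 (E.zipIdx.map fun p => ((p.1, 1, p.2) : LEdge), []) := by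
  refine ⟨?_, fun r hr => ?_, by simp, by simp, by simp⟩
  · simp only [List.map_map, Function.comp_def, List.zipIdx_map_snd]
    exact List.nodup_range'
  · obtain ⟨p, hp, rfl⟩ := List.mem_map.1 hr
    have := List.fst_mem_of_mem_zipIdx hp
    exact ⟨hu _ this, rfl, p.1, this, rfl, rfl⟩

/-- What holds for the output of the sparsifier on all paths. -/
structure HRes (E : List Edge) (X k : ℕ) (H : List Edge) : Prop where
  each : ∀ e ∈ H, 1 ≤ e.2.2 ∧ e.2.2 < X ∧ ∃ e' ∈ E, e.1 = e'.1 ∧ e.2.1 = e'.2.1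
  len : H.length ≤ E.length
  small : H.length ≤ k

theorem sparsify_tri {B b tp : ℕ} {E : List Edge} (h : SOK B (2 ^ b) N P) (hE : EndsIn B T E)
    (hN : E.length ≤ N) (hu : ∀ e ∈ E, 1 ≤ e.2.2) :
    Tri ⟨B, true⟩ (sparsify b tp P E) fun H t => HRes E (2 ^ b) (b * (tp * T.card)) H ∧
      t ≤ b * (tp * (13 * N + 1) + 4 * N + 1) + 3 * N := by
  unfold sparsify
  simp only [Tri_bind, Tri_zipIdxP, Tri_mapP, List.length_zipIdx]
  refine ⟨hN.trans h.bN, (Tri.iterM (fun i s t => KInv E (2 ^ b) tp T i s ∧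
    t ≤ i * (tp * (13 * N + 1) + 4 * N + 1)) ⟨KInv.init tp hu, by simp⟩ ?_).mono ?_⟩
  · rintro i s t hi ⟨h1, h2⟩
    refine (classStep_tri h hE hN hi h1).mono ?_
    rintro s' t' ⟨k1, k2⟩
    exact ⟨k1, by rw [add_mul]; omega⟩
  · rintro s t ⟨h1, h2⟩
    have := h1.len
    refine ⟨⟨fun e he => ?_, by simp only [List.length_map]; omega, by simpa using h1.small⟩,
      by omega⟩
    obtain ⟨r, hr, rfl⟩ := List.mem_map.1 he
    exact h1.out r hr

end Vale.Agent.P305S
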