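import Vale.Agent.P305S.SparseWp

/-!
# Static tree sampler, part 13: the cut sparsifier (main estimate)
-/

namespace Vale.Agent.P305S

open Vale.Agent.P305E

variable {B : ℕ}

variable {N : ℕ} {T : Finset ℕ} {P : GP}

theorem classStep_wp {b : ℕ} {E : List Edge} {tp i : ℕ} {s : List LEdge × List LEdge}
    (h : SOK B (2 ^ b) N P) (hE : EndsIn B T E) (hN : E.length ≤ N) (hi : i < b)
    (hs : KInv E (2 ^ b) tp T i s) {ε : ℝ} (hε : 0 ≤ ε) (htp : 0 < tp)
    (hz : N * Real.exp (-(ε ^ 2 * tp)) ≤ 1) (f : ℕ → ℕ → ℝ) {a : ℝ} (ha : 0 ≤ a) (p : ℝ) :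
    wp B (classStep P tp s i) (fun s' _ => wsum (edges (s'.1 ++ s'.2)) f
      + a * ind (¬ LowD (1 - ε) (edges (s.1 ++ s.2)) (edges (s'.1 ++ s'.2)))) p
      ≤ wsum (edges (s.1 ++ s.2)) f + a * (tp * (2 * (N * Real.exp (-(ε ^ 2 * tp))))) := by
  have h2 := two_mul_pow_le hi
  have hX := h.bX
  unfold classStep
  simp only [wp_bind, wp_pow2, wp_filterP, wp_pure, if_pos (show 2 ^ i ≤ B by omega)]
  refine wp_le_const_of_Tri (peel_tri (c := ⟨B, true⟩) h s.2 (hs.cok hE hN h2) tp) ?_ p
  rintro ⟨C, out⟩ t ⟨⟨Fs, i1, i2, i3, i4, hc⟩, -⟩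
  simp only at i2 i3 i4 hc
  subst i2
  set O := s.1.filter fun r => !decide (eu r < 2 * 2 ^ i)
  have p1 : (s.1 ++ s.2).Perm (Fs.flatten ++ C ++ O ++ s.2) :=
    (((List.filter_append_perm _ s.1).symm.trans (i3.append_right _))).append_right _
  have mem : ∀ r ∈ Fs.flatten ++ C, r ∈ s.1 ∧ eu r < 2 * 2 ^ i := fun r hr => by
    simpa using List.mem_filter.1 (i3.symm.subset hr)
  have hB : ∀ r ∈ C, 2 * eu r ≤ B := fun r hr => by have := (hc.each r hr).2.1; omega
  have y0 : (0 : ℝ) < 2 ^ i := by positivity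
  set z := Real.exp (-(ε ^ 2 * tp)) with hzd
  have ez : Real.exp (-(ε / 2 ^ i * ε * (2 ^ i : ℕ) * Fs.length)) = z := by
    rw [hzd, i1]
    congr 2
    push_cast
    field_simp
  have w1 := halve_lin O hB f 0
  have w2 := wp_psi (Fs := Fs) O hB (θ := ε / 2 ^ i) (ε := ε) (z := z) (N := N)
    (fun r hr => by
      have a1 : (eu r : ℝ) ≤ 2 * 2 ^ i := by
        exact_mod_cast (mem r (List.mem_append_right _ hr)).2.le
      have a2 : ε / 2 ^ i * eu r ≤ 2 * ε := by
        rw [div_mul_eq_mul_div, div_le_iff₀ y0]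
        nlinarith
      have a3 : 0 ≤ ε / 2 ^ i * eu r := by positivity
      nlinarith)
    (Real.exp_pos _).le hz (fun F hF => by
      have a1 := i3.length_eq
      have a2 := List.length_filter_le (fun r => decide (eu r < 2 * 2 ^ i)) s.1
      have a3 := hs.len
      have a4 := (List.sublist_flatten_of_mem hF).length_le
      simp only [List.length_append] at a1
      omega)
  have w3 := wp_mul_left (B := B) (foldM halveStep O C) a
    (fun acc _ => psi Fs C O (ε / 2 ^ i) ε z acc) 0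
  have w4 := wp_add (B := B) (foldM halveStep O C) (fun acc _ => wsum (edges acc) f)
    (fun acc _ => a * psi Fs C O (ε / 2 ^ i) ε z acc) 0 (a * 0)
  have w5 := wp_add_const (B := B) (foldM halveStep O C) (fun acc _ => wsum (edges acc) f
    + a * psi Fs C O (ε / 2 ^ i) ε z acc) (0 + a * 0) (wsum (edges (Fs.flatten ++ s.2)) f)
  refine le_trans (wp_le_of_Tri (halve_tri O hB) ?_ p _) (w5.le.trans ?_)
  · rintro _ _ ⟨⟨Z, hZ, rfl⟩, -⟩
    have k : ind (¬ LowD (1 - ε) (edges (s.1 ++ s.2))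
        (edges ((Z.map dbl).reverse ++ O ++ (Fs.flatten ++ s.2))))
        ≤ psi Fs C O (ε / 2 ^ i) ε z ((Z.map dbl).reverse ++ O) := by
      refine ind_le (Finset.sum_nonneg fun _ _ => Finset.sum_nonneg fun _ _ => by positivity)
        fun hn => ?_
      rw [← ez]
      refine one_le_psi (out := s.2) (fun e => by simp [e] at i1; omega) (fun F hF => (i4 F hF).1)
        (fun r hr => (hs.pend r (mem r (List.mem_append_left _ hr)).1).1) hZ (by positivity) hε
        fun hl => hn fun S => ?_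
      rw [cut, wsum_edges_perm p1]
      exact hl S
    have := mul_le_mul_of_nonneg_left k ha
    rw [edges_append _ (Fs.flatten ++ s.2), wsum_append]
    rw [edges_append _ (Fs.flatten ++ s.2)] at this
    linarith
  · rw [w4, w3, wsum_edges_perm p1]
    rw [i1] at w2
    have := mul_le_mul_of_nonneg_left w2 ha
    simp only [edges_append, wsum_append]
    linarith

/-- The number of forests per class. -/
def Tp (b : ℕ) : ℕ := 4 * b ^ 2 * (6 * b + 20)

theorem two_pow_le_exp (k : ℕ) : (2 : ℝ) ^ k ≤ Real.exp k := by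
  rw [← mul_one (k : ℝ), Real.exp_nat_mul]
  exact pow_le_pow_left₀ (by norm_num) (by linarith [Real.add_one_le_exp 1]) _

theorem Tp_small {b : ℕ} (hb : 0 < b) (hN : N ≤ 2 ^ b) :
    b * (Tp b * (2 * (N * Real.exp (-((1 / (2 * b : ℝ)) ^ 2 * Tp b))))) ≤ 1 / 2 ^ b ∧
      N * Real.exp (-((1 / (2 * b : ℝ)) ^ 2 * Tp b)) ≤ 1 := by
  have hb' : (0 : ℝ) < b := by exact_mod_cast hb
  have e : (1 / (2 * b : ℝ)) ^ 2 * Tp b = (6 * b + 20 : ℕ) := by
    unfold Tp
    push_cast
    field_simp
    ring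
  have a1 : Real.exp (-((6 * b + 20 : ℕ) : ℝ)) ≤ 1 / 2 ^ (6 * b + 20) := by
    rw [Real.exp_neg, one_div]
    exact inv_anti₀ (by positivity) (two_pow_le_exp _)
  have a2 : b * (Tp b * (2 * N)) * 2 ^ b ≤ 2 ^ (6 * b + 20) := by
    have b1 : b ≤ 2 ^ b := Nat.lt_two_pow_self.le
    have b2 : 1 ≤ 2 ^ b := Nat.one_le_two_pow
    have b3 : 6 * b + 20 ≤ 32 * 2 ^ b := by omega
    calc b * (Tp b * (2 * N)) * 2 ^ b
        ≤ 2 ^ b * (4 * (2 ^ b) ^ 2 * (32 * 2 ^ b) * (2 * 2 ^ b)) * 2 ^ b := by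
          unfold Tp; gcongr
      _ = 2 ^ (6 * b + 8) := by ring
      _ ≤ _ := Nat.pow_le_pow_right (by omega) (by omega)
  have a3 : N ≤ 2 ^ (6 * b + 20) := hN.trans (Nat.pow_le_pow_right (by omega) (by omega))
  rw [e]
  have z0 := (Real.exp_pos (-((6 * b + 20 : ℕ) : ℝ))).le
  generalize Real.exp (-((6 * b + 20 : ℕ) : ℝ)) = z at a1 z0
  have a2' : (b : ℝ) * (Tp b * (2 * N)) * 2 ^ b ≤ 2 ^ (6 * b + 20) := by exact_mod_cast a2
  have a3' : (N : ℝ) ≤ 2 ^ (6 * b + 20) := by exact_mod_cast a3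
  have w0 : (0 : ℝ) < 2 ^ (6 * b + 20) := by positivity
  generalize (2 : ℝ) ^ (6 * b + 20) = W at a1 a2' a3' w0
  clear a2 a3 e hN
  generalize Tp b = n at a2' ⊢
  constructor
  · calc _ = (b * (n * (2 * N)) : ℝ) * z := by ring
      _ ≤ (b * (n * (2 * N)) : ℝ) * (1 / W) :=
        mul_le_mul_of_nonneg_left a1 (by positivity)
      _ ≤ _ := by
        rw [mul_one_div, div_le_div_iff₀ (by positivity) (by positivity)]
        linarith
  · calc _ ≤ (N : ℝ) * (1 / W) := mul_le_mul_of_nonneg_left a1 (by positivity)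
      _ ≤ 1 := by rw [mul_one_div, div_le_one (by positivity)]; exact a3'

theorem sparsify_wp {b : ℕ} {E : List Edge} (h : SOK B (2 ^ b) N P) (hE : EndsIn B T E)
    (hN : E.length ≤ N) (hb : N ≤ 2 ^ b) (hu : ∀ e ∈ E, 1 ≤ e.2.2) {f : ℕ → ℕ → ℝ}
    (hf : ∀ x y, 0 ≤ f x y) {a : ℝ} (ha : 0 ≤ a) (p : ℝ) :
    wp B (sparsify b (Tp b) P E) (fun H _ => wsum H f + a * ind (¬ Dom 2 E H)) p
      ≤ wsum E f + a * ((tot E + 1) / 2 ^ b) := by
  set ε : ℝ := 1 / (2 * b) with hε
  set δ : ℝ := Tp b * (2 * (N * Real.exp (-(ε ^ 2 * Tp b)))) with hδ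
  have ε0 : 0 ≤ ε := by positivity
  have hg : ∀ W : List Edge, wsum W (fun x y => f x y + a / 2 ^ b * 1)
      = wsum W f + a / 2 ^ b * tot W := fun W => by rw [wsum_add, wsum_mul, tot]
  unfold sparsify zipIdxP
  simp only [wp_bind, wp_need, wp_pay, wp_mapP, if_pos (hN.trans h.bN)]
  refine (wp_iterM_le (fun i s _ => KInv E (2 ^ b) (Tp b) T i s)
    (fun i s _ => wsum (edges (s.1 ++ s.2)) (fun x y => f x y + a / 2 ^ b * 1)
      + a * (ind (¬ LowD (1 - i * ε) E (edges (s.1 ++ s.2))) + (b - i) * δ)) (KInv.init _ hu)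
    (fun i s t hi hs => ((classStep_tri h hE hN hi hs).mono fun _ _ h => h.1).par) ?_ ?_).trans ?_
  · intro i s t hi hs
    obtain ⟨-, z1⟩ := Tp_small (N := N) (by omega : 0 < b) hb
    have w := classStep_wp h hE hN hi hs ε0 (by unfold Tp; have : 0 < b := by omega
                                                positivity) z1
      (fun x y => f x y + a / 2 ^ b * 1) ha 0
    have w5 := wp_add_const (B := B) (classStep P (Tp b) s i) (fun s' _ =>
      wsum (edges (s'.1 ++ s'.2)) (fun x y => f x y + a / 2 ^ b * 1)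
      + a * ind (¬ LowD (1 - ε) (edges (s.1 ++ s.2)) (edges (s'.1 ++ s'.2)))) 0
      (a * (ind (¬ LowD (1 - i * ε) E (edges (s.1 ++ s.2))) + (b - (i + 1 : ℕ)) * δ))
    refine le_trans (wp_le_of_Tri (classStep_tri h hE hN hi hs) ?_ p _) (w5.le.trans ?_)
    · intro s' _ _
      have k : ind (¬ LowD (1 - (i + 1 : ℕ) * ε) E (edges (s'.1 ++ s'.2)))
          ≤ ind (¬ LowD (1 - ε) (edges (s.1 ++ s.2)) (edges (s'.1 ++ s'.2)))
            + ind (¬ LowD (1 - i * ε) E (edges (s.1 ++ s.2))) := by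
        refine ind_le (add_nonneg (ind_nonneg _) (ind_nonneg _)) fun hn => ?_
        by_cases k1 : LowD (1 - ε) (edges (s.1 ++ s.2)) (edges (s'.1 ++ s'.2))
        · by_cases k2 : LowD (1 - i * ε) E (edges (s.1 ++ s.2))
          · refine absurd (fun S => ?_) hn
            have b1 : (1 : ℝ) ≤ b := by exact_mod_cast (by omega : 1 ≤ b)
            have e1 : ε ≤ 1 := by rw [hε, div_le_one (by linarith)]; linarith
            have c1 := mul_le_mul_of_nonneg_left (k2 S) (sub_nonneg.2 e1)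
            have c2 := k1 S
            have c3 : 0 ≤ (i * ε * ε) * cut E S := mul_nonneg (by positivity) (cut_nonneg _ _)
            push_cast
            nlinarith
          · rw [ind_pos k2]; linarith [ind_nonneg (¬ LowD (1 - ε) (edges (s.1 ++ s.2))
              (edges (s'.1 ++ s'.2)))]
        · rw [ind_pos k1]; linarith [ind_nonneg (¬ LowD (1 - i * ε) E (edges (s.1 ++ s.2)))]
      nlinarith [mul_le_mul_of_nonneg_left k ha]
    · push_cast
      nlinarith
  · rintro ⟨pend, out⟩ t hs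
    have e : out.map (fun r => r.1) = edges out := rfl
    have n1 : 0 ≤ wsum (edges pend) f := wsum_nonneg fun _ _ => hf _ _
    have n2 := tot_nonneg (edges out)
    have k : ind (¬ Dom 2 E (edges out)) ≤ tot (edges pend) / 2 ^ b
        + ind (¬ LowD (1 - b * ε) E (edges (pend ++ out))) := by
      have n3 : 0 ≤ tot (edges pend) / 2 ^ b := div_nonneg (tot_nonneg _) (by positivity)
      refine ind_le (add_nonneg n3 (ind_nonneg _)) fun hn => ?_
      rcases pend with _ | ⟨r, pend⟩
      · rw [ind_pos fun hl => hn fun S => ?_]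
        · linarith
        · have c1 := hl S
          have c2 : (b : ℝ) * ε ≤ 1 / 2 := by
            rw [hε]
            rcases Nat.eq_zero_or_pos b with rfl | hb
            · simp
            · have : (0 : ℝ) < b := by exact_mod_cast hb
              exact le_of_eq (by field_simp)
          have c3 := cut_nonneg E S
          simp only [List.nil_append] at c1
          nlinarith
      · have c1 : (2 : ℝ) ^ b ≤ eu r := by exact_mod_cast (hs.pend r (by simp)).1
        have c2 := tot_nonneg (edges pend)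
        have c3 : 1 ≤ tot (edges (r :: pend)) / 2 ^ b := by
          rw [one_le_div (by positivity)]
          simp only [tot, edges_cons, wsum_cons] at c2 ⊢
          linarith
        linarith [ind_nonneg (¬ LowD (1 - b * ε) E (edges (r :: pend ++ out)))]
    have k' := mul_le_mul_of_nonneg_left k ha
    have n4 : 0 ≤ a / 2 ^ b * tot (edges out) := by positivity
    rw [edges_append] at k'
    simp only [e, edges_append, wsum_append, sub_self, zero_mul, add_zero]
    rw [hg, hg]
    have : a * (tot (edges pend) / 2 ^ b) = a / 2 ^ b * tot (edges pend) := by ring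
    linarith
  · have e : edges (E.zipIdx.map fun p => ((p.1, 1, p.2) : LEdge)) = E := by
      simp [edges, Function.comp_def]
    simp only [List.append_nil, e, hg, Nat.cast_zero, zero_mul, sub_zero]
    rw [ind_neg (not_not.2 (show LowD 1 E E from fun S => by simp))]
    have k : b * δ ≤ 1 / 2 ^ b := by
      rcases Nat.eq_zero_or_pos b with rfl | hb0
      · simp
      · exact (Tp_small hb0 hb).1
    have := mul_le_mul_of_nonneg_left k ha
    have e2 : a * ((tot E + 1) / 2 ^ b) = a / 2 ^ b * tot E + a * (1 / 2 ^ b) := by ring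
    linarith

end Vale.Agent.P305S
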