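import Vale.Agent.P305S.Sparse

/-!
# Static tree sampler, part 12: the cut sparsifier (expectations)
-/

namespace Vale.Agent.P305S

open Vale.Agent.P305E

open Classical in
/-- The indicator of a statement. -/
noncomputable def ind (p : Prop) : ℝ := if p then 1 else 0

theorem ind_nonneg (p : Prop) : 0 ≤ ind p := by unfold ind; split_ifs <;> norm_num
theorem ind_le_one (p : Prop) : ind p ≤ 1 := by unfold ind; split_ifs <;> norm_num
theorem ind_pos {p : Prop} (h : p) : ind p = 1 := by simp [ind, h]
theorem ind_neg {p : Prop} (h : ¬ p) : ind p = 0 := by simp [ind, h]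
theorem ind_le {p : Prop} {x : ℝ} (h0 : 0 ≤ x) (h1 : p → 1 ≤ x) : ind p ≤ x := by
  unfold ind; split_ifs with h
  exacts [h1 h, h0]

@[simp] theorem edges_append (A C : List LEdge) : edges (A ++ C) = edges A ++ edges C := by
  simp [edges]

theorem wsum_edges_perm {A C : List LEdge} (h : A.Perm C) (f : ℕ → ℕ → ℝ) :
    wsum (edges A) f = wsum (edges C) f := wsum_perm (h.map _) f

/-- Every cut of `E` is at least `a` times the cut of `E₀`. -/
def LowD (a : ℝ) (E₀ E : List Edge) : Prop := ∀ S, a * cut E₀ S ≤ cut E S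

variable {B : ℕ}

theorem wp_halveStep {acc : List LEdge} {r : LEdge} (h : 2 * eu r ≤ B) (F : List LEdge → ℝ)
    (p : ℝ) : wp B (halveStep acc r) (fun a _ => F a) p = (F (dbl r :: acc) + F acc) / 2 := by
  simp only [halveStep, wp_bind, wp_flip, if_true, wp_num, if_pos h, wp_pure, Bool.false_eq_true,
    if_false, dbl]

theorem halve_lin {C : List LEdge} (O : List LEdge) (hB : ∀ r ∈ C, 2 * eu r ≤ B)
    (h : ℕ → ℕ → ℝ) (p : ℝ) : wp B (foldM halveStep O C) (fun acc _ => wsum (edges acc) h) p
      ≤ wsum (edges C) h + wsum (edges O) h := by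
  have := wp_foldM_le (B := B) (f := halveStep) (l := C) (s := O)
    (G := fun acc _ => wsum (edges acc) h) (p := p) (fun _ _ _ => True)
    (fun pre acc _ => wsum (edges acc) h + wsum (edges C) h - wsum (edges pre) h) trivial
    (fun _ _ _ _ _ _ _ => Par_true _)
    (fun pre r rest acc t e _ => by
      rw [wp_halveStep (hB r (by simp [e]))
        fun a => wsum (edges a) h + wsum (edges C) h - wsum (edges (pre ++ [r])) h]
      simp only [edges_cons, wsum_cons, edges_append, wsum_append, edges_nil, wsum_nil, dbl]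
      push_cast
      linarith)
    (fun _ _ _ => by simp)
  simpa [add_comm] using this

theorem halve_exp {C : List LEdge} (O : List LEdge) (hB : ∀ r ∈ C, 2 * eu r ≤ B) {θ η : ℝ}
    (hθ : ∀ r ∈ C, (θ * eu r) ^ 2 / 2 ≤ η * eu r) (S : ℕ → Prop) (p : ℝ) :
    wp B (foldM halveStep O C) (fun acc _ => Real.exp (θ * (cut (edges C) S + cut (edges O) S
      - cut (edges acc) S) - η * cut (edges C) S)) p ≤ 1 := by
  have := wp_foldM_le (B := B) (f := halveStep) (l := C) (s := O)
    (G := fun acc _ => Real.exp (θ * (cut (edges C) S + cut (edges O) S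
      - cut (edges acc) S) - η * cut (edges C) S)) (p := p) (fun _ _ _ => True)
    (fun pre acc _ => Real.exp (θ * (cut (edges pre) S + cut (edges O) S
      - cut (edges acc) S) - η * cut (edges pre) S)) trivial
    (fun _ _ _ _ _ _ _ => Par_true _)
    (fun pre r rest acc t e _ => by
      rw [wp_halveStep (hB r (by simp [e]))
        fun a => Real.exp (θ * (cut (edges (pre ++ [r])) S + cut (edges O) S
          - cut (edges a) S) - η * cut (edges (pre ++ [r])) S)]
      have k := hθ r (by simp [e])
      simp only [cut, edges_cons, wsum_cons, edges_append, wsum_append, edges_nil, wsum_nil, dbl]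
      set A := θ * (wsum (edges pre) (sep S) + wsum (edges O) (sep S) - wsum (edges acc) (sep S))
        - η * wsum (edges pre) (sep S) with hA
      have hs : sep S (ex r) (ey r) = 0 ∨ sep S (ex r) (ey r) = 1 := by
        unfold sep; split_ifs <;> simp
      rcases hs with hs | hs
      · simp only [ex, ey] at hs
        simp [hs, hA]
      · simp only [ex, ey] at hs
        rw [hs]
        have k2 := exp_sign_le (θ * eu r)
        have k3 : Real.exp (A - η * eu r) * Real.exp ((θ * eu r) ^ 2 / 2) ≤ Real.exp A := by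
          rw [← Real.exp_add]
          exact Real.exp_le_exp.2 (by linarith)
        refine le_trans (le_of_eq ?_)
          ((mul_le_mul_of_nonneg_left k2 (Real.exp_pos (A - η * eu r)).le).trans k3)
        rw [← mul_div_assoc, mul_add (Real.exp _), ← Real.exp_add, ← Real.exp_add,
          add_comm (Real.exp (A - _ + θ * _))]
        congr 3 <;> (simp only [hA, eu]; push_cast; ring))
    (fun _ _ _ => le_rfl)
  simpa [cut] using this

open Classical in
/-- The edges of `F` that are cut by `S`. -/
noncomputable def crs (F : List LEdge) (S : ℕ → Prop) : Finset LEdge :=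
  F.toFinset.filter fun r => ¬ (S (ex r) ↔ S (ey r))

open Classical in
/-- A cut with given crossing edges. -/
noncomputable def rep (F : List LEdge) (Y : Finset LEdge) : ℕ → Prop :=
  if h : ∃ S, crs F S = Y then h.choose else fun _ => True

theorem crs_rep (F : List LEdge) (S : ℕ → Prop) : crs F (rep F (crs F S)) = crs F S := by
  have h : ∃ S', crs F S' = crs F S := ⟨S, rfl⟩
  rw [rep, dif_pos h]
  exact h.choose_spec

theorem Spans.sep_eq {F C : List LEdge} (h : Spans F C) {S S' : ℕ → Prop}
    (e : crs F S' = crs F S) : ∀ r ∈ C, sep S' (ex r) (ey r) = sep S (ex r) (ey r) := by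
  intro r hr
  have := h (fun v => (S v ↔ S' v)) (fun r hr => by
    have := Finset.ext_iff.1 e r
    simp only [crs, Finset.mem_filter, List.mem_toFinset, hr, true_and] at this
    apply propext
    tauto) r hr
  have k : (S' (ex r) ↔ S' (ey r)) ↔ (S (ex r) ↔ S (ey r)) := by
    have := iff_of_eq this
    tauto
  unfold sep
  by_cases hS : S (ex r) ↔ S (ey r)
  · rw [if_pos hS, if_pos (k.2 hS)]
  · rw [if_neg hS, if_neg fun h => hS (k.1 h)]

theorem card_crs_le {F : List LEdge} {y : ℕ} (h : ∀ r ∈ F, y ≤ eu r) (S : ℕ → Prop) :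
    (y : ℝ) * (crs F S).card ≤ cut (edges F) S := by
  induction F with
  | nil => simp [crs, cut]
  | cons r F ih =>
    have a := ih fun r' hr' => h r' (by simp [hr'])
    have b : (y : ℝ) ≤ eu r := by exact_mod_cast h r (by simp)
    have y0 : (0 : ℝ) ≤ y := Nat.cast_nonneg _
    simp only [cut, edges_cons, wsum_cons] at a ⊢
    by_cases hs : S (ex r) ↔ S (ey r)
    · have : crs (r :: F) S = crs F S := by simp [crs, Finset.filter_insert, hs]
      rw [this]
      have := mul_nonneg (y0.trans b) (sep_nonneg S r.1.1 r.1.2.1)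
      linarith
    · have e : crs (r :: F) S = insert r (crs F S) := by simp [crs, Finset.filter_insert, hs]
      have c : ((crs (r :: F) S).card : ℝ) ≤ (crs F S).card + 1 := by
        rw [e]; exact_mod_cast Finset.card_insert_le _ _
      have s : sep S r.1.1 r.1.2.1 = 1 := by unfold sep; rw [if_neg hs]
      rw [s]
      nlinarith

theorem cut_flatten_ge {Fs : List (List LEdge)} {a : ℝ} {S : ℕ → Prop}
    (h : ∀ F ∈ Fs, a ≤ cut (edges F) S) : Fs.length * a ≤ cut (edges Fs.flatten) S := by
  induction Fs with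
  | nil => simp [cut]
  | cons F Fs ih =>
    have a1 := ih fun F' hF => h F' (by simp [hF])
    have a2 := h F (by simp)
    simp only [cut, List.flatten_cons, edges_append, wsum_append, List.length_cons] at a1 a2 ⊢
    push_cast
    linarith

theorem cut_dbl (Z : List LEdge) (S : ℕ → Prop) :
    cut (edges (Z.map dbl).reverse) S = 2 * cut (edges Z) S := by
  rw [cut, wsum_edges_perm (List.reverse_perm _)]
  induction Z with
  | nil => simp [cut]
  | cons r Z ih =>
    simp only [List.map_cons, edges_cons, wsum_cons, ih, cut, dbl]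
    push_cast
    ring

open Classical in
/-- The potential for the union bound. -/
noncomputable def psi (Fs : List (List LEdge)) (C O : List LEdge) (θ ε z : ℝ)
    (acc : List LEdge) : ℝ :=
  ∑ F ∈ Fs.toFinset, ∑ Y ∈ F.toFinset.powerset.erase ∅, z ^ Y.card *
    Real.exp (θ * (cut (edges C) (rep F Y) + cut (edges O) (rep F Y) - cut (edges acc) (rep F Y))
      - θ * ε * cut (edges C) (rep F Y))

theorem one_le_psi {Fs : List (List LEdge)} {C O Z out : List LEdge} {θ ε : ℝ} {y : ℕ}
    (hne : Fs ≠ []) (hs : ∀ F ∈ Fs, Spans F C) (hy : ∀ r ∈ Fs.flatten, y ≤ eu r)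
    (hZ : Z.Sublist C) (hθ : 0 ≤ θ) (hε : 0 ≤ ε)
    (h : ¬ LowD (1 - ε) (edges (Fs.flatten ++ C ++ O ++ out))
      (edges ((Z.map dbl).reverse ++ O ++ (Fs.flatten ++ out)))) :
    1 ≤ psi Fs C O θ ε (Real.exp (-(θ * ε * y * Fs.length))) ((Z.map dbl).reverse ++ O) := by
  classical
  simp only [LowD, not_forall, not_le] at h
  obtain ⟨S, hS⟩ := h
  have split : ∀ (A C : List LEdge) S, cut (edges (A ++ C)) S = cut (edges A) S + cut (edges C) S :=
    fun A C S => by simp [cut]
  simp only [split, cut_dbl] at hS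
  obtain ⟨F, hF, hmin⟩ := Finset.exists_min_image Fs.toFinset (fun F => (crs F S).card)
    (by simpa using hne)
  have hF' := List.mem_toFinset.1 hF
  have n1 := cut_nonneg (edges O) S
  have n2 := cut_nonneg (edges out) S
  have n3 := cut_nonneg (edges Z) S
  have n4 := cut_nonneg (edges Fs.flatten) S
  have n5 := cut_nonneg (edges C) S
  have low : Fs.length * ((y : ℝ) * (crs F S).card) ≤ cut (edges Fs.flatten) S :=
    cut_flatten_ge fun F' hF' => le_trans
      (mul_le_mul_of_nonneg_left (by exact_mod_cast hmin F' (List.mem_toFinset.2 hF'))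
        (Nat.cast_nonneg _))
      (card_crs_le (fun r hr => hy r (List.mem_flatten.2 ⟨F', hF', hr⟩)) S)
  have same : ∀ W : List LEdge, (∀ r ∈ W, r ∈ C) →
      cut (edges W) (rep F (crs F S)) = cut (edges W) S := fun W hW =>
    wsum_congr fun e he => by
      obtain ⟨r, hr, rfl⟩ := mem_edges.1 he
      exact (hs F hF').sep_eq (crs_rep F S) r (hW r hr)
  have ne : crs F S ≠ ∅ := by
    intro e
    have : cut (edges C) S = 0 := by
      refine (wsum_congr fun e he => ?_).trans (wsum_zero _)
      obtain ⟨r, hr, rfl⟩ := mem_edges.1 he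
      have := (hs F hF').sep_eq (S' := S) (S := fun _ => True) (by rw [e]; simp [crs]) r hr
      rw [this]
      simp [sep]
    nlinarith
  have nn : ∀ (F : List LEdge) (Y : Finset LEdge) (x : ℝ),
      0 ≤ Real.exp (-(θ * ε * y * Fs.length)) ^ Y.card * Real.exp x := fun _ _ _ => by positivity
  unfold psi
  refine le_trans ?_ (Finset.single_le_sum (fun F _ => Finset.sum_nonneg fun Y _ => nn F Y _) hF)
  refine le_trans ?_ (Finset.single_le_sum (fun Y _ => nn F Y _)
    (Finset.mem_erase.2 ⟨ne, Finset.mem_powerset.2 (Finset.filter_subset _ _)⟩))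
  rw [← Real.exp_nat_mul, ← Real.exp_add, split, cut_dbl, same C fun _ h => h,
    same Z fun _ h => hZ.subset h]
  refine Real.one_le_exp ?_
  have k : ε * (Fs.length * ((y : ℝ) * (crs F S).card)) + ε * cut (edges C) S
      ≤ cut (edges C) S - 2 * cut (edges Z) S := by nlinarith
  nlinarith [mul_le_mul_of_nonneg_left k hθ]

theorem sum_powerset_le (s : Finset LEdge) {z : ℝ} {N : ℕ} (hz : 0 ≤ z) (hs : s.card ≤ N)
    (hN : N * z ≤ 1) : ∑ Y ∈ s.powerset.erase ∅, z ^ Y.card ≤ 2 * (N * z) := by
  have a1 := Finset.prod_one_add (f := fun _ : LEdge => z) s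
  simp only [Finset.prod_const] at a1
  rw [← Finset.add_sum_erase _ _ (Finset.empty_mem_powerset s), Finset.card_empty, pow_zero] at a1
  have a2 : (1 + z) ^ s.card ≤ Real.exp (N * z) := by
    calc (1 + z) ^ s.card ≤ (1 + z) ^ N := pow_le_pow_right₀ (by linarith) hs
      _ ≤ Real.exp z ^ N := pow_le_pow_left₀ (by linarith) (by linarith [Real.add_one_le_exp z]) _
      _ = _ := (Real.exp_nat_mul _ _).symm
  have n : (0 : ℝ) ≤ N * z := by positivity
  have a3 := Real.abs_exp_sub_one_le (x := N * z) (by rwa [abs_of_nonneg n])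
  rw [abs_of_nonneg n] at a3
  have := le_abs_self (Real.exp (N * z) - 1)
  linarith

theorem wp_psi {Fs : List (List LEdge)} {C : List LEdge} (O : List LEdge)
    (hB : ∀ r ∈ C, 2 * eu r ≤ B) {θ ε z : ℝ} {N : ℕ}
    (hθ : ∀ r ∈ C, (θ * eu r) ^ 2 / 2 ≤ θ * ε * eu r) (hz : 0 ≤ z) (hN : N * z ≤ 1)
    (hF : ∀ F ∈ Fs, F.length ≤ N) :
    wp B (foldM halveStep O C) (fun acc _ => psi Fs C O θ ε z acc) 0
      ≤ Fs.length * (2 * (N * z)) := by
  classical
  have key : ∀ {ι : Type} (s : Finset ι) (G : ι → List LEdge → ℝ) (a : ι → ℝ),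
      (∀ i ∈ s, wp B (foldM halveStep O C) (fun acc _ => G i acc) 0 ≤ a i) →
      wp B (foldM halveStep O C) (fun acc _ => ∑ i ∈ s, G i acc) 0 ≤ ∑ i ∈ s, a i := by
    intro ι s G a h
    have := wp_sum (B := B) s (foldM halveStep O C) (fun i acc _ => G i acc) fun _ => 0
    simp only [Finset.sum_const_zero] at this
    rw [this]
    exact Finset.sum_le_sum h
  unfold psi
  refine (key _ _ (fun _ => 2 * (N * z)) fun F hF' => ?_).trans ?_
  · refine (key _ _ (fun Y => z ^ Y.card) fun Y _ => ?_).trans (sum_powerset_le _ hz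
      ((List.toFinset_card_le _).trans (hF F (List.mem_toFinset.1 hF'))) hN)
    have := wp_mul_left (B := B) (foldM halveStep O C) (z ^ Y.card) (fun acc _ =>
      Real.exp (θ * (cut (edges C) (rep F Y) + cut (edges O) (rep F Y) - cut (edges acc) (rep F Y))
        - θ * ε * cut (edges C) (rep F Y))) 0
    rw [mul_zero] at this
    rw [this]
    exact mul_le_of_le_one_right (by positivity) (halve_exp O hB hθ _ _)
  · rw [Finset.sum_const, nsmul_eq_mul]
    exact mul_le_mul_of_nonneg_right (by exact_mod_cast List.toFinset_card_le _) (by positivity)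

end Vale.Agent.P305S
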