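import Vale.Agent.P305S.Defs

/-!
# Static tree sampler, part 1: one scale (clusters with a spanning tree), loads and portals
-/

namespace Vale.Agent.P305S

open Function (update)

/-- An edge with a length and an index. -/
abbrev LEdge : Type := Edge × ℕ × ℕ

/-- First end. -/
abbrev ex (r : LEdge) : ℕ := r.1.1
/-- Second end. -/
abbrev ey (r : LEdge) : ℕ := r.1.2.1
/-- Capacity. -/
abbrev eu (r : LEdge) : ℕ := r.1.2.2
/-- Length. -/
abbrev el (r : LEdge) : ℕ := r.2.1
/-- Index. -/
abbrev ei (r : LEdge) : ℕ := r.2.2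

/-- A tree edge: a vertex, its predecessor and the edge between them. -/
abbrev TEdge : Type := ℕ × ℕ × LEdge

/-- The vertices that have a predecessor. -/
def verts (l : List TEdge) : List ℕ := l.map fun t => t.1

@[simp] theorem verts_nil : verts [] = [] := rfl
@[simp] theorem verts_cons (t : TEdge) (l : List TEdge) : verts (t :: l) = t.1 :: verts l := rfl

theorem mem_verts {l : List TEdge} {t : TEdge} (h : t ∈ l) : t.1 ∈ verts l :=
  List.mem_map.2 ⟨t, h, rfl⟩

/-- The list of tree edges (latest first) is a forest of the clusters `ctr`, with edges in `EL`. -/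
def OrdOK (EL : List LEdge) (ctr : ℕ → ℕ) : List TEdge → Prop
  | [] => True
  | t :: l => t.1 ∉ verts l ∧ (∀ s ∈ l, s.2.1 ≠ t.1) ∧ t.2.1 ≠ t.1 ∧ t.2.2 ∈ EL ∧
      ((ex t.2.2 = t.1 ∧ ey t.2.2 = t.2.1) ∨ (ex t.2.2 = t.2.1 ∧ ey t.2.2 = t.1)) ∧
      ctr t.1 = ctr t.2.1 ∧ (t.2.1 ∈ verts l ∨ ctr t.2.1 = t.2.1) ∧ OrdOK EL ctr l

theorem OrdOK.mono {EL EL' : List LEdge} {ctr : ℕ → ℕ} (h : ∀ r ∈ EL, r ∈ EL') :
    ∀ {l : List TEdge}, OrdOK EL ctr l → OrdOK EL' ctr l
  | [], _ => trivial
  | _ :: _, ⟨h1, h2, h3, h4, h5, h6, h7, h8⟩ => ⟨h1, h2, h3, h _ h4, h5, h6, h7, h8.mono h⟩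

theorem OrdOK.edge {EL : List LEdge} {ctr : ℕ → ℕ} : ∀ {l : List TEdge}, OrdOK EL ctr l →
    ∀ t ∈ l, t.2.2 ∈ EL ∧
      ((ex t.2.2 = t.1 ∧ ey t.2.2 = t.2.1) ∨ (ex t.2.2 = t.2.1 ∧ ey t.2.2 = t.1)) ∧
      ctr t.1 = ctr t.2.1
  | [], _ => by simp
  | s :: l, ⟨_, _, _, h4, h5, h6, _, h8⟩ => by
    intro t ht
    rcases List.mem_cons.1 ht with rfl | ht
    · exact ⟨h4, h5, h6⟩
    · exact h8.edge t ht

theorem OrdOK.nodup {EL : List LEdge} {ctr : ℕ → ℕ} : ∀ {l : List TEdge}, OrdOK EL ctr l →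
    (verts l).Nodup
  | [], _ => by simp
  | _ :: _, ⟨h1, _, _, _, _, _, _, h8⟩ => by
    simp only [verts_cons, List.nodup_cons]
    exact ⟨h1, h8.nodup⟩

/-- One scale: the centres of the clusters and the tree edges. -/
structure ScaleOK (EL : List LEdge) (ctr : ℕ → ℕ) (ord : List TEdge) : Prop where
  ok : OrdOK EL ctr ord
  out : ∀ w, w ∉ verts ord → ctr w = w

/-- A function that is constant along the edges is constant on clusters. -/
theorem OrdOK.const {γ : Type*} {EL : List LEdge} {ctr : ℕ → ℕ} {χ : ℕ → γ}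
    (hχ : ∀ r ∈ EL, χ (ex r) = χ (ey r)) :
    ∀ {l : List TEdge}, OrdOK EL ctr l → ∀ w ∈ verts l, χ (ctr w) = χ w
  | [], _ => by simp
  | t :: l, ⟨_, _, _, h4, h5, h6, h7, h8⟩ => by
    intro w hw
    rcases List.mem_cons.1 hw with rfl | hw
    · have e1 : χ t.2.1 = χ t.1 := by
        have := hχ _ h4
        rcases h5 with ⟨a, b⟩ | ⟨a, b⟩
        · rw [a, b] at this; exact this.symm
        · rw [a, b] at this; exact this
      rw [h6, ← e1]
      rcases h7 with h7 | h7
      · exact h8.const hχ _ h7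
      · rw [h7]
    · exact h8.const hχ w hw

theorem ScaleOK.const {γ : Type*} {EL : List LEdge} {ctr : ℕ → ℕ} {ord : List TEdge}
    (h : ScaleOK EL ctr ord) {χ : ℕ → γ} (hχ : ∀ r ∈ EL, χ (ex r) = χ (ey r)) (w : ℕ) :
    χ (ctr w) = χ w := by
  by_cases hw : w ∈ verts ord
  · exact h.ok.const hχ w hw
  · rw [h.out w hw]

/-! ### Loads -/

/-- Route the masses `sub` to the centres and add the loads of the tree edges to `ld`. -/
def loads : List TEdge → (ℕ → ℕ) → (ℕ → ℕ) → (ℕ → ℕ)
  | [], _, ld => ld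
  | t :: l, sub, ld =>
      loads l (update sub t.2.1 (sub t.2.1 + sub t.1))
        (update ld (ei t.2.2) (ld (ei t.2.2) + sub t.1))

/-- `∑ ld(e) δ(e)`. -/
noncomputable def lsum (EL : List LEdge) (ld : ℕ → ℕ) (δ : LEdge → ℝ) : ℝ :=
  (EL.map fun r => (ld (ei r) : ℝ) * δ r).sum

theorem lsum_update {EL : List LEdge} (hn : (EL.map ei).Nodup) {r₀ : LEdge} (hr : r₀ ∈ EL)
    (ld : ℕ → ℕ) (a : ℕ) (δ : LEdge → ℝ) :
    lsum EL (update ld (ei r₀) (ld (ei r₀) + a)) δ = lsum EL ld δ + a * δ r₀ := by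
  induction EL with
  | nil => simp at hr
  | cons r EL ih =>
    simp only [List.map_cons, List.nodup_cons] at hn
    simp only [lsum, List.map_cons, List.sum_cons] at ih ⊢
    rcases List.mem_cons.1 hr with rfl | hr'
    · have : (EL.map fun r => ((update ld (ei r₀) (ld (ei r₀) + a) (ei r) : ℕ) : ℝ) * δ r)
          = EL.map fun r => (ld (ei r) : ℝ) * δ r := by
        refine List.map_congr_left fun r hr => ?_
        have : ei r ≠ ei r₀ := fun h => hn.1 (List.mem_map.2 ⟨r, hr, h⟩)
        rw [Function.update_of_ne this]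
      rw [this, Function.update_self]
      push_cast
      ring
    · have : ei r ≠ ei r₀ := fun h => hn.1 (List.mem_map.2 ⟨r₀, hr', h.symm⟩)
      rw [Function.update_of_ne this, ih hn.2 hr']
      ring

theorem loads_ge {EL : List LEdge} (hn : (EL.map ei).Nodup) {ctr : ℕ → ℕ} (P : ℕ → ℝ)
    (δ : LEdge → ℝ) : ∀ (l : List TEdge) (s : Finset ℕ) (sub ld : ℕ → ℕ), OrdOK EL ctr l →
      (∀ t ∈ l, t.1 ∈ s ∧ t.2.1 ∈ s) → (∀ t ∈ l, P t.1 ≤ δ t.2.2 + P t.2.1) →
      (∀ w ∈ s, w ∉ verts l → P w ≤ 0) →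
      ∑ w ∈ s, (sub w : ℝ) * P w + lsum EL ld δ ≤ lsum EL (loads l sub ld) δ
  | [], s, sub, ld, _, _, _, h0 => by
    have : ∑ w ∈ s, (sub w : ℝ) * P w ≤ 0 :=
      Finset.sum_nonpos fun w hw =>
        mul_nonpos_of_nonneg_of_nonpos (Nat.cast_nonneg _) (h0 w hw (by simp))
    simp only [loads]
    linarith
  | t :: l, s, sub, ld, ⟨h1, h2, h3, h4, _, _, _, h8⟩, hs, hP, h0 => by
    have ht := hs t (by simp)
    have ih := loads_ge hn P δ l (s.erase t.1) (update sub t.2.1 (sub t.2.1 + sub t.1))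
      (update ld (ei t.2.2) (ld (ei t.2.2) + sub t.1)) h8
      (fun u hu => by
        have := hs u (by simp [hu])
        simp only [Finset.mem_erase]
        exact ⟨⟨fun h => h1 (h ▸ mem_verts hu), this.1⟩, h2 u hu, this.2⟩)
      (fun u hu => hP u (by simp [hu]))
      (fun w hw hw' => by
        simp only [Finset.mem_erase] at hw
        exact h0 w hw.2 (by simp [hw.1, hw']))
    rw [lsum_update hn h4] at ih
    simp only [loads]
    have e1 : ∑ w ∈ s.erase t.1, ((update sub t.2.1 (sub t.2.1 + sub t.1) w : ℕ) : ℝ) * P w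
        = ∑ w ∈ s.erase t.1, (sub w : ℝ) * P w + sub t.1 * P t.2.1 := by
      have hm : t.2.1 ∈ s.erase t.1 := Finset.mem_erase.2 ⟨h3, ht.2⟩
      rw [← Finset.add_sum_erase _ _ hm, ← Finset.add_sum_erase _ (fun w => (sub w : ℝ) * P w) hm,
        Function.update_self]
      have : ∑ w ∈ (s.erase t.1).erase t.2.1,
          ((update sub t.2.1 (sub t.2.1 + sub t.1) w : ℕ) : ℝ) * P w
          = ∑ w ∈ (s.erase t.1).erase t.2.1, (sub w : ℝ) * P w :=
        Finset.sum_congr rfl fun w hw => by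
          rw [Function.update_of_ne (Finset.mem_erase.1 hw).1]
      rw [this]
      push_cast
      ring
    rw [e1] at ih
    rw [← Finset.add_sum_erase _ _ ht.1]
    have h5 := hP t (by simp)
    have h6 : (0 : ℝ) ≤ sub t.1 := Nat.cast_nonneg _
    nlinarith

/-! ### Portals -/

/-- The root of a vertex in the forest without the bad edges. -/
def port (bad : LEdge → Bool) : List TEdge → ℕ → ℕ
  | [] => id
  | t :: l => update (port bad l) t.1 (if bad t.2.2 then t.1 else port bad l t.2.1)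

theorem port_out (bad : LEdge → Bool) : ∀ (l : List TEdge) (w : ℕ), w ∉ verts l →
    port bad l w = w
  | [], _, _ => rfl
  | t :: l, w, hw => by
    simp only [verts_cons, List.mem_cons, not_or] at hw
    simp only [port, Function.update_of_ne hw.1]
    exact port_out bad l w hw.2

theorem port_step {EL : List LEdge} {ctr : ℕ → ℕ} (bad : LEdge → Bool) :
    ∀ {l : List TEdge}, OrdOK EL ctr l → ∀ t ∈ l,
      port bad l t.1 = if bad t.2.2 then t.1 else port bad l t.2.1
  | [], _ => by simp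
  | s :: l, ⟨h1, h2, h3, _, _, _, _, h8⟩ => by
    intro t ht
    rcases List.mem_cons.1 ht with rfl | ht
    · simp only [port, Function.update_self, Function.update_of_ne h3]
    · have a1 : t.1 ≠ s.1 := fun h => h1 (h ▸ mem_verts ht)
      simp only [port, Function.update_of_ne a1, Function.update_of_ne (h2 t ht)]
      exact port_step bad h8 t ht

/-- `z` is an end of a bad edge. -/
def BadEnd (EL : List LEdge) (bad : LEdge → Bool) (z : ℕ) : Prop :=
  ∃ r ∈ EL, bad r = true ∧ (ex r = z ∨ ey r = z)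

theorem port_cases {EL : List LEdge} {ctr : ℕ → ℕ} (bad : LEdge → Bool) :
    ∀ {l : List TEdge}, OrdOK EL ctr l → ∀ w, (w ∈ verts l ∨ ctr w = w) →
      ctr (port bad l w) = ctr w ∧ (port bad l w = ctr w ∨ BadEnd EL bad (port bad l w))
  | [], _ => by
    intro w hw
    simp only [verts_nil, List.not_mem_nil, false_or] at hw
    simp [port, hw]
  | t :: l, ⟨h1, h2, h3, h4, h5, h6, h7, h8⟩ => by
    intro w hw
    by_cases hwt : w = t.1
    · subst hwt
      simp only [port, Function.update_self]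
      by_cases hb : bad t.2.2 = true
      · simp only [hb, if_true, true_and]
        refine Or.inr ⟨t.2.2, h4, hb, ?_⟩
        rcases h5 with ⟨a, _⟩ | ⟨_, a⟩
        · exact Or.inl a
        · exact Or.inr a
      · simp only [hb]
        have := port_cases bad h8 t.2.1 h7
        rw [h6]
        simpa using this
    · simp only [port, Function.update_of_ne hwt]
      refine port_cases bad h8 w ?_
      rcases hw with hw | hw
      · rcases List.mem_cons.1 hw with hw | hw
        · exact absurd hw hwt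
        · exact Or.inl hw
      · exact Or.inr hw

theorem ScaleOK.port {EL : List LEdge} {ctr : ℕ → ℕ} {ord : List TEdge} (h : ScaleOK EL ctr ord)
    (bad : LEdge → Bool) (w : ℕ) :
    ctr (port bad ord w) = ctr w ∧ (port bad ord w = ctr w ∨ BadEnd EL bad (port bad ord w)) := by
  refine port_cases bad h.ok w ?_
  by_cases hw : w ∈ verts ord
  · exact Or.inl hw
  · exact Or.inr (h.out w hw)

end Vale.Agent.P305S
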